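import Crest.Agent.X212.An.Prt
import Crest.Agent.X212.Cyl58.Cps
import Crest.Agent.X212.Loc66.Lim
import Crest.Agent.X212.Abel74.Lim
import Crest.Agent.X212.M.Jcv

/-!
# Row 212, AN-LINCL (helper32): parallel lines and flatness pass to limits
-/

set_option autoImplicit false
set_option linter.unusedSectionVars false
noncomputable section
open scoped Manifold ContDiff Topology InnerProductSpace
open Set Function Filter

namespace Crest.Agent.X212.Mcg32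
open An M Nd18 Cmp73 Pj41 Wz78
open Loc66 (Bub)
open Eqv71 (ME BE Itw cj)

section gen
variable {E : Type} [NormedAddCommGroup E] [NormedSpace ℝ E] [FiniteDimensional ℝ E]
  [MeasurableSpace E] [BorelSpace E]
  {HM : Type} [TopologicalSpace HM] {I : ModelWithCorners ℝ E HM} [I.Boundaryless]
  {M : Type} [TopologicalSpace M] [ChartedSpace HM M] [IsManifold I ∞ M]
  [MeasurableSpace M] [BorelSpace M] [T2Space M] [SecondCountableTopology M]
  {ι : Type} [Fintype ι] {lam : Type} [Fintype lam] {B : Base M ι lam} {O S : Set M} {x : M}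

/-- a parallel line at a point -/
structure LAt (F : Fr I M ι) (m : Md M ι lam) (W : m.Cn) (π : M → CL m.A m.A) (x : M) : Prop where
  sm : SA I π x
  sym : Sym (π x)
  idem : π x * π x = π x
  pg : m.pg x * π x = π x
  tr : LinearMap.trace ℝ _ (π x : m.A →ₗ[ℝ] m.A) = 1
  par : ∀ a, F.D a π x + (m.adW W a x * π x - π x * m.adW W a x) = 0

theorem lin_iff {r : ℕ} {F : Fr I M ι} {c : Cfg M ι lam r} (hO : IsOpen O) :
    Lin F c O ↔ ∃ π, ∀ x ∈ O, LAt F c.m c.W π x :=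
  ⟨fun ⟨π, s, h⟩ => ⟨π, fun x hx => let k := h x hx
      ⟨s.contMDiffAt (hO.mem_nhds hx), k.1, k.2.1, k.2.2.1, k.2.2.2.1, k.2.2.2.2⟩⟩,
    fun ⟨π, h⟩ => ⟨π, fun x hx => (h x hx).sm.contMDiffWithinAt, fun x hx => let k := h x hx
      ⟨k.sym, k.idem, k.pg, k.tr, k.par⟩⟩⟩

theorem norm_le_one {κ : Type} [Fintype κ] {p : En κ} (h : Sym p) (k : p * p = p) : ‖p‖ ≤ 1 := by
  refine p.opNorm_le_bound zero_le_one fun v => ?_
  have h1 : ‖p v‖ ^ 2 ≤ ‖v‖ * ‖p v‖ := by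
    rw [← real_inner_self_eq_norm_sq, h, ← mul_apply_eq_comp, k]
    exact real_inner_le_norm _ _
  nlinarith [norm_nonneg (p v), norm_nonneg v]

/-- transport of a parallel line by a parallel isomorphism -/
theorem LAt.push {F : Fr I M ι} {m m' : Md M ι lam} {W : m.Cn} {V : m'.Cn} {u : M → CL m.V m'.V}
    {π : M → CL m.A m.A} (l : LAt F m W π x) (hB : B.OK I) (h : m.OK I B) (h' : m'.OK I B)
    (e : Iso0 I m m' O u) (hx : x ∈ O) (p : Par0 F W V O u) (s : ∀ a, Skw (W a x))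
    (s' : ∀ a, Skw (V a x)) :
    LAt F m' V (fun y => cj (u y) ∘L π y ∘L cj (trn (u y))) x := by
  have me := Eqv71.me_of_meq (e.mEq (OK.on h _) (OK.on h' _)) hx
  have su : SA I u x := e.su x hx
  have s1 : SA I (fun y => cj (u y)) x := Eqv71.sa_cj su
  have s2 : SA I (fun y => cj (trn (u y))) x := Eqv71.sa_cj (Eqv71.sa_trn su)
  have i0 : Itw I F.e W V u x := fun a => sub_eq_zero.1 (p x hx a)
  have h6 : ∀ a, m.pg x (π x a) = π x a := fun a => congrArg (· a) l.pg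
  have h7 : ∀ a, cj (trn (u x)) (cj (u x) (π x a)) = π x a := fun a => me.trn_cj (h6 a ▸ pg_mem x _)
  refine ⟨Eqv71.sa_comp s1 (Eqv71.sa_comp l.sm s2), fun a b => ?_,
    ContinuousLinearMap.ext fun a => ?_, ContinuousLinearMap.ext fun a => ?_, ?_, fun a => ?_⟩
  · simp only [ContinuousLinearMap.comp_apply]
    rw [Eqv71.inner_cj, l.sym, real_inner_comm, ← Eqv71.inner_cj, real_inner_comm]
  · simp only [mul_apply_eq_comp, ContinuousLinearMap.comp_apply, h7]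
    rw [← mul_apply_eq_comp (π x), l.idem]
  · simp only [mul_apply_eq_comp, ContinuousLinearMap.comp_apply]
    exact (me.pg (BE.refl hB x) hB hB h h' _).trans (congrArg _ (h6 _))
  · refine (LinearMap.trace_comp_comm' (cj (trn (u x))).toLinearMap
      (cj (u x) ∘L π x).toLinearMap).trans ?_
    rw [← l.tr]
    congr 1
    exact LinearMap.ext h7
  · have i1 := i0.cj su s s' a
    have i2 := (i0.trn su s s').cj (Eqv71.sa_trn su) s' s a
    rw [Pre.D_def, Eqv71.dv_ccomp s1 (Eqv71.sa_comp l.sm s2), Eqv71.dv_ccomp l.sm s2,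
      eq_sub_of_add_eq i1, eq_sub_of_add_eq i2, ← Pre.D_def, eq_neg_of_add_eq_zero_left (l.par a)]
    ext1 w
    simp only [ContinuousLinearMap.comp_apply, _root_.add_apply, _root_.sub_apply, _root_.neg_apply,
      mul_apply_eq_comp, map_sub, map_neg, map_add, zero_apply, Md.adW]
    abel

/-- the trace as a continuous linear map -/
def trL (V : Type) [NormedAddCommGroup V] [NormedSpace ℝ V] [FiniteDimensional ℝ V] :
    (V →L[ℝ] V) →L[ℝ] ℝ :=
  LinearMap.toContinuousLinearMap (LinearMap.trace ℝ V ∘ₗ ContinuousLinearMap.coeLM ℝ)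

variable {α : Type} {𝒰 : Ultrafilter α} {G : α → Geo I M ι lam} {G₀ : Geo I M ι lam}

theorem mb_comm {l : Filter α} {F : α → Fr I M ι} {F₀ : Fr I M ι} (f : Abel74.FCv l O F F₀)
    {V : Type} [NormedAddCommGroup V] [NormedSpace ℝ V] {A : α → ι → M → V →L[ℝ] V}
    (hA : ∀ a, MBOn I l O fun i => A i a) {p : α → M → V →L[ℝ] V}
    (h : ∀ x ∈ O, ∀ᶠ q : α × M in l ×ˢ 𝓝 x, SA I (p q.1) q.2 ∧ ‖p q.1 q.2‖ ≤ 1 ∧
      ∀ a, (F q.1).D a (p q.1) q.2 + (A q.1 a q.2 * p q.1 q.2 - p q.1 q.2 * A q.1 a q.2) = 0) :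
    MBOn I l O p :=
  f.mb_par (A := fun n a y => Wz78.ad V (A n a y)) (fun a k x hx => (hA a k x hx).clm _) h

/-- limits of parallel lines in one module -/
theorem lat_lim {F : α → Fr I M ι} {F₀ : Fr I M ι} (f : Loc66.FCv 𝒰 O F F₀) (hO : IsOpen O)
    (hB : B.OK I) {m : Md M ι lam} (hm : m.OK I B) {V : α → m.Cn} {V₀ : m.Cn}
    (hV : ∀ a, Cv I 𝒰 O (fun n => V n a) (V₀ a)) {p : α → M → CL m.A m.A}
    (h : ∀ x ∈ O, ∀ᶠ q : α × M in (𝒰 : Filter α) ×ˢ 𝓝 x, LAt (F q.1) m (V q.1) (p q.1) q.2) :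
    ∃ π, ∀ x ∈ O, LAt F₀ m V₀ π x := by
  have f' : Abel74.FCv 𝒰 O F F₀ := ⟨fun a => (f a).mb, fun a => (f a).pt, f.c hO⟩
  have a1 : ∀ a, Cv I 𝒰 O (fun n => m.adW (V n) a) (m.adW V₀ a) := fun a => (hV a).clm adcL
  obtain ⟨π, hπ⟩ := (mb_comm f' (A := fun n => m.adW (V n)) (p := p) (fun a => (a1 a).mb)
    fun x hx => (h x hx).mono fun q k => ⟨k.sm, norm_le_one k.sym k.idem, k.par⟩).exists_cv
  refine ⟨π, fun x hx => ?_⟩
  have k : ∀ᶠ n in (𝒰 : Filter α), LAt (F n) m (V n) (p n) x :=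
    (h x hx).curry.mono fun _ k => k.self_of_nhds
  refine ⟨hπ.smoothAt hO hx, fun v w => ?_, (hπ.mul hπ).eq_of hπ hx (k.mono fun _ k => k.idem),
    ((Cv.fixed' (Std94.sm_pg hB hm)).mul hπ).eq_of hπ hx (k.mono fun _ k => k.pg),
    (hπ.clm (trL m.A)).eq_of (Cv.const 1) hx (k.mono fun _ k => k.tr), fun a =>
    ((f.D hO hπ a).add (((a1 a).mul hπ).sub (hπ.mul (a1 a)))).eq_of (Cv.const 0) hx
      (k.mono fun _ k => k.par a)⟩
  exact ((hπ.app (Cv.const v)).bil (innerSL ℝ) (Cv.const w)).eq_of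
    ((Cv.const v).bil (innerSL ℝ) (hπ.app (Cv.const w))) hx (k.mono fun _ k => k.sym v w)

variable {r : ℕ} {c : α → Cfg M ι lam r} {c₀ : Cfg M ι lam r} {u : ∀ n, M → CL (c n).m.V c₀.m.V}

/-- **parallel lines pass to limits** -/
theorem lin_lim (h : Bub 𝒰 B O S G G₀ (fun n => (c n).m) (fun n => (c n).W) c₀.m c₀.W u)
    (hm : ∀ᶠ n in (𝒰 : Filter α), (c n).m.OK I B)
    (hl : ∀ᶠ n in (𝒰 : Filter α), Lin (G n).F (c n) (O \ S)) : Lin G₀.F c₀ (O \ S) := by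
  have : ∀ n, ∃ π, Lin (G n).F (c n) (O \ S) → ∀ x ∈ O \ S, LAt (G n).F (c n).m (c n).W π x :=
    fun n => (em _).elim (fun k => ((lin_iff h.op).1 k).imp fun _ k _ => k)
      fun k => ⟨0, fun k' => absurd k' k⟩
  choose π hπ using this
  refine (lin_iff h.op).2 (lat_lim (h.F.mono le_rfl sdiff_subset) h.op h.hB h.hm h.cv_vv
    (p := fun n y => cj (u n y) ∘L π n y ∘L cj (trn (u n y))) fun x hx => ?_)
  obtain ⟨A, a1, a2, a3, a4⟩ := h.iso_cpt isCompact_singleton (singleton_subset_iff.2 hx)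
  have a5 : A ⊆ O := fun _ h => (a3 h).1
  filter_upwards [((a4.and (h.ev_vv a1 a5 a4)).and ((hm.and hl).and h.ok)).prod_mk
    (a1.mem_nhds (a2 rfl))] with q ⟨⟨⟨k1, k2, k3⟩, ⟨k4, k5⟩, k6⟩, k7⟩
  exact (hπ _ k5 _ (a3 k7)).push h.hB k4 h.hm k1 k7 k3 (fun a => k6.2.2.sk a _ (a5 k7))
    fun a => k2.sk a _ k7

/-- **flatness passes to limits** -/
theorem flat_lim {l : Filter α} [l.NeBot] {m : α → Md M ι lam} {W : ∀ n, (m n).Cn}
    {m' : Md M ι lam} {W' : m'.Cn} {u : ∀ n, M → CL (m n).V m'.V}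
    (h : Bub l B O S G G₀ m W m' W' u) (hx : x ∈ O \ S)
    (h0 : ∀ᶠ n in l, (m n).Fg (G n).F (W n) x = 0) : m'.Fg G₀.F W' x = 0 := by
  have := h.nF_cv.eq_of (Cv.const 0) hx (h0.mono fun n k => by rw [k]; simp)
  simpa using this

/-- `ULim` in the language of `Loc66` -/
theorem bub_of {l : Filter α} [l.NeBot] {ζ : α → Circle}
    {e : α → ι → Π x : M, TangentSpace I x} (h : ULim I B l O e c c₀ u ζ) (hO : IsOpen O)
    (hB : B.OK I) (hG : G₀.OK B) (h₀ : Eqv71.Ad0 c₀ B G₀)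
    (ok : ∀ᶠ n in l, (G n).OK B ∧ Eqv71.Ad0 (c n) B (G n) ∧ (G n).F.e = e n)
    (f : Loc66.FCv l O (fun n => (G n).F) G₀.F)
    (a : ∀ a, Cv I l O (fun n => (G n).a a) (G₀.a a)) :
    Bub l B O ∅ G G₀ (fun n => (c n).m) (fun n => (c n).W) c₀.m c₀.W u where
  hB := hB
  hG := hG
  hm := h₀.ok
  hW := h₀.conn
  hO := hO
  hS := isClosed_empty
  ok := ok.mono fun _ k => ⟨k.1, OK.on k.2.1.ok _, IsConn.on k.2.1.conn _⟩
  F := f
  a := a
  iso x hx := let ⟨N, n1, n2, n3⟩ := h.m x hx.1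
    ⟨N, n1.mem_nhds n2, (n3.and ok).mono fun _ k =>
      .of_mEq n1 k.1 (OK.on k.2.2.1.ok _) (OK.on h₀.ok _)⟩
  cv a := ((h.A a).mono le_rfl sdiff_subset).congr' (hO.sdiff isClosed_empty)
    (ok.mono fun n k x _ => by rw [Loc66.dA, Pre.D_def, k.2.2]) fun _ _ => rfl

end gen

variable {Wi : Type} {X : Mf 4} {A κ lam : Type} [Fintype A] [Fintype κ] [Fintype lam]
  [DecidableEq lam] {M : Mark X A κ} {W : World M} {N : ML M lam}
  {Λ : Lns W N} {A' h : Type} [Fintype A'] [DecidableEq A'] [Fintype h] {r n : ℕ}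
  {J : Job Wi Λ A' h r n} {c : M.Cl} {α : Type} {y : α → J.Obc c} {y₀ : J.Obc c}

/-- a limit of objects of a job in the language of `Loc66` -/
theorem bub_job (hJ : J.OK) {l : Filter α} [l.NeBot] {O : Set (W.Z c).M} (hO : IsOpen O) {u ζ}
    (h : ULim (W.Z c).I (J.B c) l O (fun i => J.fr c (y i).s) (fun i => (y i).x) y₀.x u ζ)
    (hs : Tendsto (fun i => (y i).s) l (𝓝 y₀.s)) (h₀ : y₀.Ok) (ok : ∀ᶠ i in l, (y i).Ok) :
    Bub l (J.B c) O ∅ (fun i => J.G c (y i).s) (J.G c y₀.s) (fun i => (y i).x.m)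
      (fun i => (y i).x.W) y₀.x.m y₀.x.W u := by
  have hp := (hJ.sm.continuous.tendsto _).comp hs
  have k1 := fun z => (W.isOpen_Ω (c := c)).mem_nhds (Mark.mem_Ω _ h₀.2 z)
  have k2 : ∀ᶠ i in l, ∀ z, (J.Θ (y i).s, z) ∈ M.Ω c.1 (W.φ c) :=
    ok.mono fun _ k => Mark.mem_Ω _ k.2
  exact bub_of h hO (Λ.B_ok _ _) (Λ.G_ok _ h₀.2) h₀.1
    (ok.mono fun _ k => ⟨Λ.G_ok _ k.2, k.1, Lay.F_e _ (Mark.mem_Ω _ k.2)⟩)
    ((Lay.fcv _ hp k1 k2).mono le_rfl (subset_univ _))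
    fun a => (LLay.cv_a _ hp k1 k2 a).mono le_rfl (subset_univ _)

/-- **AN-LINCL** -/
theorem linCl (hJ : J.OK) (c : M.Cl) : J.LinCl c := by
  intro α 𝒰 y y₀ π hπ h₀ ok h
  obtain ⟨u, ζ, k, -⟩ := h.lim
  have b := bub_job hJ (Cyl58.isOpen_pc W.toCaps hπ) ⟨fun x _ => k.m x trivial, fun a =>
    (k.A a).mono le_rfl (subset_univ _), k.Φ.mono le_rfl (subset_univ _), k.z⟩ h.s h₀
    (ok.mono fun _ k => k.1)
  rcases Ultrafilter.eventually_or.1 (ok.mono fun _ k => k.2) with k1 | k1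
  · have := lin_lim b (ok.mono fun _ k => k.1.1.ok) (by simpa only [sdiff_empty] using k1)
    exact .inl (by simpa only [sdiff_empty] using this)
  · exact .inr fun z hz => flat_lim b ⟨hz, id⟩ (k1.mono fun _ k => k z hz)

end Crest.Agent.X212.Mcg32
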