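import Crest.Agent.X212.Flo2.Alg

/-!
# Row 212, AN-S (helper32): ALG-2, a model pentagon computes the value of the model piece
-/

set_option autoImplicit false
set_option linter.unusedSectionVars false

open Module Function Filter Finset

noncomputable section

namespace Crest.Agent.X212.Mcg32

open Win22 Flo2
open Bor5 (K)

variable {S : Sk} (Z : Cs S)

theorem k_one {x : K} (h : x ≠ 0) : x = 1 := by
  revert x
  decide

/-- finitely many members of a proper family of bounded degree are alive -/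
theorem alive {a b : S.E} {I : Type} {f : I → S.F a b} (h : S.Prp f) (ρ : ℚ) :
    ∃ T : Finset I, ∀ r, ∀ᶠ m in atTop, ∀ κ ∉ T, ∀ i k, -ρ ≤ Z.dg (f κ) →
      ((Z.A a).lab m i).2 ≤ r → Z.z (f κ) m i k = 0 := by
  obtain ⟨β, hβ, D, hD⟩ := h
  choose c hc using fun e => Z.bnd a b β e ρ
  refine ⟨(hD (∑ e ∈ D, |c e|)).toFinset, fun r => ?_⟩
  filter_upwards [(eventually_all_finset D).2 fun e _ => hc e r] with m hm κ hκ i k h1 h2
  by_contra h0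
  refine hκ ((Set.Finite.mem_toFinset _).2 fun e he => (hm e he _ (hβ κ) i k h1 h2 h0).trans ?_)
  exact (le_abs_self _).trans (single_le_sum (f := fun e => |c e|) (fun _ _ => abs_nonneg _) he)

/-- the value of a cap term -/
def capv {a b : S.E} (p : Σ x, S.F3 a b x × S.F x S.one) (m : ℕ) (i : (Z.A a).ι m)
    (k : (Z.A b).ι m) : K := ∑ j, Z.z3 p.2.1 m i k j * Z.z p.2.2 m j (Z.pt m)

/-- the master equation on the diagonal, at a generator without neighbours -/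
theorem mas0 {a : S.E} (σ : S.F a a) (hn : S.nk σ = []) (r : ℚ) : ∃ D : Finset (S.C σ),
    ∀ᶠ m in atTop, ∀ i, ((Z.A a).lab m i).2 ≤ r → (∀ j, Z.d a m i j = 0 ∧ Z.d a m j i = 0) →
      (∀ c ∉ D, ∀ j, Z.z3 (S.cp σ c).2.1 m i i j = 0) ∧
        ((S.fc σ).map fun τ => Z.z τ m i i).sum + ∑ c ∈ D, capv Z (S.cp σ c) m i i = 0 := by
  obtain ⟨D, hD⟩ := Z.mas σ r
  refine ⟨D, hD.mono fun m hm i hi h0 => ⟨(hm i hi i).1, ?_⟩⟩
  have := (hm i hi i).2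
  simp only [(h0 _).1, (h0 _).2, zero_mul, mul_zero, sum_const_zero, add_zero, hn, List.map_nil,
    List.sum_nil] at this
  exact this.symm

open Classical in
theorem side {a x : S.E} {M IL J : Type} {al half : M → Prop} {r : M → M} (rr : ∀ k, r (r k) = k)
    (hr : ∀ k, half (r k) ↔ ¬ half k) (ar : ∀ k, al (r k) ↔ al k) {R Γ ρ : M → S.F a a}
    (bR : ∀ k, (S.fc (R k)).Perm [Γ k, ρ k, ρ (r k)] ∧ S.nk (R k) = []) {Lc : IL → S.F3 a a x}
    {g : J → S.F x S.one}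
    (β : {θ : Σ k : {k // half k}, S.C (R k.1) // ¬S.dead (S.cp _ θ.2).1} ≃ IL × J)
    (cβ : ∀ θ, S.cp _ θ.1.2 = ⟨x, Lc (β θ).1, g (β θ).2⟩)
    (dd : ∀ k c, S.dead (S.cp (R k) c).1 ↔ ¬ al k) (tp : ∀ k, al k → ∃ r ≤ 0, S.tp (Γ k) r)
    {s0 : S.L a} {W : Finset M}
    (w : ∀ k ∈ W, half k ∧ al k ∧ S.hi1 (Γ k) ∧ S.tp (Γ k) 0 ∧ S.s (Γ k) = s0 ∧ S.t (Γ k) = s0)
    (nw : ∀ k ∉ W, half k → al k → S.tp (Γ k) 0 → S.s (Γ k) = s0 → S.hi0 (Γ k))
    (pΓ : S.Prp Γ) (pg : S.Prp g) :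
    ∃ n0 : ℚ, ∀ y, n0 ≤ y → ∀ (L0 : Finset IL) (δ : ℚ) (T : Finset M), ∀ᶠ m in atTop, ∀ i j0,
      (Z.A a).lab m i = (s0, y) → (∀ k, (Z.A a).lab m k = (s0, y) → k = i) →
      (∀ j, Z.d a m i j = 0 ∧ Z.d a m j i = 0) → (∀ n ∉ L0, ∀ j, Z.z3 (Lc n) m i i j = 0) →
      (∀ n j, Z.z3 (Lc n) m i i j ≠ 0 → j = j0) → ((Z.A x).lab m j0).2 = δ →
      (∀ k ∉ T, Z.z (ρ k) m i i = 0) →
      (W.card : K) + ∑ k ∈ T.filter al, Z.z (ρ k) m i i +
        (∑ n ∈ L0, Z.z3 (Lc n) m i i j0) * ∑ᶠ k, Z.z (g k) m j0 (Z.pt m) = 0 := by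
  obtain ⟨S0, hS0⟩ := alive Z pΓ 0
  have t1 : ∀ k, ∃ n : ℚ, S.hi1 (Γ k) → ∀ x, n ≤ x → ∀ᶠ m in atTop, ∀ i,
      (Z.A a).lab m i = (S.s (Γ k), x) → ∃ l, Z.z (Γ k) m i l ≠ 0 := fun k => by
    by_cases h : S.hi1 (Γ k)
    · exact (Z.hi1 _ h).imp fun _ h _ => h
    · exact ⟨0, fun h' => absurd h' h⟩
  have t0 : ∀ k, ∃ n : ℚ, S.hi0 (Γ k) → ∀ x, n ≤ x → ∀ᶠ m in atTop, ∀ i,
      (Z.A a).lab m i = (S.s (Γ k), x) → ∀ l, Z.z (Γ k) m i l = 0 := fun k => by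
    by_cases h : S.hi0 (Γ k)
    · exact (Z.hi0 _ h).imp fun _ h _ => h
    · exact ⟨0, fun h' => absurd h' h⟩
  choose n1 hn1 using t1
  choose n0 hn0 using t0
  refine ⟨∑ k ∈ W, |n1 k| + ∑ k ∈ S0, |n0 k|, fun y hy L0 δ T => ?_⟩
  have y1 : ∀ k ∈ W, n1 k ≤ y := fun k hk => by
    have := single_le_sum (f := fun k => |n1 k|) (fun _ _ => abs_nonneg _) hk
    have := sum_nonneg (s := S0) fun k _ => abs_nonneg (n0 k)
    linarith [le_abs_self (n1 k)]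
  have y0 : ∀ k ∈ S0, n0 k ≤ y := fun k hk => by
    have := single_le_sum (f := fun k => |n0 k|) (fun _ _ => abs_nonneg _) hk
    have := sum_nonneg (s := W) fun k _ => abs_nonneg (n1 k)
    linarith [le_abs_self (n0 k)]
  obtain ⟨T1, hT1⟩ := alive Z pg δ
  choose D hD using fun k => mas0 Z (R k) (bR k).2 y
  set S1 := (W ∪ T ∪ T.image r ∪ (L0 ×ˢ T1).image fun p => (β.symm p).1.1.1).filter
    fun k => half k ∧ al k with hS1
  have e0 : ∀ k ∈ S0, ∀ᶠ m in atTop, S.hi0 (Γ k) → ∀ i, (Z.A a).lab m i = (S.s (Γ k), y) →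
      ∀ l, Z.z (Γ k) m i l = 0 := fun k hk => by
    by_cases h : S.hi0 (Γ k)
    · exact (hn0 k h y (y0 k hk)).mono fun _ h _ => h
    · exact Eventually.of_forall fun _ h' => absurd h' h
  filter_upwards [hS0 y, hT1 δ, (eventually_all_finset S1).2 fun k _ => hD k,
    (eventually_all_finset W).2 fun k hk => hn1 k (w k hk).2.2.1 y (y1 k hk),
    (eventually_all_finset S0).2 e0] with m a1 a2 a3 a4 a5 i j0 hi hu hd hL hj hδ hT
  have iy : ((Z.A a).lab m i).2 ≤ y := by rw [hi]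
  have E : ∑ k ∈ S1, (Z.z (Γ k) m i i + (Z.z (ρ k) m i i + Z.z (ρ (r k)) m i i) +
      ∑ c ∈ D k, capv Z (S.cp (R k) c) m i i) = 0 := sum_eq_zero fun k hk => by
    have := (a3 k hk i iy hd).2
    rw [((bR k).1.map _).sum_eq] at this
    simpa using this
  have eΓ : ∑ k ∈ S1, Z.z (Γ k) m i i = W.card := by
    rw [← sum_subset (s₁ := W) (fun k hk => mem_filter.2 ⟨by simp [hk], (w k hk).1, (w k hk).2.1⟩),
      card_eq_sum_ones, Nat.cast_sum]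
    · refine sum_congr rfl fun k hk => ?_
      obtain ⟨-, -, -, w1, w2, w3⟩ := w k hk
      obtain ⟨l, hl⟩ := a4 k hk i (by rw [hi, w2])
      have := (Z.hz _ m i l hl).2
      rw [w3, Z.dg_tp _ _ w1, hi, add_zero] at this
      rw [← hu l this] at hl ⊢
      simpa using k_one hl
    · intro k hk hW
      by_contra h0
      obtain ⟨h1, h2⟩ := Z.hz _ m i i h0
      have h3 : Z.dg (Γ k) = 0 := by simpa using congrArg Prod.snd h2
      obtain ⟨q, -, hq⟩ := tp k (mem_filter.1 hk).2.2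
      obtain rfl : q = 0 := (Z.dg_tp _ _ hq).symm.trans h3
      rw [hi] at h1
      by_cases h4 : k ∈ S0
      · exact h0 (a5 k h4 (nw k hW (mem_filter.1 hk).2.1 (mem_filter.1 hk).2.2 hq h1.symm) i
          (by rw [hi, ← h1]) i)
      · exact h0 (a1 k h4 i i (by simp [h3]) iy)
  have eρ : ∑ k ∈ S1, (Z.z (ρ k) m i i + Z.z (ρ (r k)) m i i) = ∑ k ∈ T.filter al, Z.z (ρ k) m i i := by
    rw [sum_add_distrib, ← sum_filter_add_sum_filter_not (T.filter al) half]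
    congr 1
    · refine (sum_subset (fun k hk => ?_) fun k hk h => hT k fun h' => h ?_).symm
      · simp only [mem_filter] at hk
        exact mem_filter.2 ⟨by simp [hk.1.1], hk.2, hk.1.2⟩
      · exact mem_filter.2 ⟨mem_filter.2 ⟨h', (mem_filter.1 hk).2.2⟩, (mem_filter.1 hk).2.1⟩
    · refine sum_bij_ne_zero (fun k _ _ => r k) (fun k hk h => ?_)
        (fun k _ _ l _ _ e => by rw [← rr k, e, rr]) (fun k hk h => ?_) fun _ _ _ => rfl
      · refine mem_filter.2 ⟨mem_filter.2 ⟨by_contra fun h' => h (hT _ h'), ?_⟩, ?_⟩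
        · exact (ar k).2 (mem_filter.1 hk).2.2
        · exact fun h' => (hr k).1 h' (mem_filter.1 hk).2.1
      · simp only [mem_filter] at hk
        exact ⟨r k, mem_filter.2 ⟨mem_union_left _ (mem_union_right _ (mem_image_of_mem r hk.1.1)),
          (hr k).2 hk.2, (ar k).2 hk.1.2⟩, by rwa [rr], rr k⟩
  have g0 : ∀ k ∉ T1, Z.z (g k) m j0 (Z.pt m) = 0 := fun k hk => by_contra fun h0 => by
    have := congrArg Prod.snd (Z.hz _ m _ _ h0).2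
    rw [Z.pt_deg, hδ] at this
    exact h0 (a2 k hk _ _ (by simp only at this; linarith) hδ.le)
  have cv : ∀ θ, capv Z (S.cp _ θ.1.2) m i i =
      Z.z3 (Lc (β θ).1) m i i j0 * Z.z (g (β θ).2) m j0 (Z.pt m) := fun θ => by
    rw [cβ θ, capv]
    exact sum_eq_single j0 (fun j _ h => by
      rw [show Z.z3 (Lc (β θ).1) m i i j = 0 from by_contra fun h' => h (hj _ _ h'), zero_mul])
      fun h => absurd (mem_univ _) h
  have eC : ∑ k ∈ S1, ∑ c ∈ D k, capv Z (S.cp (R k) c) m i i =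
      (∑ n ∈ L0, Z.z3 (Lc n) m i i j0) * ∑ᶠ k, Z.z (g k) m j0 (Z.pt m) := by
    rw [finsum_eq_sum_of_support_subset (s := T1) _ fun k hk => by_contra fun h => hk (g0 k h),
      sum_mul_sum, ← sum_product', sum_sigma']
    have mk : ∀ p ∈ S1.sigma D, half p.1 ∧ ¬ S.dead (S.cp (R p.1) p.2).1 := fun p hp =>
      let h := (mem_filter.1 (mem_sigma.1 hp).1).2
      ⟨h.1, fun h' => (dd _ _).1 h' h.2⟩
    refine sum_bij_ne_zero (fun p hp _ => β ⟨⟨⟨p.1, (mk p hp).1⟩, p.2⟩, (mk p hp).2⟩)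
      (fun p hp h => ?_) (fun p hp _ q hq _ e => ?_) (fun p hp h => ?_) fun p hp _ => cv ⟨⟨⟨p.1, _⟩, p.2⟩, _⟩
    · rw [cv ⟨⟨⟨p.1, (mk p hp).1⟩, p.2⟩, (mk p hp).2⟩] at h
      exact mem_product.2 ⟨by_contra fun h' => h (by rw [hL _ h', zero_mul]),
        by_contra fun h' => h (by rw [g0 _ h', mul_zero])⟩
    · have := congrArg (fun θ => (⟨θ.1.1.1, θ.1.2⟩ : Σ k, S.C (R k))) (β.injective e)
      exact this
    · obtain ⟨θ, rfl⟩ := β.surjective p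
      have h1 : θ.1.1.1 ∈ S1 := mem_filter.2 ⟨mem_union_right _
        (mem_image.2 ⟨_, hp, by rw [Equiv.symm_apply_apply]⟩), θ.1.1.2,
        by_contra fun h' => θ.2 ((dd _ _).2 h')⟩
      refine ⟨⟨θ.1.1.1, θ.1.2⟩, mem_sigma.2 ⟨h1, by_contra fun h' => h ?_⟩, by rwa [cv θ], rfl⟩
      rw [← cv θ, capv]
      exact sum_eq_zero fun j _ => by rw [(a3 _ h1 i iy hd).1 _ h' j, zero_mul]
  rwa [sum_add_distrib, sum_add_distrib, eΓ, eρ, eC] at E

open Classical in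
/-- ALG-2 -/
theorem good : GoodStmt := by
  rintro S Z a b c f g h D0 D1 N P ⟨Q⟩
  have dL : ∀ n, Z.dg3 (P.Lc n) + Z.dg N.B = 0 := fun n => by
    obtain ⟨θ, rfl⟩ := P.β0.surjective n
    have h1 := Z.dg_cp (P.κ θ.1) θ.2 (by rw [P.c0 θ]; exact P.live)
    have h2 := Z.dg_fc (P.κ θ.1) (P.ι θ.1) (by simp [(P.bκ θ.1).1])
    rw [P.c0 θ] at h1
    rw [Z.dg_tp _ _ (Q.tp θ.1)] at h2
    simp only at h1
    linarith
  obtain ⟨n⟩ := Q.ne
  refine ⟨fun k => ?_, fun k => ?_, ?_⟩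
  · obtain ⟨θ, e⟩ := P.β1.surjective (n, k)
    have h1 := Z.dg_cp _ θ.1.2 θ.2
    have h2 := Z.dg_fc _ (P.Γ1 θ.1.1.1) ((P.bR1 θ.1.1.1).1.mem_iff.2 (by simp))
    obtain ⟨q, q0, hq⟩ := Q.tp1 θ.1.1.1 (by_contra fun h' => θ.2 ((Q.dd1 _ _).2 h'))
    rw [P.c1 θ, e] at h1
    rw [Z.dg_tp _ _ hq] at h2
    simp only at h1
    linarith [dL n]
  · obtain ⟨θ, e⟩ := P.β2.surjective (n, k)
    have h1 := Z.dg_cp _ θ.1.2 θ.2
    have h2 := Z.dg_fc _ (P.Γ2 θ.1.1.1) ((P.bR2 θ.1.1.1).1.mem_iff.2 (by simp))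
    obtain ⟨q, q0, hq⟩ := Q.tp2 θ.1.1.1 (by_contra fun h' => θ.2 ((Q.dd2 _ _).2 h'))
    rw [P.c2 θ, e] at h1
    rw [Z.dg_tp _ _ hq] at h2
    simp only at h1
    linarith [dL n]
  obtain ⟨n1, h1⟩ := side Z (half := fun k => D0.half (P.e0 k).1.1) (r := P.r1)
    (fun k => P.e0.injective (Subtype.ext (by rw [P.er1, P.er1, D0.rr])))
    (fun k => by rw [P.er1, D0.hr]) Q.al1 P.bR1 P.β1 P.c1 Q.dd1 Q.tp1 Q.w1 Q.n1
    P.prp.2.2.2.2.2.1 N.p1
  obtain ⟨n2, h2⟩ := side Z (half := fun k => D1.half (P.e1 k).1.2) (r := P.r2)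
    (fun k => P.e1.injective (Subtype.ext (by rw [P.er2, P.er2, D1.rr])))
    (fun k => by rw [P.er2, D1.hr]) Q.al2 P.bR2 P.β2 P.c2 Q.dd2 Q.tp2 Q.w2 Q.n2
    P.prp.2.2.2.2.2.2.1 N.p2
  obtain ⟨T, hT⟩ := alive Z P.prp.2.2.2.2.2.2.2.2.2 0
  obtain ⟨l, hl⟩ := exists_nat_ge (max n1 n2 - (Z.A a).w Q.s0)
  set k0 := l + Z.N a
  set y : ℚ := (Z.A a).w Q.s0 + (2 * k0 + 2 : ℕ) with hy
  have ly : max n1 n2 ≤ y := by
    have : (l : ℚ) ≤ (2 * k0 + 2 : ℕ) := by exact_mod_cast (by omega)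
    linarith
  choose D hD using fun i => mas0 Z (P.κ i) (P.bκ i).2 y
  set L0 := (univ.sigma D).map P.β0.toEmbedding with hL0
  filter_upwards [h1 y ((le_max_left _ _).trans ly) L0 (-Z.dg N.B) T,
    h2 y ((le_max_right _ _).trans ly) L0 (-Z.dg N.B) T, hT y, eventually_all.2 hD,
    eventually_all.2 fun i => Z.idn _ (Q.idn i) y,
    Z.ev a Q.qhs Q.s0 (2 * k0 + 2) (by omega) ⟨k0 + 1, by ring⟩,
    Z.od a Q.qhs Q.s0 (2 * k0 + 1) (by omega) ⟨k0, rfl⟩,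
    Z.od a Q.qhs Q.s0 (2 * k0 + 3) (by omega) ⟨k0 + 1, by ring⟩] with m a1 a2 a3 a4 a5 ⟨i, hi, hu⟩ o1 o2
  have iy : ((Z.A a).lab m i).2 ≤ y := by rw [hi]
  have hd : ∀ j, Z.d a m i j = 0 ∧ Z.d a m j i = 0 := fun j =>
    ⟨by_contra fun h0 => o1 j (by rw [Z.hom a m i j h0, hi, sh]; push_cast; congr 1; ring),
      by_contra fun h0 => o2 j (by
        have := Z.hom a m j i h0
        rw [hi, sh, Prod.mk.injEq] at this
        refine Prod.ext this.1.symm ?_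
        have := this.2
        push_cast at this ⊢
        linarith)⟩
  have hL : ∀ n ∉ L0, ∀ j, Z.z3 (P.Lc n) m i i j = 0 := fun n hn => by
    obtain ⟨θ, rfl⟩ := P.β0.surjective n
    have := (a4 θ.1 i iy hd).1 θ.2 fun h' => hn (mem_map_of_mem _ (mem_sigma.2 ⟨mem_univ _, h'⟩))
    rwa [P.c0 θ] at this
  have E : ∑ j, (∑ n ∈ L0, Z.z3 (P.Lc n) m i i j) * Z.z N.B m j (Z.pt m) = 1 := by
    have e1 : ∑ i', (Z.z (P.ι i') m i i + ∑ c ∈ D i', capv Z (S.cp (P.κ i') c) m i i) = 0 :=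
      sum_eq_zero fun i' _ => by simpa [(P.bκ i').1] using (a4 i' i iy hd).2
    obtain ⟨i0, e0⟩ := Q.bij.2 Q.s0
    have e2 : ∑ i', Z.z (P.ι i') m i i = 1 := by
      rw [sum_eq_single i0 (fun i' _ h' => ?_) fun h => absurd (mem_univ _) h]
      · rw [a5 i0 i iy, if_pos ⟨rfl, by rw [hi]; exact e0.symm⟩]
      · rw [a5 i' i iy, if_neg fun k => h' (Q.bij.1 (k.2.symm.trans (by rw [hi]; exact e0.symm)))]
    rw [sum_add_distrib, e2, sum_sigma', CharTwo.add_eq_zero] at e1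
    rw [e1, hL0]
    simp only [sum_map, sum_mul]
    rw [sum_comm]
    refine sum_congr rfl fun θ _ => ?_
    rw [P.c0 θ]
    rfl
  obtain ⟨j0, -, hj0⟩ := exists_ne_zero_of_sum_ne_zero (E.trans_ne one_ne_zero)
  have dj : ((Z.A N.x).lab m j0).2 = -Z.dg N.B := by
    have := congrArg Prod.snd (Z.hz _ m _ _ (right_ne_zero_of_mul hj0)).2
    rw [Z.pt_deg] at this
    simp only at this
    linarith
  have hj : ∀ n j, Z.z3 (P.Lc n) m i i j ≠ 0 → j = j0 := fun n j h0 =>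
    Z.thin _ N.thin m _ _ (by linarith [(Z.hz3 _ m i i j h0).2.2.2, dL n])
  have hρ : ∀ k ∉ T, Z.z (P.ρ k) m i i = 0 := fun k hk => by_contra fun h0 =>
    h0 (a3 k hk i i (by simpa using (congrArg Prod.snd (Z.hz _ m i i h0).2).le) iy)
  have b1 := a1 i j0 hi hu hd hL hj dj hρ
  have b2 := a2 i j0 hi hu hd hL hj dj hρ
  rw [k_one (left_ne_zero_of_mul hj0), one_mul] at b1 b2
  refine ⟨j0, k_one (right_ne_zero_of_mul hj0), ?_⟩
  have od : (Q.W1.card : K) + Q.W2.card = 1 := by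
    obtain ⟨t, ht⟩ := Q.odd
    rw [← Nat.cast_add, ht]
    simp [CharTwo.two_eq_zero]
  rw [← CharTwo.add_eq_zero.1 b1, ← CharTwo.add_eq_zero.1 b2, add_add_add_comm, od,
    CharTwo.add_self_eq_zero, add_zero]

end Crest.Agent.X212.Mcg32
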