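import Mathlib
import Crest.Agent.X212.Prf6.Defs

/-!
# Row 212, PERF (helper32): walls, annulus charts, curves that are crossed once
-/

set_option autoImplicit false
set_option linter.unusedSectionVars false
noncomputable section
open Set Filter Topology Function Complex
open scoped ContDiff Manifold

namespace Crest.Agent.X212.Mcg32
open Prf6

section top
variable {Y : Type*} [TopologicalSpace Y] [LocallyConnectedSpace Y]

/-- every component of `V \ Γ` meets every neighbourhood of the wall `Γ` -/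
theorem meets {V Γ N : Set Y} (hV : IsPreconnected V) (ho : IsOpen (V \ Γ)) (hN : IsOpen N)
    (hΓ : V ∩ Γ ⊆ N) (hne : (V ∩ Γ).Nonempty) {x : Y} (hx : x ∈ V \ Γ) :
    ∃ y ∈ N, y ∈ connectedComponentIn (V \ Γ) x := by
  by_contra hc
  push Not at hc
  set W := connectedComponentIn (V \ Γ) x with hW
  have h1 : IsOpen W := ho.connectedComponentIn
  have h2 : IsOpen (N ∪ ((V \ Γ) \ W)) := by
    refine hN.union (isOpen_iff_mem_nhds.2 fun y hy => ?_)
    filter_upwards [(ho.connectedComponentIn (x := y)).mem_nhds (mem_connectedComponentIn hy.1)]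
      with z hz
    refine ⟨connectedComponentIn_subset _ _ hz, fun hzW => hy.2 ?_⟩
    rw [hW, connectedComponentIn_eq hzW, ← connectedComponentIn_eq hz]
    exact mem_connectedComponentIn hy.1
  obtain ⟨p, hp⟩ := hne
  obtain ⟨y, -, hy1, hy2⟩ := hV W _ h1 h2 (fun y hy => by
      by_cases h : y ∈ Γ
      · exact Or.inr (Or.inl (hΓ ⟨hy, h⟩))
      · by_cases h' : y ∈ W
        · exact Or.inl h'
        · exact Or.inr (Or.inr ⟨⟨hy, h⟩, h'⟩))
    ⟨x, hx.1, mem_connectedComponentIn hx⟩ ⟨p, hp.1, Or.inl (hΓ hp)⟩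
  rcases hy2 with h | h
  · exact hc y h hy1
  · exact h.2 hy1

/-- a wall whose punctured neighbourhood lies in one connected set does not separate -/
theorem conn_of {V Γ N S : Set Y} (hV : IsPreconnected V) (ho : IsOpen (V \ Γ)) (hN : IsOpen N)
    (hΓ : V ∩ Γ ⊆ N) (hS : IsPreconnected S) (hSV : S ⊆ V \ Γ) (hNS : N ∩ (V \ Γ) ⊆ S) :
    IsPreconnected (V \ Γ) := by
  rcases (V ∩ Γ).eq_empty_or_nonempty with h | hne
  · have : V \ Γ = V := by
      ext x
      exact ⟨fun h => h.1, fun hx => ⟨hx, fun h' => (h.subset ⟨hx, h'⟩ : False)⟩⟩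
    rwa [this]
  rcases (V \ Γ).eq_empty_or_nonempty with h | ⟨x, hx⟩
  · rw [h]; exact isPreconnected_empty
  have key : ∀ x ∈ V \ Γ, S ⊆ connectedComponentIn (V \ Γ) x ∧ S.Nonempty := fun x hx => by
    obtain ⟨y, hyN, hy⟩ := meets hV ho hN hΓ hne hx
    have hyS : y ∈ S := hNS ⟨hyN, connectedComponentIn_subset _ _ hy⟩
    rw [connectedComponentIn_eq hy]
    exact ⟨hS.subset_connectedComponentIn hyS hSV, y, hyS⟩
  obtain ⟨s, hs⟩ := (key x hx).2
  have : V \ Γ = connectedComponentIn (V \ Γ) s := by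
    refine Subset.antisymm (fun y hy => ?_) (connectedComponentIn_subset _ _)
    rw [← connectedComponentIn_eq ((key y hy).1 hs)]
    exact mem_connectedComponentIn hy
  rw [this]
  exact isPreconnected_connectedComponentIn

end top

/-- a compact connected set joining two points of one component of an open set -/
theorem exists_cpt {Y : Type*} [TopologicalSpace Y] [LocallyPathConnectedSpace Y] {O : Set Y}
    (hO : IsOpen O) {x y : Y} (h : y ∈ connectedComponentIn O x) :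
    ∃ P, IsCompact P ∧ IsPreconnected P ∧ P ⊆ O ∧ x ∈ P ∧ y ∈ P := by
  have hx : x ∈ O := by
    by_contra hx
    rw [connectedComponentIn_eq_empty hx] at h
    exact h
  have h1 : IsPathConnected (connectedComponentIn O x) :=
    hO.connectedComponentIn.isConnected_iff_isPathConnected.1 (isConnected_connectedComponentIn_iff.2 hx)
  obtain ⟨p, hp⟩ := h1.joinedIn x (mem_connectedComponentIn hx) y h
  exact ⟨range p, isCompact_range p.continuous, isPreconnected_range p.continuous,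
    by rintro _ ⟨u, rfl⟩; exact connectedComponentIn_subset _ _ (hp u), ⟨0, p.source⟩, ⟨1, p.target⟩⟩

/-- tube over a real segment -/
theorem tube {M : Type*} [TopologicalSpace M] {f : ℂ → M} (hf : Continuous f) {O : Set M}
    (hO : IsOpen O) {a b : ℝ} (h : ∀ x ∈ Icc a b, f x ∈ O) :
    ∃ δ > 0, ∀ z : ℂ, z.re ∈ Icc a b → |z.im| < δ → f z ∈ O := by
  have hK : IsCompact ((fun x : ℝ => (x : ℂ)) '' Icc a b) := isCompact_Icc.image continuous_ofReal
  obtain ⟨δ, hδ, h1⟩ := hK.exists_thickening_subset_open (hO.preimage hf)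
    (by rintro _ ⟨x, hx, rfl⟩; exact h x hx)
  refine ⟨δ, hδ, fun z hz hz' => h1 (Metric.mem_thickening_iff.2 ⟨z.re, ⟨_, hz, rfl⟩, ?_⟩)⟩
  rw [dist_eq_norm, show z - (z.re : ℂ) = z.im * I by apply Complex.ext <;> simp]
  simpa using hz'

section an
variable {M : Type*} [TopologicalSpace M] [ChartedSpace ℂ M] {o : Or M} {A : ℂ → M}

theorem an_ld (h : An o A) : IsLocalDiffeomorph IC IC ∞ A := fun z => (h.1 z).1

theorem an_cont (h : An o A) : Continuous A := (an_ld h).contMDiff.continuous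

theorem an_open (h : An o A) : IsOpenMap A := (an_ld h).isOpenMap

theorem an_per (h : An o A) (z : ℂ) (n : ℤ) : A (z + n) = A z := ((h.2 z _).2 ⟨n, rfl⟩).symm

theorem an_im (h : An o A) {z w : ℂ} (e : A z = A w) : z.im = w.im := by
  obtain ⟨n, rfl⟩ := (h.2 z w).1 e
  simp

theorem an_mem (h : An o A) {z : ℂ} : A z ∈ core A ↔ z.im = 0 := by
  refine ⟨fun ⟨t, ht⟩ => (an_im h ht).symm.trans (by simp), fun hz => ⟨z.re, ?_⟩⟩
  show A (z.re : ℂ) = A z
  congr 1
  apply Complex.ext <;> simp [hz]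

theorem an_fract (h : An o A) (z : ℂ) : ∃ w : ℂ, w.re ∈ Icc (0 : ℝ) 1 ∧ w.im = z.im ∧ A w = A z :=
  ⟨z + ((-⌊z.re⌋ : ℤ) : ℂ), by
    have h1 := Int.floor_le z.re
    have h2 := Int.lt_floor_add_one z.re
    simp only [add_re, intCast_re, Int.cast_neg, neg_re, mem_Icc]
    constructor <;> linarith, by simp, an_per h _ _⟩

theorem an_cpt (h : An o A) : IsCompact (core A) := by
  have : core A = (fun t : ℝ => A t) '' Icc 0 1 := by
    refine Subset.antisymm ?_ (image_subset_range _ _)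
    rintro _ ⟨t, rfl⟩
    obtain ⟨w, h1, h2, h3⟩ := an_fract h t
    refine ⟨w.re, h1, ?_⟩
    show A (w.re : ℂ) = A t
    rw [← h3]
    congr 1
    apply Complex.ext <;> simp [h2]
  rw [this]
  exact isCompact_Icc.image ((an_cont h).comp continuous_ofReal)

theorem an_tube (h : An o A) {O : Set M} (hO : IsOpen O) (hc : core A ⊆ O) :
    ∃ δ > 0, ∀ z : ℂ, |z.im| < δ → A z ∈ O := by
  obtain ⟨δ, hδ, h1⟩ := tube (an_cont h) hO (a := 0) (b := 1) fun x _ => hc ⟨x, rfl⟩
  refine ⟨δ, hδ, fun z hz => ?_⟩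
  obtain ⟨w, h2, h3, h4⟩ := an_fract h z
  exact h4 ▸ h1 w h2 (h3 ▸ hz)

/-- a curve is nowhere dense -/
theorem conn_up (h : An o A) {U : Set M} (hU : IsOpen U) (hc : IsPreconnected (U \ core A)) :
    IsPreconnected U := by
  refine hc.subset_closure sdiff_subset fun x hx => ?_
  by_cases hx' : x ∈ core A
  · obtain ⟨t, rfl⟩ := hx'
    have h1 : Tendsto (fun y : ℝ => A (t + y * I)) (𝓝[>] 0) (𝓝 (A t)) := by
      have : Continuous fun y : ℝ => A (t + y * I) := (an_cont h).comp (by fun_prop)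
      simpa using (this.tendsto 0).mono_left nhdsWithin_le_nhds
    refine mem_closure_of_tendsto h1 ?_
    filter_upwards [h1 (hU.mem_nhds hx), self_mem_nhdsWithin] with y h2 h3
    refine ⟨h2, fun h4 => ?_⟩
    have := (an_mem h).1 h4
    simp only [add_im, ofReal_im, mul_im, ofReal_re, I_im, mul_one, I_re, mul_zero, add_zero,
      zero_add] at this
    exact (ne_of_gt h3) this
  · exact subset_closure ⟨hx, hx'⟩

theorem convex_im (a b : ℝ) : Convex ℝ {z : ℂ | a < z.im ∧ z.im < b} :=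
  (convex_halfSpace_im_gt a).inter (convex_halfSpace_im_lt b)

/-- ONE: if the two sides of the core are joined off the core, the core does not separate -/
theorem one [T2Space M] (h : An o A) {U S : Set M} (hU : IsOpen U) (hc : IsPreconnected U)
    (hA : core A ⊆ U) (hS : IsPreconnected S) (hSU : S ⊆ U \ core A)
    (up : ∀ δ > 0, ∃ z : ℂ, 0 < z.im ∧ z.im < δ ∧ A z ∈ S)
    (dn : ∀ δ > 0, ∃ z : ℂ, -δ < z.im ∧ z.im < 0 ∧ A z ∈ S) : IsPreconnected (U \ core A) := by
  have := ChartedSpace.locallyConnectedSpace ℂ M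
  obtain ⟨δ, hδ, h1⟩ := an_tube h hU hA
  obtain ⟨z, z1, z2, z3⟩ := up δ hδ
  obtain ⟨w, w1, w2, w3⟩ := dn δ hδ
  have c := fun a b => (convex_im a b).isPreconnected.image A (an_cont h).continuousOn
  refine conn_of (N := A '' {z | -δ < z.im ∧ z.im < δ})
    (S := (A '' {z | 0 < z.im ∧ z.im < δ} ∪ S) ∪ A '' {z | -δ < z.im ∧ z.im < 0}) hc
    (hU.sdiff (an_cpt h).isClosed) (an_open h _ ?_) ?_ ?_ ?_ ?_
  · exact (isOpen_lt continuous_const continuous_im).inter (isOpen_lt continuous_im continuous_const)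
  · rintro _ ⟨-, t, rfl⟩
    exact ⟨t, by simpa using hδ, rfl⟩
  · exact IsPreconnected.union (A w) (Or.inr w3) (mem_image_of_mem A ⟨w1, w2⟩)
      (IsPreconnected.union (A z) (mem_image_of_mem A ⟨z1, z2⟩) z3 (c 0 δ) hS) (c (-δ) 0)
  · rintro x ((⟨u, hu, rfl⟩ | hx) | ⟨u, hu, rfl⟩)
    · exact ⟨h1 u (abs_lt.2 ⟨by linarith [hu.1], hu.2⟩), fun e => hu.1.ne' ((an_mem h).1 e)⟩
    · exact hSU hx
    · exact ⟨h1 u (abs_lt.2 ⟨hu.1, by linarith [hu.2]⟩), fun e => hu.2.ne ((an_mem h).1 e)⟩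
  · rintro _ ⟨⟨u, hu, rfl⟩, -, h2⟩
    rcases lt_trichotomy u.im 0 with h3 | h3 | h3
    · exact Or.inr ⟨u, ⟨hu.1, h3⟩, rfl⟩
    · exact absurd ((an_mem h).2 h3) h2
    · exact Or.inl (Or.inl ⟨u, ⟨h3, hu.2⟩, rfl⟩)

end an

/-! ### positive plane maps -/

theorem dt_eq (f : ℂ → ℂ) (z : ℂ) : dt f z = (fderiv ℝ f z).det := by
  unfold dt
  rw [mfderiv_eq_fderiv]

theorem det_c (L : ℂ →L[ℝ] ℂ) : L.det = (L 1).re * (L I).im - (L I).re * (L 1).im := by
  unfold ContinuousLinearMap.det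
  rw [← LinearMap.det_toMatrix basisOneI, Matrix.det_fin_two]
  simp [LinearMap.toMatrix_apply]

/-- smooth plane map with non-zero Jacobian -/
theorem ld_plane {f : ℂ → ℂ} (hf : ContDiff ℝ ∞ f) {z : ℂ} (h : (fderiv ℝ f z).det ≠ 0) :
    IsLocalDiffeomorphAt IC IC ∞ f z :=
  Glue52.ld_of_fderiv isOpen_univ (mem_univ z) hf.contDiffOn
    ((fderiv ℝ f z).toContinuousLinearEquivOfDetNeZero h)
    (by simpa using (hf.differentiable (by simp) z).hasFDerivAt)

theorem pm_plane {f : ℂ → ℂ} (hf : ContDiff ℝ ∞ f) {z : ℂ} (h : 0 < (fderiv ℝ f z).det) :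
    Pm oC oC f z :=
  ⟨ld_plane hf h.ne', by rw [dt_eq]; simpa [oC] using h⟩

/-- complex affine maps are positive -/
theorem pm_aff (c a : ℂ) (ha : a ≠ 0) (z : ℂ) : Pm oC oC (fun w => c + a * w) z := by
  refine pm_plane (by fun_prop) ?_
  have : HasFDerivAt (fun w : ℂ => c + a * w) (a • ContinuousLinearMap.id ℝ ℂ) z :=
    ((hasFDerivAt_id z).const_smul a).const_add c
  rw [this.fderiv, det_c]
  have h := normSq_pos.2 ha
  simpa [normSq_apply] using h

section an2
variable {M : Type*} [TopologicalSpace M] [ChartedSpace ℂ M] {o : Or M} {A : ℂ → M}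

/-- translated or reversed annulus chart -/
theorem an_aff (h : An o A) (c : ℂ) {ε : ℝ} (hε : ε = 1 ∨ ε = -1) :
    An o (fun z => A (c + ε * z)) := by
  have h0 : (ε : ℂ) ≠ 0 := by rcases hε with rfl | rfl <;> simp
  refine ⟨fun z => (h.1 _).comp (pm_aff c ε h0 z), fun z w => ?_⟩
  rw [h.2]
  rcases hε with rfl | rfl
  · refine exists_congr fun n => ?_
    push_cast
    constructor <;> intro e <;> linear_combination e
  · refine ⟨fun ⟨n, e⟩ => ⟨-n, ?_⟩, fun ⟨n, e⟩ => ⟨-n, ?_⟩⟩ <;> push_cast at e ⊢ <;>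
      linear_combination -e

theorem core_aff (A : ℂ → M) (c : ℝ) {ε : ℝ} (hε : ε = 1 ∨ ε = -1) :
    core (fun z => A (c + ε * z)) = core A := by
  ext x
  refine ⟨fun ⟨t, ht⟩ => ⟨c + ε * t, by simpa using ht⟩, fun ⟨t, ht⟩ => ⟨ε * (t - c), ?_⟩⟩
  rw [← ht]
  show A _ = A _
  congr 1
  rcases hε with rfl | rfl <;> push_cast <;> ring

theorem ld_ne {e : ℂ → M} {z : ℂ} (he : IsLocalDiffeomorphAt IC IC ∞ e z) {v : ℂ} (hv : v ≠ 0) :
    (show ℂ from mfderiv IC IC e z v) ≠ 0 := fun h0 =>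
  hv ((map_eq_zero_iff _ (he.mfderivToContinuousLinearEquiv (by simp)).injective).1 h0)

theorem cv_core (h : An o A) : Cv (fun t : ℝ => A t) where
  sm := (an_ld h).contMDiff.comp ofRealCLM.contMDiff
  imm := fun t => by
    have h1 := (h.1 t).1
    have e : mfderiv IR IC (fun t : ℝ => A t) t = (mfderiv IC IC A t).comp (mfderiv IR IC ofRealCLM t) :=
      mfderiv_comp t (h1.mdifferentiableAt (by simp)) ofRealCLM.mdifferentiableAt
    rw [e, ofRealCLM.mfderiv_eq]
    intro h0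
    exact ld_ne h1 one_ne_zero h0
  inj := fun s t => by
    rw [h.2]
    exact exists_congr fun n => by exact_mod_cast Iff.rfl

/-- a local diffeomorphism is positive, or positive after a reflection -/
theorem pm_or {e : ℂ → M} (he : IsLocalDiffeomorphAt IC IC ∞ e 0) :
    Pm oC o e 0 ∨ Pm oC o (fun z => e ((starRingEnd ℂ) z)) 0 := by
  have hd : dt e 0 ≠ 0 := by
    unfold dt
    exact (he.mfderivToContinuousLinearEquiv (by simp) : ℂ ≃L[ℝ] ℂ).toLinearEquiv.isUnit_det'.ne_zero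
  have hc : IsLocalDiffeomorphAt IC IC ∞ (conjCLE : ℂ → ℂ) 0 := Glue52.ld_clm conjCLE 0
  have he' : IsLocalDiffeomorphAt IC IC ∞ e (conjCLE (0 : ℂ)) := by simpa using he
  rcases lt_or_gt_of_ne (mul_ne_zero (o.ne (e 0)) hd) with h | h
  · refine Or.inr ⟨Cyl58.ld_comp he' hc, ?_⟩
    have := dt_comp (he'.mdifferentiableAt (by simp)) (hc.mdifferentiableAt (by simp))
    have h2 : dt (conjCLE : ℂ → ℂ) 0 = -1 := by
      rw [dt_eq, conjCLE.fderiv, det_c]; simp
    rw [h2] at this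
    have e1 : dt (fun z => e ((starRingEnd ℂ) z)) 0 = dt e (conjCLE (0 : ℂ)) * -1 := this
    rw [e1]
    simp only [oC, map_zero]
    linarith
  · exact Or.inl ⟨he, by simpa [oC] using h⟩

end an2

/-- ONE for a curve: a vertical segment of a chart `e` adapted to `γ` closes up off `γ` -/
theorem one_cv (tub : Tub) (X : Sf) {U S : Set X.R} {γ : ℝ → X.R} (hγ : Cv γ) (hU : IsOpen U)
    (hc : IsPreconnected U) (hr : range γ ⊆ U) {t : ℝ} {e : ℂ → X.R}
    (he : IsLocalDiffeomorphAt IC IC ∞ e 0) (heγ : ∀ᶠ u : ℝ in 𝓝 0, e u = γ (t + u))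
    (hS : IsPreconnected S) (hSU : S ⊆ U \ range γ) (hv : ∀ᶠ v : ℝ in 𝓝[≠] 0, e (v * I) ∈ S) :
    IsPreconnected (U \ range γ) := by
  have key : ∀ e : ℂ → X.R, Pm oC X.o e 0 → (∀ᶠ u : ℝ in 𝓝 0, e u = γ (t + u)) →
      (∀ᶠ v : ℝ in 𝓝[≠] 0, e (v * I) ∈ S) → IsPreconnected (U \ range γ) := by
    intro e he heγ hv
    obtain ⟨C, hC, hCU, hCγ, hCe⟩ := tub X γ U 1 (fun _ => t) (fun _ => e) hγ hU hr
      (fun i j _ _ => Subsingleton.elim i j) (fun _ => he) (fun _ => heγ)
    have hcore : core C = range γ := by unfold core; congr 1; exact funext hCγ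
    have h1 : ∀ᶠ v : ℝ in 𝓝[≠] 0, C (t + v * I) ∈ S := by
      have h2 : Tendsto (fun v : ℝ => (v : ℂ) * I) (𝓝[≠] 0) (𝓝 0) := by
        have : Continuous fun v : ℝ => (v : ℂ) * I := by fun_prop
        simpa using (this.tendsto 0).mono_left nhdsWithin_le_nhds
      filter_upwards [h2 (hCe 0), hv] with v h3 h4
      have h5 : C (t + v * I) = e (v * I) := h3
      rwa [h5]
    rw [← hcore] at hSU hr ⊢
    refine one hC hU hc hr hS hSU (fun δ hδ => ?_) fun δ hδ => ?_
    · obtain ⟨v, h3, h4⟩ := ((h1.filter_mono (nhdsGT_le_nhdsNE 0)).and (Ioo_mem_nhdsGT hδ)).exists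
      exact ⟨t + v * I, by simpa using h4.1, by simpa using h4.2, h3⟩
    · obtain ⟨v, h3, h4⟩ := ((h1.filter_mono (nhdsLT_le_nhdsNE 0)).and
        (Ioo_mem_nhdsLT (neg_lt_zero.2 hδ))).exists
      exact ⟨t + v * I, by simpa using h4.1, by simpa using h4.2, h3⟩
  rcases pm_or (o := X.o) he with h | h
  · exact key e h heγ hv
  · refine key _ h (by simpa using heγ) ?_
    have h2 : Tendsto (fun v : ℝ => -v) (𝓝[≠] 0) (𝓝[≠] 0) := by
      refine tendsto_nhdsWithin_iff.2 ⟨?_, ?_⟩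
      · simpa using (continuous_neg.tendsto (0 : ℝ)).mono_left nhdsWithin_le_nhds
      · filter_upwards [self_mem_nhdsWithin] with v hv using by simpa using hv
    filter_upwards [h2 hv] with v h3
    simpa using h3

end Crest.Agent.X212.Mcg32
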