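import Mathlib
import Crest.Agent.X212.Prf6.Tr
import Crest.Agent.X212.Mcg32.Top

/-!
# Row 212, PERF (helper32): Lickorish transitivity from the surgery lemma
-/

set_option autoImplicit false
set_option linter.unusedSectionVars false
noncomputable section
open Set Filter Topology Function Complex
open scoped ContDiff Manifold

namespace Crest.Agent.X212.Mcg32
open Prf6

section mv
variable {M : Type*} [TopologicalSpace M] [ChartedSpace ℂ M] {o : Or M} {U c d e : Set M}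

theorem mv_refl (c : Set M) : Mv o U c c :=
  ⟨1, one_mem _, near_one _, by simp, fun _ => one_mem _⟩

theorem mv_symm (h : Mv o U c d) : Mv o U d c := by
  obtain ⟨k, h1, h2, rfl, h4⟩ := h
  exact ⟨k⁻¹, inv_mem h1, h2.inv, by rw [image_image]; simp, fun t => inv_mem (h4 t)⟩

theorem mv_trans (h : Mv o U c d) (h' : Mv o U d e) : Mv o U c e := by
  obtain ⟨k, h1, h2, rfl, h4⟩ := h
  obtain ⟨k', h1', h2', rfl, h4'⟩ := h'
  exact ⟨k' * k, mul_mem h1' h1, h2'.mul h2, by rw [image_image]; rfl,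
    fun t => mul_mem (h4' t) (h4 t)⟩

theorem cv_per {γ : ℝ → M} (h : Cv γ) (t : ℝ) (n : ℤ) : γ (t + n) = γ t :=
  ((h.inj _ _).2 ⟨n, rfl⟩).symm

/-- enumeration of the crossings -/
theorem enum {γ : ℝ → M} (hγ : Cv γ) {Z : Set M} (hW : {t ∈ Ico (0 : ℝ) 1 | γ t ∈ Z}.Finite) :
    ∃ s : Fin {t ∈ Ico (0 : ℝ) 1 | γ t ∈ Z}.ncard → ℝ, (∀ i j, ∀ m : ℤ, s i = s j + m → i = j) ∧
      (∀ j, γ (s j) ∈ Z) ∧ ∀ u, γ u ∈ Z → ∃ j, ∃ m : ℤ, u = s j + m := by
  set W := {t ∈ Ico (0 : ℝ) 1 | γ t ∈ Z}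
  have hc : hW.toFinset.card = W.ncard := (ncard_eq_toFinset_card W hW).symm
  let e := hW.toFinset.equivFinOfCardEq hc
  have hm : ∀ j, (e.symm j : ℝ) ∈ W := fun j => hW.mem_toFinset.1 (e.symm j).2
  refine ⟨fun j => e.symm j, fun i j m h => ?_, fun j => (hm j).2, fun u hu => ?_⟩
  · have h1 := (hm i).1
    have h2 := (hm j).1
    have h3 : (m : ℝ) < 1 := by linarith [h1.2, h2.1]
    have h4 : (-1 : ℝ) < m := by linarith [h1.1, h2.2]
    have h5 : m = 0 := by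
      have : m < 1 := by exact_mod_cast h3
      have : -1 < m := by exact_mod_cast h4
      omega
    rw [h5, Int.cast_zero, add_zero] at h
    exact e.symm.injective (Subtype.ext h)
  · have h1 : Int.fract u ∈ W := by
      refine ⟨⟨Int.fract_nonneg u, Int.fract_lt_one u⟩, ?_⟩
      rw [← cv_per hγ _ ⌊u⌋, Int.fract_add_floor]
      exact hu
    refine ⟨e ⟨_, hW.mem_toFinset.2 h1⟩, ⌊u⌋, ?_⟩
    simp

theorem core_congr {A : ℂ → M} {γ : ℝ → M} (h : ∀ s : ℝ, A s = γ s) : core A = range γ := by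
  unfold core
  congr 1
  exact funext h

end mv

/-- an annulus chart of a curve -/
theorem exists_an (tub : Tub) (X : Sf) {U : Set X.R} {γ : ℝ → X.R} (hγ : Cv γ) (hU : IsOpen U)
    (hr : range γ ⊆ U) : ∃ C, An X.o C ∧ range C ⊆ U ∧ core C = range γ := by
  obtain ⟨C, h1, h2, h3, -⟩ := tub X γ U 0 Fin.elim0 Fin.elim0 hγ hU hr (fun i => i.elim0)
    (fun i => i.elim0) fun i => i.elim0
  exact ⟨C, h1, h2, core_congr h3⟩

section
variable {X : Sf} {U : Set X.R}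

theorem mv_one (pl : Plumb) (hX : IsPreconnected (univ : Set X.R)) {A B : ℂ → X.R} {δ : ℝ}
    {t θ ε : Fin 1 → ℝ} (h : Nf X.o U A B 1 δ t θ ε) : Mv X.o U (core A) (core B) := by
  have h1 : Nf X.o U (fun z => A (θ 0 + ε 0 * z)) (fun z => B (t 0 + (1 : ℝ) * z)) 1 δ
      (fun _ => 0) (fun _ => 0) (fun _ => 1) :=
    { hA := an_aff h.hA _ (h.sgn 0)
      hB := an_aff h.hB _ (Or.inl rfl)
      rA := by rintro _ ⟨z, rfl⟩; exact h.rA ⟨_, rfl⟩
      rB := by rintro _ ⟨z, rfl⟩; exact h.rB ⟨_, rfl⟩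
      pos := h.pos
      sgn := fun _ => Or.inl rfl
      box := fun j z h1 h2 => by
        have := h.box 0 z h1 h2
        simpa [mul_assoc] using this
      only := fun z w h1 h2 e => by
        obtain ⟨j, m, hm⟩ := h.only _ _ (by rcases h.sgn 0 with e | e <;> simpa [e] using h1)
          (by simpa using h2) e
        refine ⟨0, m, ?_⟩
        rw [Subsingleton.elim j 0] at hm
        simpa using hm
      sept := fun i j m hm => ⟨Subsingleton.elim _ _, (h.sept 0 0 m (by simpa using hm)).2⟩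
      sepθ := fun i j m hm => ⟨Subsingleton.elim _ _, (h.sept 0 0 m (by simpa using hm)).2⟩ }
  obtain ⟨k, k1, k2, k3, δ', hδ', k4⟩ := pl X U _ _ δ hX h1
  refine ⟨k, k1, k2, ?_, k3⟩
  rw [← core_aff A (θ 0) (h.sgn 0), ← core_aff B (t 0) (Or.inl rfl)]
  unfold core
  rw [← range_comp]
  congr 1
  exact funext fun s => (k4 s (by simpa using hδ')).1

theorem mv_tv (nf : Nf1) (pl : Plumb) (hX : IsPreconnected (univ : Set X.R)) (hU : IsOpen U)
    {A : ℂ → X.R} {γ : ℝ → X.R} (hA : An X.o A) (hAU : core A ⊆ U) (hγ : Cv γ) (hr : range γ ⊆ U)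
    {t : ℝ} (ht : Tv A γ t) (ho : ∀ s, γ s ∈ core A → ∃ m : ℤ, s = t + m) :
    Mv X.o U (core A) (range γ) := by
  obtain ⟨A', B, δ, θ, ε, h, h1, h2⟩ := nf X U A γ 1 (fun _ => t) hU hA hAU hγ hr
    (fun _ _ _ _ => Subsingleton.elim _ _) (fun _ => ht) fun s hs => ⟨0, ho s hs⟩
  have := mv_one pl hX h
  rwa [core_congr h1, core_congr h2] at this

theorem mv_disj (d2 : Dual2) (nf : Nf1) (pl : Plumb) (hX : IsPreconnected (univ : Set X.R))
    (hU : IsOpen U) {A B : ℂ → X.R} (hA : An X.o A) (hB : An X.o B) (hAU : core A ⊆ U)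
    (hBU : core B ⊆ U) (hd : Disjoint (core A) (core B)) (cA : IsPreconnected (U \ core A))
    (cB : IsPreconnected (U \ core B)) : Mv X.o U (core A) (core B) := by
  obtain ⟨γ, hγ, hr, t, t', h1, h2, h3, h4⟩ := d2 X U A B hU hA hB hAU hBU hd cA cB
  exact mv_trans (mv_tv nf pl hX hU hA hAU hγ hr h2 h1) (mv_symm (mv_tv nf pl hX hU hB hBU hγ hr h4 h3))

theorem mv_ind (tub : Tub) (d2 : Dual2) (nf : Nf1) (pl : Plumb) (su : Surg)
    (hX : IsPreconnected (univ : Set X.R)) (hU : IsOpen U) (n : ℕ) :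
    ∀ (A : ℂ → X.R) (γ : ℝ → X.R) (t : Fin n → ℝ), An X.o A → core A ⊆ U → Cv γ → range γ ⊆ U →
      (∀ i j, ∀ m : ℤ, t i = t j + m → i = j) → (∀ j, Tv A γ (t j)) →
      (∀ s, γ s ∈ core A → ∃ j, ∃ m : ℤ, s = t j + m) → IsPreconnected (U \ core A) →
      IsPreconnected (U \ range γ) → Mv X.o U (core A) (range γ) := by
  induction n using Nat.strong_induction_on with
  | _ n ih =>
  intro A γ t hA hAU hγ hr hi ht ho cA cγ
  have dj : ∀ (B : ℂ → X.R) (β : ℝ → X.R), An X.o B → core B ⊆ U → Cv β → range β ⊆ U →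
      IsPreconnected (U \ core B) → IsPreconnected (U \ range β) → Disjoint (range β) (core B) →
      Mv X.o U (core B) (range β) := fun B β hB hBU hβ hβU cB cβ hd => by
    obtain ⟨C, hC, hCU, e⟩ := exists_an tub X hβ hU hβU
    rw [← e] at cβ hd hβU ⊢
    exact mv_disj d2 nf pl hX hU hB hC hBU hβU hd.symm cB cβ
  rcases Nat.lt_or_ge n 2 with hn | hn
  · obtain rfl | rfl : n = 0 ∨ n = 1 := by omega
    · refine dj A γ hA hAU hγ hr cA cγ (disjoint_left.2 ?_)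
      rintro _ ⟨s, rfl⟩ hs
      obtain ⟨j, -⟩ := ho s hs
      exact j.elim0
    · refine mv_tv nf pl hX hU hA hAU hγ hr (ht 0) fun s hs => ?_
      obtain ⟨j, h⟩ := ho s hs
      rwa [Subsingleton.elim j 0] at h
  obtain ⟨A', B, δ, θ, ε, h, h1, h2⟩ := nf X U A γ n t hU hA hAU hγ hr hi ht ho
  have eA : core A' = core A := core_congr h1
  rw [← eA] at cA hAU ⊢
  rw [← core_congr h2] at cγ hr ⊢
  obtain ⟨β, hβ, hβU, cβ, ⟨n', hn', s, s1, s2, s3⟩, h4⟩ := su X U A' B n δ t θ ε hU h hn cγ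
  refine mv_trans (ih n' hn' A' β s h.hA hAU hβ hβU s1 s2 s3 cA cβ) (mv_symm ?_)
  rcases h4 with h4 | ⟨u, h4, h5⟩
  · exact dj B β h.hB hr hβ hβU cγ cβ h4
  · exact mv_tv nf pl hX hU h.hB hr hβ hβU h4 h5

/-- close parallel copies of a non-separating curve do not separate -/
theorem conn_par (hU : IsOpen U) {A : ℂ → X.R} (hA : An X.o A) (hAU : core A ⊆ U)
    (cA : IsPreconnected (U \ core A)) : ∃ δ > 0, ∀ r : ℝ, |r| < δ →
      core (fun z => A (z + r * I)) ⊆ U ∧ IsPreconnected (U \ core fun z => A (z + r * I)) := by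
  have := ChartedSpace.locallyPathConnectedSpace ℂ X.R
  obtain ⟨δ, hδ, h1⟩ := an_tube hA hU hAU
  have hO : IsOpen (U \ core A) := hU.sdiff (an_cpt hA).isClosed
  have m : ∀ y : ℝ, |y| < δ → y ≠ 0 → A (y * I) ∈ U \ core A := fun y h h' =>
    ⟨h1 _ (by simpa using h), fun e => h' (by simpa using (an_mem hA).1 e)⟩
  have a1 : |δ / 2| < δ := by rw [abs_of_pos (by linarith)]; linarith
  have a2 : |-(δ / 2)| < δ := by rwa [abs_neg]
  obtain ⟨P, P1, P2, P3, P4, P5⟩ := exists_cpt hO (x := A ((δ / 2 : ℝ) * I))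
    (y := A ((-(δ / 2) : ℝ) * I)) (cA.subset_connectedComponentIn (m _ a1 (by linarith))
      Subset.rfl (m _ a2 (by linarith)))
  obtain ⟨δ', hδ', h2⟩ := an_tube hA P1.isClosed.isOpen_compl fun x hx hP => (P3 hP).2 hx
  refine ⟨min δ' (δ / 2), lt_min hδ' (by linarith), fun r hr => ?_⟩
  have r1 := abs_lt.1 (hr.trans_le (min_le_right _ _))
  have hA' := hA.shift (r * I)
  have hc : core (fun z => A (z + r * I)) ⊆ U := by
    rintro _ ⟨t, rfl⟩
    exact h1 _ (by simpa using abs_lt.2 ⟨by linarith [r1.1], by linarith [r1.2]⟩)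
  have mm : ∀ y : ℝ, |y| < δ → y ≠ r → A (y * I) ∈ U \ core fun z => A (z + r * I) :=
    fun y h h' => ⟨h1 _ (by simpa using h), fun ⟨t, e⟩ => h' (by simpa using (an_im hA e).symm)⟩
  have c : ∀ s : Set ℝ, s.OrdConnected → IsPreconnected ((fun y : ℝ => A (y * I)) '' s) :=
    fun s hs => hs.isPreconnected.image _ ((an_cont hA).comp (by fun_prop)).continuousOn
  refine ⟨hc, one (S := ((fun y : ℝ => A (y * I)) '' Ioc r (δ / 2) ∪ P) ∪
    (fun y : ℝ => A (y * I)) '' Ico (-(δ / 2)) r) hA' hU (conn_up hA hU cA) hc ?_ ?_ ?_ ?_⟩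
  · exact IsPreconnected.union _ (Or.inr P5) (mem_image_of_mem _ ⟨le_rfl, r1.1⟩)
      (IsPreconnected.union _ (mem_image_of_mem _ ⟨r1.2, le_rfl⟩) P4 (c _ ordConnected_Ioc) P2)
      (c _ ordConnected_Ico)
  · rintro x ((⟨y, hy, rfl⟩ | hx) | ⟨y, hy, rfl⟩)
    · exact mm y (abs_lt.2 ⟨by linarith [hy.1, r1.1], by linarith [hy.2]⟩) hy.1.ne'
    · refine ⟨(P3 hx).1, fun ⟨t, e⟩ => h2 (t + r * I) ?_ (by rw [← e] at hx; exact hx)⟩
      simpa using hr.trans_le (min_le_left _ _)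
    · exact mm y (abs_lt.2 ⟨by linarith [hy.1], by linarith [hy.2, r1.2]⟩) hy.2.ne
  · intro η hη
    have h3 : 0 < min (η / 2) (δ / 2 - r) := lt_min (by linarith) (by linarith [r1.2])
    refine ⟨(min (η / 2) (δ / 2 - r) : ℝ) * I, by simpa using h3, ?_,
      Or.inl (Or.inl ⟨min (η / 2) (δ / 2 - r) + r, ⟨by linarith, ?_⟩, ?_⟩)⟩
    · simp only [mul_im, ofReal_re, I_im, mul_one, ofReal_im, I_re, mul_zero, add_zero]
      linarith [min_le_left (η / 2) (δ / 2 - r)]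
    · linarith [min_le_right (η / 2) (δ / 2 - r)]
    · show A _ = A _
      congr 1
      push_cast
      ring
  · intro η hη
    have h3 : 0 < min (η / 2) (δ / 2 + r) := lt_min (by linarith) (by linarith [r1.1])
    refine ⟨(-min (η / 2) (δ / 2 + r) : ℝ) * I, ?_, by simpa using h3,
      Or.inr ⟨-min (η / 2) (δ / 2 + r) + r, ⟨?_, by linarith⟩, ?_⟩⟩
    · simp only [mul_im, ofReal_re, I_im, mul_one, ofReal_im, I_re, mul_zero, add_zero]
      linarith [min_le_left (η / 2) (δ / 2 + r)]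
    · linarith [min_le_right (η / 2) (δ / 2 + r)]
    · show A _ = A _
      congr 1
      push_cast
      ring

end

/-- LK -/
theorem lk (n0 : Nf0) (nf : Nf1) (tub : Tub) (d2 : Dual2) (pl : Plumb) (su : Surg) : Lk := by
  intro X U A B hX hU hA hB hAU hBU cA cB
  obtain ⟨δ, hδ, h1⟩ := conn_par hU hA hAU cA
  obtain ⟨r, hr, h2, h3⟩ := n0 X A _ δ hA (cv_core hB) hδ
  obtain ⟨h4, h5⟩ := h1 r hr
  obtain ⟨s, s1, s2, s3⟩ := enum (cv_core hB) h3
  refine mv_trans ?_ (mv_ind tub d2 nf pl su hX hU _ _ _ s (hA.shift (r * I)) h4 (cv_core hB) hBU s1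
    (fun j => h2 _ (s2 j)) s3 h5 cB)
  by_cases h0 : r = 0
  · subst h0
    simpa using mv_refl (core A)
  · refine mv_disj d2 nf pl hX hU hA (hA.shift (r * I)) hAU h4 (disjoint_left.2 ?_) cA h5
    rintro _ ⟨t, rfl⟩ ⟨u, e⟩
    exact h0 (by simpa using an_im hA e)

end Crest.Agent.X212.Mcg32
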