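import Mathlib
import Crest.Agent.X212.Mcg32.Lk

/-!
# Row 212, PERF (helper32): closing up arcs, the surgered curve
-/

set_option autoImplicit false
set_option linter.unusedSectionVars false
noncomputable section
open Set Filter Topology Function Complex
open scoped ContDiff Manifold

namespace Crest.Agent.X212.Mcg32
open Prf6

theorem glue_deriv (x : ℝ) : HasDerivAt expNegInvGlue (x⁻¹ ^ 2 * expNegInvGlue x) x := by
  simpa using expNegInvGlue.hasDerivAt_polynomial_eval_inv_mul 1 x

theorem st_deriv_pos {x : ℝ} (h0 : 0 < x) (h1 : x < 1) : 0 < deriv Real.smoothTransition x := by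
  have a := glue_deriv x
  have b := (glue_deriv (1 - x)).comp x ((hasDerivAt_id x).const_sub 1)
  have d := Real.smoothTransition.pos_denom x
  have e : HasDerivAt Real.smoothTransition _ x := a.div (a.add b) d.ne'
  rw [e.deriv]
  have p := expNegInvGlue.pos_of_pos h0
  have q := expNegInvGlue.pos_of_pos (sub_pos.2 h1)
  have r : 0 < x⁻¹ ^ 2 := by positivity
  have r' : 0 < (1 - x)⁻¹ ^ 2 := by have := sub_pos.2 h1; positivity
  refine div_pos ?_ (pow_pos d 2)
  have := mul_pos (mul_pos p q) (add_pos r r')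
  nlinarith

/-- step from `0` at `-a` to `1` at `a` -/
def sg (a y : ℝ) : ℝ := Real.smoothTransition ((y + a) / (2 * a))

section sg
variable {a y y' : ℝ}

theorem sg_cd (a : ℝ) : ContDiff ℝ ∞ (sg a) := Real.smoothTransition.contDiff.comp (by fun_prop)

theorem sg_nonneg : 0 ≤ sg a y := Real.smoothTransition.nonneg _

theorem sg_le : sg a y ≤ 1 := Real.smoothTransition.le_one _

theorem sg_zero (ha : 0 < a) : sg a y = 0 ↔ y ≤ -a := by
  rw [sg, Real.smoothTransition.zero_iff_nonpos, div_le_iff₀ (by linarith)]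
  constructor <;> intro h <;> linarith

theorem sg_one (ha : 0 < a) : sg a y = 1 ↔ a ≤ y := by
  rw [sg, Real.smoothTransition.eq_one_iff_one_le, le_div_iff₀ (by linarith)]
  constructor <;> intro h <;> linarith

theorem sg_deriv (ha : 0 < a) (h : |y| < a) : 0 < deriv (sg a) y := by
  have h' := abs_lt.1 h
  have b : HasDerivAt (fun y : ℝ => (y + a) / (2 * a)) (1 / (2 * a)) y :=
    ((hasDerivAt_id y).add_const a).div_const _
  have e : HasDerivAt (sg a) _ y :=
    ((Real.smoothTransition.contDiff (n := 1)).differentiable (by simp) _).hasDerivAt.comp y b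
  rw [e.deriv]
  refine mul_pos (st_deriv_pos (div_pos (by linarith) (by linarith)) ?_) (by positivity)
  rw [div_lt_one (by linarith)]
  linarith

theorem sg_mono (ha : 0 < a) : Monotone (sg a) := fun _ _ h =>
  Real.smoothTransition.monotone (div_le_div_of_nonneg_right (by linarith) (by linarith))

theorem sg_inj (ha : 0 < a) (h : y < y') (e : sg a y = sg a y') : y' ≤ -a ∨ a ≤ y := by
  by_contra hc
  push Not at hc
  have sm : StrictMonoOn (sg a) (Icc (-a) a) :=
    strictMonoOn_of_deriv_pos (convex_Icc _ _) (sg_cd a).continuous.continuousOn fun x hx => by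
      rw [interior_Icc] at hx
      exact sg_deriv ha (abs_lt.2 hx)
  have h1 := sm (a := max y (-a)) (b := min y' a) ⟨le_max_right _ _, max_le hc.2.le (by linarith)⟩
    ⟨le_min hc.1.le (by linarith), min_le_right _ _⟩
    (max_lt (lt_min h hc.2) (lt_min hc.1 (by linarith)))
  linarith [sg_mono ha (le_max_left y (-a)), sg_mono ha (min_le_left y' a)]

end sg

section
variable {M : Type*} [TopologicalSpace M] [ChartedSpace ℂ M]

theorem imm_loc {F : ℝ → M} {e : ℂ → M} {g : ℝ → ℂ} {y : ℝ}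
    (he : IsLocalDiffeomorphAt IC IC ∞ e (g y)) (hg : ContDiffAt ℝ ∞ g y) (hd : deriv g y ≠ 0)
    (hF : ∀ᶠ s in 𝓝 y, F s = e (g s)) :
    ContMDiffAt IR IC ∞ F y ∧ (show ℂ from mfderiv IR IC F y (1 : ℝ)) ≠ 0 := by
  have hF' : F =ᶠ[𝓝 y] e ∘ g := hF
  have hg' : ContMDiffAt IR IC ∞ g y := hg.contMDiffAt
  refine ⟨(he.contMDiffAt.comp y hg').congr_of_eventuallyEq hF', ?_⟩
  rw [hF'.mfderiv_eq, mfderiv_comp y (he.mdifferentiableAt (by simp)) (hg'.mdifferentiableAt (by simp)),
    mfderiv_eq_fderiv]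
  exact ld_ne he hd

theorem tv_aff {A : ℂ → M} {F γ : ℝ → M} {y u b L : ℝ} (h : Tv A F y) (hL : L ≠ 0)
    (hy : b + L * u = y) (hγ : ∀ᶠ v in 𝓝 u, γ v = F (b + L * v)) : Tv A γ u := by
  obtain ⟨g, g1, g2, g3, g4⟩ := h
  subst hy
  have d : HasDerivAt (fun v : ℝ => b + L * v) L u := by
    simpa using ((hasDerivAt_id u).const_mul L).const_add b
  refine ⟨fun v => g (b + L * v), g1.comp u (by fun_prop), ?_, g3, ?_⟩
  · filter_upwards [hγ, d.continuousAt g2] with v h1 h2
    rw [h1]; exact h2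
  · have e : HasDerivAt (fun v : ℝ => g (b + L * v)) _ u :=
      (g1.differentiableAt (by simp)).hasDerivAt.scomp u d
    rw [e.deriv]
    simpa [hL] using g4

theorem tv_per {A : ℂ → M} {γ : ℝ → M} (hγ : Cv γ) {t : ℝ} (h : Tv A γ t) (m : ℤ) :
    Tv A γ (t + m) :=
  tv_aff (b := -m) (L := 1) h one_ne_zero (by ring) (Eventually.of_forall fun v => by
    rw [← cv_per hγ (-m + 1 * v) m]; congr 1; ring)

/-- closing up an embedded arc -/
theorem close {F : ℝ → M} {c L η : ℝ} (hL : 0 < L) (hη : 0 < η)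
    (per : ∀ y, |y - c| < η → F (y + L) = F y)
    (sm : ∀ y ∈ Ico c (c + L), ∃ (e : ℂ → M) (g : ℝ → ℂ), IsLocalDiffeomorphAt IC IC ∞ e (g y) ∧
      ContDiffAt ℝ ∞ g y ∧ deriv g y ≠ 0 ∧ ∀ᶠ s in 𝓝 y, F s = e (g s))
    (inj : InjOn F (Ico c (c + L))) :
    ∃ γ : ℝ → M, Cv γ ∧ (∀ y ∈ Ico c (c + L), ∀ᶠ u in 𝓝 (y / L), γ u = F (L * u)) ∧
      ∀ u, ∃ y ∈ Ico c (c + L), ∃ k : ℤ, u = y / L + k ∧ γ u = F y := by
  set γ : ℝ → M := fun u => F (toIcoMod hL c (L * u)) with hγ
  have pr : ∀ u (k : ℤ), γ (u + k) = γ u := fun u k => by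
    simp only [hγ]
    rw [show L * (u + k) = L * u + k • L by rw [zsmul_eq_mul]; ring, toIcoMod_add_zsmul]
  have loc : ∀ y ∈ Ico c (c + L), ∀ᶠ u in 𝓝 (y / L), γ u = F (L * u) := fun y hy => by
    have c1 : Tendsto (fun u => L * u) (𝓝 (y / L)) (𝓝 y) := by
      have := (continuous_const_mul L).tendsto (y / L)
      rwa [mul_div_cancel₀ _ hL.ne'] at this
    have : c - min η L < y := by linarith [hy.1, lt_min hη hL]
    filter_upwards [c1 (Ioo_mem_nhds this hy.2)] with u hu
    have hu' : L * u ∈ Ioo (c - min η L) (c + L) := hu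
    simp only [hγ]
    rcases le_or_gt c (L * u) with h | h
    · rw [(toIcoMod_eq_self hL).2 ⟨h, hu'.2⟩]
    · rw [← toIcoMod_add_right, (toIcoMod_eq_self hL).2
        ⟨by linarith [hu'.1, min_le_right η L], by linarith⟩]
      exact per _ (abs_lt.2 ⟨by linarith [hu'.1, min_le_left η L], by linarith⟩)
  have dec : ∀ u, ∃ y ∈ Ico c (c + L), ∃ k : ℤ, u = y / L + k ∧ γ u = F y := fun u => by
    refine ⟨_, toIcoMod_mem_Ico hL c (L * u), toIcoDiv hL c (L * u), ?_, rfl⟩
    have := toIcoMod_add_toIcoDiv_zsmul hL c (L * u)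
    rw [zsmul_eq_mul] at this
    rw [div_add' _ _ _ hL.ne', this, mul_div_cancel_left₀ _ hL.ne']
  have key : ∀ u, ContMDiffAt IR IC ∞ γ u ∧ (show ℂ from mfderiv IR IC γ u (1 : ℝ)) ≠ 0 := fun u => by
    obtain ⟨y, hy, k, rfl, -⟩ := dec u
    obtain ⟨e, g, e1, g1, g2, g3⟩ := sm y hy
    have d : HasDerivAt (fun v : ℝ => L * (v - k)) L (y / L + k) := by
      simpa using ((hasDerivAt_id (y / L + k)).sub_const (k : ℝ)).const_mul L
    have ey : L * (y / L + k - k) = y := by field_simp; ring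
    rw [← ey] at e1 g1 g2 g3
    refine imm_loc (e := e) (g := fun v => g (L * (v - k))) e1
      (ContDiffAt.comp (f := fun v : ℝ => L * (v - k)) _ g1 (by fun_prop)) ?_ ?_
    · have e2 : HasDerivAt (fun v : ℝ => g (L * (v - k))) _ (y / L + k) :=
        HasDerivAt.scomp (h := fun v : ℝ => L * (v - k)) _ (g1.differentiableAt (by simp)).hasDerivAt d
      rw [e2.deriv]
      exact smul_ne_zero hL.ne' g2
    · have c1 : Tendsto (fun v : ℝ => v - k) (𝓝 (y / L + k)) (𝓝 (y / L)) := by
        simpa using ((continuous_sub_right (k : ℝ)).tendsto (y / L + k))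
      filter_upwards [c1 (loc y hy), d.continuousAt g3] with v h1 h2
      have h1' : γ (v - k) = F (L * (v - k)) := h1
      rw [← pr _ (-k), show v + ((-k : ℤ) : ℝ) = v - k by push_cast; ring, h1']
      exact h2
  refine ⟨γ, ⟨fun u => (key u).1, fun u => (key u).2, fun s t => ⟨fun e => ?_, ?_⟩⟩, loc, dec⟩
  · obtain ⟨y, hy, k, rfl, e1⟩ := dec s
    obtain ⟨y', hy', k', rfl, e2⟩ := dec t
    rw [e1, e2] at e
    exact ⟨k' - k, by rw [inj hy hy' e]; push_cast; ring⟩
  · rintro ⟨n, rfl⟩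
    exact (pr _ _).symm

/-- fewer crossings -/
theorem count {A : ℂ → M} {γ : ℝ → M} (hγ : Cv γ) {n : ℕ} (S : Fin n) (ψ : Fin n → ℝ)
    (h : ∀ u, γ u ∈ core A → Tv A γ u ∧ ∃ j, j ≠ S ∧ ∃ m : ℤ, u = ψ j + m) :
    ∃ n' < n, ∃ s : Fin n' → ℝ, (∀ i j, ∀ m : ℤ, s i = s j + m → i = j) ∧ (∀ j, Tv A γ (s j)) ∧
      ∀ u, γ u ∈ core A → ∃ j, ∃ m : ℤ, u = s j + m := by
  have hs : {t ∈ Ico (0 : ℝ) 1 | γ t ∈ core A} ⊆ (fun j => Int.fract (ψ j)) '' ({S}ᶜ : Set (Fin n)) := by
    rintro u ⟨h1, h2⟩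
    obtain ⟨-, j, hj, m, rfl⟩ := h u h2
    exact ⟨j, hj, by rw [← Int.fract_eq_self.2 h1, Int.fract_add_intCast]⟩
  have hf := ((toFinite _).image _).subset hs
  obtain ⟨s, s1, s2, s3⟩ := enum hγ hf
  refine ⟨_, ?_, s, s1, fun j => (h _ (s2 j)).1, s3⟩
  refine ((ncard_le_ncard hs).trans (ncard_image_le (toFinite _))).trans_lt ?_
  have := ncard_lt_ncard (s := ({S}ᶜ : Set (Fin n))) (t := univ)
    (ssubset_univ_iff.2 fun e => by simpa using e.symm.subset (mem_univ S))
  simpa [ncard_univ] using this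

end

/-- the arc in the chart `A` -/
def al (x x' a : ℝ) (h : ℝ → ℝ) (y : ℝ) : ℂ := (x + (x' - x) * sg a y : ℝ) + h y * I

section al
variable {x x' a : ℝ} {h : ℝ → ℝ} {y : ℝ}

@[simp] theorem al_re : (al x x' a h y).re = x + (x' - x) * sg a y := by simp [al]
@[simp] theorem al_im : (al x x' a h y).im = h y := by simp [al]

theorem al_cd (hh : ContDiff ℝ ∞ h) : ContDiff ℝ ∞ (al x x' a h) := by
  have := sg_cd a
  exact (ofRealCLM.contDiff.comp (contDiff_const.add (contDiff_const.mul this))).add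
    ((ofRealCLM.contDiff.comp hh).mul contDiff_const)

theorem al_deriv (hh : ContDiff ℝ ∞ h) (y : ℝ) :
    HasDerivAt (al x x' a h) (((x' - x) * deriv (sg a) y : ℝ) + (deriv h y : ℝ) * I) y :=
  ((((sg_cd a).differentiable (by simp) y).hasDerivAt.const_mul _).const_add x).ofReal_comp.add
    ((hh.differentiable (by simp) y).hasDerivAt.ofReal_comp.mul_const I)

theorem al_mem (y : ℝ) : (al x x' a h y).re ∈ uIcc x x' := by
  rw [al_re]
  have h0 := sg_nonneg (a := a) (y := y)
  have h1 := sg_le (a := a) (y := y)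
  rcases le_total x x' with e | e
  · rw [uIcc_of_le e]; constructor <;> nlinarith
  · rw [uIcc_of_ge e]; constructor <;> nlinarith

end al

section nf
variable {M : Type*} [TopologicalSpace M] [ChartedSpace ℂ M] {o : Or M} {U : Set M} {A B : ℂ → M}
  {n : ℕ} {δ : ℝ} {t θ ε : Fin n → ℝ}

theorem nf_box (h : Nf o U A B n δ t θ ε) (j : Fin n) (m k : ℤ) {z w : ℂ}
    (h1 : |w.re - t j - m| < δ) (h2 : |w.im| < δ) (h3 : z.re = θ j + k - ε j * w.im)
    (h4 : z.im = ε j * (w.re - t j - m)) : A z = B w := by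
  have := h.box j (w - t j - m) (by simpa using h1) (by simpa using h2)
  rw [← an_per h.hB _ m, ← an_per h.hA _ k] at this
  rw [show w = t j + (w - t j - m) + m by ring, this]
  congr 1
  apply Complex.ext
  · simp [h3]; ring
  · simp [h4]

theorem nf_cross (h : Nf o U A B n δ t θ ε) {z w : ℂ} (h1 : |z.im| < δ) (h2 : |w.im| < δ)
    (e : A z = B w) : ∃ j, ∃ m k : ℤ, |w.re - t j - m| < δ ∧ z.re = θ j + k - ε j * w.im ∧
      z.im = ε j * (w.re - t j - m) := by
  obtain ⟨j, m, hm⟩ := h.only z w h1 h2 e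
  have := nf_box h j m 0 (z := ⟨θ j - ε j * w.im, ε j * (w.re - t j - m)⟩) hm h2 (by simp) rfl
  obtain ⟨k, hk⟩ := (h.hA.2 _ _).1 (this.trans e.symm)
  refine ⟨j, m, k, hm, ?_, ?_⟩
  · rw [hk]; simp; ring
  · rw [hk]; simp

theorem nf_sq (h : Nf o U A B n δ t θ ε) (j : Fin n) : ε j ≠ 0 := by
  rcases h.sgn j with e | e <;> simp [e]

theorem nf_abs (h : Nf o U A B n δ t θ ε) (j : Fin n) (x : ℝ) : |ε j * x| = |x| := by
  rcases h.sgn j with e | e <;> simp [e]

theorem int_zero {m : ℤ} (h1 : (-1 : ℝ) < m) (h2 : (m : ℝ) < 1) : m = 0 := by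
  have : m < 1 := by exact_mod_cast h2
  have : -1 < m := by exact_mod_cast h1
  omega

theorem not_int {m k : ℤ} (h1 : (k : ℝ) < m) (h2 : (m : ℝ) < k + 1) : False := by
  have : m < k + 1 := by exact_mod_cast h2
  have : k < m := by exact_mod_cast h1
  omega

/-- the surgered curve: along `B` at height `s` from the box `E` to the box `S`, back in `A` -/
theorem crv (h : Nf o U A B n δ t θ ε) {S E : Fin n} (hSE : S ≠ E) (kS kE : ℤ) {s a b c : ℝ}
    {f : ℝ → ℝ} {x x' : ℝ} (hx : x = θ S + kS - ε S * s) (hx' : x' = θ E + kE - ε E * s)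
    (adj : ∀ j, ∀ k : ℤ, θ j + k - ε j * s ∈ uIcc x x' → (j = S ∧ k = kS) ∨ (j = E ∧ k = kE))
    (hne : x' ≠ x) (hlt : |x' - x| < 1) (ha : 0 < a) (hc : 0 ≤ c) (hab : a < b) (hb : b + c < δ)
    (hs : |s| < δ) (hf : ContDiff ℝ ∞ f) (fE : ∀ y, a / 2 ≤ y → f y = ε E * (y + c))
    (fS : ∀ y, y ≤ -(a / 2) → f y = ε S * (y - c)) (fb : ∀ y, |y| ≤ a → |f y| < δ) :
    ∃ (γ : ℝ → M) (L : ℝ), 0 < L ∧ Cv γ ∧ range γ ⊆ U ∧
      (∀ y, |y| < b → ∀ᶠ u in 𝓝 (y / L), γ u = A (al x x' a f (L * u))) ∧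
      ∃ ψ : Fin n → ℝ, ∀ u, (∃ y ∈ Icc (-a) a, ∃ m : ℤ, u = y / L + m ∧ γ u = A (al x x' a f y)) ∨
        ((∃ r : ℝ, γ u = B (r + s * I)) ∧
          (γ u ∈ core A → Tv A γ u ∧ ∃ j, j ≠ S ∧ j ≠ E ∧ ∃ m : ℤ, u = ψ j + m)) := by
  set L0 := Int.fract (t S - t E) with hL0
  have l1 : t S - t E = ⌊t S - t E⌋ + L0 := (Int.floor_add_fract _).symm
  have l2 : 2 * δ ≤ L0 := by
    by_contra hh
    exact hSE (h.sept S E ⌊t S - t E⌋ (abs_lt.2 ⟨by linarith [Int.fract_nonneg (t S - t E), h.pos],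
      by linarith⟩)).1
  have l3 : L0 ≤ 1 - 2 * δ := by
    by_contra hh
    refine hSE (h.sept S E (⌊t S - t E⌋ + 1) (abs_lt.2 ⟨?_, ?_⟩)).1 <;> push_cast <;>
      linarith [Int.fract_lt_one (t S - t E), h.pos]
  have hδ := h.pos
  set L := L0 - 2 * c with hL
  have Lp : 0 < L := by linarith
  set α := al x x' a f with hα
  set β : ℝ → ℂ := fun y => (t E + c + y : ℝ) + s * I with hβ
  have βre : ∀ y, (β y).re = t E + c + y := fun y => by simp [hβ]
  have βim : ∀ y, (β y).im = s := fun y => by simp [hβ]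
  have bE : ∀ y, a ≤ y → y < δ - c → A (α y) = B (β y) := fun y h1 h2 =>
    nf_box h E 0 kE (by rw [βre, abs_lt]; constructor <;> push_cast <;> linarith) (by rwa [βim])
      (by rw [hα, al_re, βim, (sg_one ha).2 h1, hx']; ring)
      (by rw [hα, al_im, βre, fE y (by linarith)]; push_cast; ring)
  have bS : ∀ y, y ≤ -a → -(δ - c) < y → A (α y) = B (β (y + L)) := fun y h1 h2 =>
    nf_box h S (-⌊t S - t E⌋) kS (by rw [βre, abs_lt]; constructor <;> push_cast <;> linarith)
      (by rwa [βim]) (by rw [hα, al_re, βim, (sg_zero ha).2 h1, hx]; ring)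
      (by rw [hα, al_im, βre, fS y (by linarith)]; push_cast; congr 1; linarith)
  have fb' : ∀ y, -b ≤ y → y < b → |f y| < δ := fun y h1 h2 => by
    rcases le_total y (-a) with h3 | h3
    · rw [fS y (by linarith), nf_abs h, abs_lt]; constructor <;> linarith
    rcases le_total a y with h4 | h4
    · rw [fE y (by linarith), nf_abs h, abs_lt]; constructor <;> linarith
    · exact fb y (abs_le.2 ⟨h3, h4⟩)
  set F : ℝ → M := fun y => if y < b then A (α y) else B (β y) with hF
  have FA : ∀ y, y < b → F y = A (α y) := fun y h1 => if_pos h1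
  have FB : ∀ y, a ≤ y → F y = B (β y) := fun y h1 => by
    by_cases h2 : y < b
    · rw [FA y h2, bE y h1 (by linarith)]
    · exact if_neg h2
  have dβ : ∀ y, HasDerivAt β 1 y := fun y => by
    exact (((hasDerivAt_id' y).const_add (t E + c)).ofReal_comp.add_const (s * I))
  have cβ : ContDiff ℝ ∞ β :=
    (ofRealCLM.contDiff.comp (contDiff_const.add contDiff_id)).add contDiff_const
  obtain ⟨γ, hγ, loc, dec⟩ := close (F := F) (c := -b) (L := L) (η := min (δ - c - b) (b - a)) Lp
    (lt_min (by linarith) (by linarith)) (fun y hy => by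
      have h1 := abs_lt.1 (hy.trans_le (min_le_left _ _))
      have h2 := abs_lt.1 (hy.trans_le (min_le_right _ _))
      rw [FB _ (by linarith), FA _ (by linarith), bS y (by linarith) (by linarith)])
    (fun y hy => by
      by_cases h1 : y < b
      · refine ⟨A, α, an_ld h.hA _, (al_cd hf).contDiffAt, ?_,
          (eventually_lt_nhds h1).mono FA⟩
        rw [(al_deriv hf y).deriv]
        intro e
        have e1 := congrArg re e
        have e2 := congrArg im e
        simp only [add_re, ofReal_re, mul_re, I_re, mul_zero, ofReal_im, I_im, mul_one, sub_self,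
          add_zero, zero_re, add_im, mul_im, zero_add, zero_im] at e1 e2
        rcases lt_or_ge |y| a with h2 | h2
        · exact (mul_ne_zero (sub_ne_zero.2 hne) (sg_deriv ha h2).ne') e1
        rcases le_abs'.1 h2 with h3 | h3
        · have : f =ᶠ[𝓝 y] fun y => ε S * (y - c) :=
            (eventually_lt_nhds (by linarith : y < -(a / 2))).mono fun s hs => fS s hs.le
          rw [this.deriv_eq, (((hasDerivAt_id' y).sub_const c).const_mul (ε S)).deriv, mul_one] at e2
          exact nf_sq h S e2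
        · have : f =ᶠ[𝓝 y] fun y => ε E * (y + c) :=
            (eventually_gt_nhds (by linarith : a / 2 < y)).mono fun s hs => fE s hs.le
          rw [this.deriv_eq, (((hasDerivAt_id' y).add_const c).const_mul (ε E)).deriv, mul_one] at e2
          exact nf_sq h E e2
      · refine ⟨B, β, an_ld h.hB _, cβ.contDiffAt, by rw [(dβ y).deriv]; exact one_ne_zero,
          (eventually_gt_nhds (by linarith : a < y)).mono fun s hs => FB s hs.le⟩)
    (by
      have AB : ∀ y y', -b ≤ y → y < b → b ≤ y' → y' < -b + L → A (α y) ≠ B (β y') := by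
        intro y y' h1 h2 h3 h4 e
        obtain ⟨j, m, k, c1, c2, c3⟩ := nf_cross h (by rw [hα, al_im]; exact fb' y h1 h2)
          (by rwa [βim]) e
        rw [βim] at c2
        rw [βre, hα, al_im] at c3
        rcases adj j k (c2 ▸ al_mem y) with ⟨rfl, rfl⟩ | ⟨rfl, rfl⟩
        · rw [hα, al_re, ← hx] at c2
          have h5 := (sg_zero ha).1 ((mul_eq_zero.1 (by linarith : (x' - x) * sg a y = 0)).resolve_left
            (sub_ne_zero.2 hne))
          rw [fS y (by linarith)] at c3
          have h6 := mul_left_cancel₀ (nf_sq h j) c3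
          exact not_int (m := m + ⌊t j - t E⌋) (k := -1) (by push_cast; linarith)
            (by push_cast; linarith)
        · rw [hα, al_re, ← hx'] at c2
          have h5 := (sg_one ha).1 (mul_left_cancel₀ (sub_ne_zero.2 hne)
            (by linarith : (x' - x) * sg a y = (x' - x) * 1))
          rw [fE y (by linarith)] at c3
          have h6 := mul_left_cancel₀ (nf_sq h j) c3
          exact not_int (m := m) (k := 0) (by push_cast; linarith) (by push_cast; linarith)
      have AA : ∀ y y', y < y' → A (α y) ≠ A (α y') := by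
        intro y y' h1 e
        obtain ⟨k, hk⟩ := (h.hA.2 _ _).1 e
        have e1 := congrArg re hk
        have e2 := congrArg im hk
        simp only [hα, al_re, al_im, add_re, intCast_re, add_im, intCast_im, add_zero] at e1 e2
        have k0 : k = 0 := by
          have h2 : |(k : ℝ)| < 1 := by
            rw [show (k : ℝ) = (x' - x) * (sg a y' - sg a y) by linarith, abs_mul]
            have : |sg a y' - sg a y| ≤ 1 := abs_le.2 ⟨by linarith [@sg_nonneg a y', @sg_le a y],
              by linarith [@sg_nonneg a y, @sg_le a y']⟩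
            nlinarith [abs_nonneg (x' - x), abs_nonneg (sg a y' - sg a y)]
          exact int_zero (abs_lt.1 h2).1 (abs_lt.1 h2).2
        rw [k0, Int.cast_zero, add_zero, add_right_inj] at e1
        rcases sg_inj ha h1 (mul_left_cancel₀ (sub_ne_zero.2 hne) e1).symm with h2 | h2
        · rw [fS y (by linarith), fS y' (by linarith)] at e2
          linarith [mul_left_cancel₀ (nf_sq h S) e2]
        · rw [fE y (by linarith), fE y' (by linarith)] at e2
          linarith [mul_left_cancel₀ (nf_sq h E) e2]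
      have lt : ∀ y ∈ Ico (-b) (-b + L), ∀ y' ∈ Ico (-b) (-b + L), y < y' → F y ≠ F y' := by
        intro y hy y' hy' h1
        by_cases h2 : y' < b
        · rw [FA y (by linarith), FA y' h2]; exact AA y y' h1
        rw [FB y' (by linarith)]
        by_cases h3 : y < b
        · rw [FA y h3]; exact AB y y' hy.1 h3 (not_lt.1 h2) hy'.2
        · rw [FB y (by linarith)]
          intro e
          obtain ⟨k, hk⟩ := (h.hB.2 _ _).1 e
          have e1 := congrArg re hk
          simp only [βre, add_re, intCast_re] at e1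
          exact not_int (m := k) (k := 0) (by push_cast; linarith)
            (by push_cast; linarith [hy.1, hy'.2])
      intro y hy y' hy' e
      rcases lt_trichotomy y y' with h1 | h1 | h1
      · exact absurd e (lt y hy y' hy' h1)
      · exact h1
      · exact absurd e.symm (lt y' hy' y hy h1))
  have c1 : ∀ y, Tendsto (fun u => L * u) (𝓝 (y / L)) (𝓝 y) := fun y => by
    have := (continuous_const_mul L).tendsto (y / L)
    rwa [mul_div_cancel₀ _ Lp.ne'] at this
  refine ⟨γ, L, Lp, hγ, ?_, fun y hy => ?_, fun j => (Int.fract (t j - t E) - c) / L, fun u => ?_⟩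
  · rintro _ ⟨u, rfl⟩
    obtain ⟨y, -, -, -, e⟩ := dec u
    rw [e]
    simp only [hF]
    split_ifs
    exacts [h.rA ⟨_, rfl⟩, h.rB ⟨_, rfl⟩]
  · have h1 := abs_lt.1 hy
    filter_upwards [loc y ⟨h1.1.le, by linarith⟩, c1 y (Iio_mem_nhds h1.2)] with u h2 h3
    rw [h2, FA _ h3]
  obtain ⟨y, hy, k, rfl, e⟩ := dec u
  by_cases h1 : y < -a
  · refine Or.inr ⟨⟨_, by rw [e, FA y (by linarith), bS y h1.le (by linarith [hy.1])]⟩, fun h2 => ?_⟩
    rw [e, FA y (by linarith), an_mem h.hA, hα, al_im, fS y (by linarith)] at h2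
    linarith [(mul_eq_zero.1 h2).resolve_left (nf_sq h S)]
  by_cases h2 : y ≤ a
  · exact Or.inl ⟨y, ⟨not_lt.1 h1, h2⟩, k, rfl, by rw [e, FA y (by linarith)]⟩
  push Not at h2
  refine Or.inr ⟨⟨_, by rw [e, FB y h2.le]⟩, fun h3 => ?_⟩
  rw [e, FB y h2.le] at h3
  obtain ⟨r, hr⟩ := h3
  obtain ⟨j, m, l, -, -, c3⟩ := nf_cross h (by simpa using hδ) (by rwa [βim]) hr
  rw [ofReal_im, βre] at c3
  have h4 := (mul_eq_zero.1 c3.symm).resolve_left (nf_sq h j)
  refine ⟨tv_per hγ (tv_aff (F := F) (y := y) (b := 0) (L := L) ?_ Lp.ne' (by field_simp; ring)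
    (by simpa using loc y hy)) k, j, ?_, ?_, k, ?_⟩
  · have d : HasDerivAt (fun v : ℝ => ((θ j - ε j * s : ℝ) : ℂ) + (ε j * (v - y) : ℝ) * I)
        ((ε j * 1 : ℝ) * I) y :=
      ((((hasDerivAt_id' y).sub_const y).const_mul (ε j)).ofReal_comp.mul_const I).const_add _
    refine ⟨_, ?_, ?_, ?_, by rw [d.deriv]; simpa using nf_sq h j⟩
    · exact (contDiff_const.add ((ofRealCLM.contDiff.comp
        (contDiff_const.mul (contDiff_id.sub contDiff_const))).mul contDiff_const)).contDiffAt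
    · filter_upwards [Ioi_mem_nhds h2, Ioo_mem_nhds (sub_lt_self y hδ) (lt_add_of_pos_right y hδ)]
        with v v1 v2
      rw [FB v (le_of_lt v1)]
      refine (nf_box h j m 0 ?_ (by rwa [βim]) ?_ ?_).symm
      · rw [βre, abs_lt]; constructor <;> linarith [v2.1, v2.2]
      · simp [βim]
      · simp only [βre, add_im, ofReal_im, mul_im, ofReal_re, I_im, mul_one, I_re, mul_zero,
          add_zero, zero_add]
        congr 1; linarith
    · simp
  · rintro rfl
    exact not_int (m := m + ⌊t j - t E⌋) (k := -1) (by push_cast; linarith)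
      (by push_cast; linarith [hy.2])
  · rintro rfl
    exact not_int (m := m) (k := 0) (by push_cast; linarith) (by push_cast; linarith [hy.2])
  · congr 2
    rw [eq_sub_iff_add_eq, eq_comm, Int.fract_eq_iff]
    exact ⟨by linarith, by linarith [hy.2], -m, by push_cast; linarith⟩

end nf

end Crest.Agent.X212.Mcg32
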