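import Crest.Agent.X212.Cut21.Leaf
import Crest.Agent.X212.Alg36.Cut2a
import Crest.Agent.X212.Ind26.Pot

/-!
# X212 / H (helper32): PREP, a monotone representative with conditioned boundary
-/

set_option autoImplicit false
set_option linter.unusedSectionVars false

open Finset Classical

noncomputable section

namespace Crest.Agent.X212.Mcg32

open Crest.Agent.X212.Hp13 Crest.Agent.X212.Alg36 Crest.Agent.X212.Cut21
open Crest.Agent.X212.Ind26 (dp_om dp_op Su om_su op_su)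
open Crest.Agent.X212.Kh11 (sctr_max)

section
variable {P : Type} [PartialOrder P] [Fintype P] {A : Set P} {z : P → P → ℤ}

/-- all jumps are at most `n` -/
def JD (A : Set P) (z : P → P → ℤ) (n : ℤ) : Prop := ∀ x y, Dp A x y → z x y ≤ n

theorem jd_half (hz : Coc A z) (hm : Mono A z) {n : ℤ} (h : JD A z n) :
    JD (A2 A) (rf (fun d => (z d.bot d.top + 1) / 2) z) ((n + 1) / 2) := fun C D hp => by
  have he := dp_dom2 hp
  obtain ⟨u, hu⟩ := exists_chart hz he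
  obtain ⟨d, hd, e⟩ := hu.ex_vv (fun d => (z d.bot d.top + 1) / 2) (C := D) le_rfl
  have h1 := hu.le_vv (δ := fun d => (z d.bot d.top + 1) / 2) (Ch.top_mono hp.1) C.top_mem
  rw [hu.rf le_rfl hp.1, e]
  have k : ∀ c : Ch P, c ≤ D.top → z c.bot c.top = u c.top - u c.bot ∧ 0 ≤ z c.bot c.top ∧
      z c.bot c.top ≤ n := fun c hc =>
    ⟨hu _ (hc c.bot_mem) _ (hc c.top_mem) c.bot_le_top, hm _ _ (he.mono hc).bt, h _ _ (he.mono hc).bt⟩
  have k1 := k d (Ch.le_top hd)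
  have k2 := k C.top (Ch.top_mono hp.1)
  simp only [mu] at h1 ⊢
  rcases D.total (hp.1 C.top_mem) hd with l | l
  · have := hu.le hm he (Ch.le_top hd d.bot_mem) (Ch.top_mono hp.1 C.top.bot_mem) (Ch.bot_anti l)
    omega
  · have := hu.le hm he (Ch.le_top hd d.top_mem) (Ch.top_mono hp.1 C.top.top_mem) (Ch.top_mono l)
    omega

theorem om_sd (A : Set P) : Om (Ch.top ⁻¹' A) = (Ch.top : Ch P → P) ⁻¹' Om A := by
  ext C
  exact and_congr_right fun _ => ⟨fun ⟨E, hE, k⟩ => ⟨E.top, hE, Ch.top_mono k⟩,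
    fun ⟨a, ha, k⟩ => ⟨tp C a k, by show Ch.top _ ∈ A; rwa [top_tp], le_tp _ _ _⟩⟩

theorem bb_mono : Monotone fun C : Ch (Ch P) => C.bot.bot :=
  fun _ _ h => Ch.bot_anti (Ch.bot_anti h)

theorem bb_mem (C : Ch (Ch P)) : C.bot.bot ∈ C.top.1 := C.bot_le_top C.bot.bot_mem

theorem dp_bb {C D : Ch (Ch P)} (h : Dp (A2 A) C D) : Dp A C.bot.bot D.bot.bot :=
  (dp_dom2 h).dp (Ch.top_mono h.1 (bb_mem C)) (bb_mem D) (bb_mono h.1)

theorem eqD_bb (hz : Coc A z) : EqD (A2 A) (pb (fun C : Ch (Ch P) => C.bot.bot) z)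
    (pb (Ch.top ∘ Ch.top) z + cb fun C => -z C.bot.bot C.top.top) := fun C D hp => by
  obtain ⟨u, hu⟩ := exists_chart hz (dp_dom2 hp)
  have l := Ch.top_mono hp.1
  have e1 := hu _ (l (bb_mem C)) _ (bb_mem D) (bb_mono hp.1)
  have e2 := hu _ (l C.top.top_mem) _ D.top.top_mem (Ch.top_mono l)
  have e3 := hu _ (l (bb_mem C)) _ (l C.top.top_mem) (Ch.le_top (bb_mem C))
  have e4 := hu _ (bb_mem D) _ D.top.top_mem (Ch.le_top (bb_mem D))
  simp only [pb, cb, Pi.add_apply, Function.comp]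
  omega

theorem br_bb (hA : A.OrdConnected) (hz : Coc A z) (hm : Mono A z) :
    BR (A2 A) (pb (fun C : Ch (Ch P) => C.bot.bot) z) := by
  intro O hO Y hY hOY h0
  have eo : ∀ C : Ch (Ch P), C ∈ Om (A2 A) ↔ C.top.top ∈ Om A := fun C => by
    rw [A2, om_sd, om_sd]; rfl
  have hO' := (eo O).1 hO
  have dm : Dom A O.top := let ⟨_, a, ha, k⟩ := hO'
    ⟨a, ha, fun x hx => Or.inr ((Ch.le_top hx).trans k)⟩
  obtain ⟨u, hu⟩ := exists_chart hz dm
  have ev : ∀ x ∈ O.bot.1, z O.bot.bot x = u x - u O.bot.bot := fun x hx =>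
    hu _ (bb_mem O) _ (O.bot_le_top hx) (Ch.bot_le hx)
  have := (meet O {d | d.top ∈ Om A} {d | ∀ x ∈ d.1, x ∈ O.bot.1 ∧ 0 < z O.bot.bot x}
    fun d hd => ⟨om_dn hA hO' (Ch.top_mono (Ch.le_top hd)), fun k => by
      have := (k _ (Ch.bot_le hd O.bot.bot_mem)).2
      rw [ev _ O.bot.bot_mem] at this
      omega⟩).2 (sctr_max (m := O.bot.sub (O.bot.1.filter fun x => 0 < z O.bot.bot x)
      ⟨_, mem_filter.2 ⟨Ch.bot_anti hOY Y.bot.bot_mem, h0⟩⟩ (filter_subset _ _))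
      ⟨fun x hx => mem_filter.1 hx,
        om_dn hA hO' (Ch.top_mono ((Ch.sub_le _ _ _ _).trans O.bot_le_top)),
        fun x hx => Or.inl ((Ch.sub_le _ _ _ _).trans (Ch.bot_le hx))⟩
      fun d hd x hx => mem_filter.2 (hd.1 x hx))
  convert this using 2
  ext C
  refine ⟨fun ⟨h1, h2, h3⟩ => ⟨h2, fun d hd => om_dn hA ((eo C).1 h1) (Ch.top_mono (Ch.le_top hd)),
    C.bot, C.bot_mem, fun x hx => ⟨Ch.bot_anti h2 hx, ?_⟩⟩,
    fun ⟨h1, h2, d, hd, h3⟩ => ⟨(eo C).2 (h2 _ C.top_mem), h1, (h3 _ (Ch.bot_le hd C.bot.bot_mem)).2⟩⟩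
  have h4 : 0 < z O.bot.bot C.bot.bot := h3
  have := hu.le hm dm (O.bot_le_top (Ch.bot_anti h2 C.bot.bot_mem)) (O.bot_le_top (Ch.bot_anti h2 hx))
    (Ch.bot_le hx)
  rw [ev _ (Ch.bot_anti h2 C.bot.bot_mem)] at h4
  rw [ev _ (Ch.bot_anti h2 hx)]
  omega

/-- total jump on the boundary -/
def NN (A : Set P) (z : P → P → ℤ) : ℤ :=
  ∑ p ∈ univ.filter (fun p : P × P => p.1 ≤ p.2 ∧ (p.1 ∈ Op A ∨ p.2 ∈ Om A)), z p.1 p.2

theorem NN_nn (hm : Mono A z) : 0 ≤ NN A z := sum_nonneg fun _ hp =>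
  let ⟨h1, h2⟩ := (mem_filter.1 hp).2
  hm _ _ (h2.elim (fun k => dp_op k h1) fun k => dp_om k h1)

theorem NN_lt {g : P → ℤ} (h : ∀ x y, x ≤ y → x ∈ Op A ∨ y ∈ Om A → g y ≤ g x) {x y : P}
    (h1 : x ≤ y) (h2 : x ∈ Op A ∨ y ∈ Om A) (h3 : g y < g x) : NN A (z + cb g) < NN A z := by
  refine sum_lt_sum (fun p hp => ?_) ⟨(x, y), mem_filter.2 ⟨mem_univ _, h1, h2⟩, ?_⟩
  · have := h _ _ (mem_filter.1 hp).2.1 (mem_filter.1 hp).2.2
    simp only [Pi.add_apply, cb]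
    omega
  · simp only [Pi.add_apply, cb]
    omega

theorem exit {E V : Set P} {x y : P} (h : Rch E x y) (hx : x ∈ V) (hy : y ∉ V) :
    ∃ a ∈ E, ∃ b ∈ E, a ≤ b ∧ ¬ (a ∈ V ↔ b ∈ V) := by
  by_contra k
  exact hy (h.ind (p := (· ∈ V)) hx fun a ha b hb l => by_contra fun j => k ⟨a, ha, b, hb, l, j⟩)

/-- every union of components of `O₋` has a suture point or carries a non-exact part of `z` -/
def EM (A : Set P) (z : P → P → ℤ) : Prop :=
  ∀ V : Set P, V.Nonempty → V ⊆ Om A → (∀ x ∈ V, ∀ y ∈ Om A, Cm x y → y ∈ V) →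
    (∃ x ∈ V, ∃ a y, Su A x a y) ∨ ¬ ExOn V z

theorem eqD_cb {w : P → P → ℤ} {g : P → ℤ} (e : EqD A w (z + cb g)) (g' : P → ℤ) :
    EqD A (w + cb g') (z + cb (g + g')) := by
  rw [cb_add, ← add_assoc]
  exact e.add EqD.rfl

theorem EM.congr (h : EM A z) {w : P → P → ℤ} {g : P → ℤ} (e : EqD A w (z + cb g)) : EM A w :=
  fun V h1 h2 h3 => (h V h1 h2 h3).imp_right fun k ⟨u, hu⟩ => k ⟨u - g, fun x hx y hy l => by
    have e1 := e x y (dp_om (h2 hy) l)
    have e2 := hu x hx y hy l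
    simp only [Pi.add_apply, cb, Pi.sub_apply] at e1 ⊢
    omega⟩

theorem em_of_nc (hA : A.OrdConnected) (h : NC A (Rm A)) (z : P → P → ℤ) : EM A z :=
  fun _ ⟨_, ho⟩ h2 h3 => let ⟨x, a, y, r, su⟩ := om_su hA h (h2 ho)
    Or.inl ⟨x, r.ind ho fun a ha b hb l =>
      ⟨fun k => h3 a k b hb (Or.inl l), fun k => h3 b k a ha (Or.inr l)⟩, a, y, su⟩

theorem EM.sd (h : EM A z) (hz : Coc A z) : EM (Ch.top ⁻¹' A) (pb Ch.top z) := by
  rintro V ⟨O, hO⟩ h2 h3
  rw [om_sd] at h2 h3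
  have pr : ∀ x y (l : x ≤ y), y ∈ Om A → Ch.pt x ∈ V ∨ Ch.pt y ∈ V → Ch.pr x y l ∈ V :=
    fun x y l hy k => k.elim
      (fun k => h3 _ k _ (by simpa using hy) (Or.inl (Ch.pt_le.2 (by simp))))
      fun k => h3 _ k _ (by simpa using hy) (Or.inl (Ch.pt_le.2 (by simp)))
  have sub : {x | Ch.pt x ∈ V} ⊆ Om A := fun x hx => by simpa using h2 hx
  refine (h {x | Ch.pt x ∈ V} ⟨O.top, h3 O hO _ (by simpa using h2 hO)
    (Or.inr (Ch.pt_le.2 O.top_mem))⟩ sub fun x hx y hy c => ?_).imp ?_ fun k ⟨u, hu⟩ => k ?_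
  · rcases c with l | l
    · exact h3 _ (pr x y l hy (Or.inl hx)) _ (by simpa using hy) (Or.inr (Ch.pt_le.2 (by simp)))
    · exact h3 _ (pr y x l (sub hx) (Or.inr hx)) _ (by simpa using hy) (Or.inr (Ch.pt_le.2 (by simp)))
  · rintro ⟨x, hx, a, y, s1, s2, s3, s4, s5⟩
    exact ⟨_, hx, Ch.pr x a s4, tp (Ch.pr x a s4) y (by simpa using s5), by simpa using s1,
      by simpa using s2, by simpa using s3, Ch.pt_le.2 (by simp), le_tp _ _ _⟩
  · refine ⟨fun x => u (Ch.pt x), fun x hx y hy l => ?_⟩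
    have m := pr x y l (sub hy) (Or.inl hx)
    have e1 := hu _ hx _ m (Ch.pt_le.2 (by simp))
    have e2 := hu _ hy _ m (Ch.pt_le.2 (by simp))
    obtain ⟨-, a, ha, k⟩ := sub hy
    have e3 := hz.self ha (Or.inr k)
    simp only [pb, Ch.top_pt, Ch.top_pr] at e1 e2 ⊢
    omega

/-- the boundary is not tangent to a suture along `R₋` (the text of `Cut21.NT0`) -/
def NT (A : Set P) (z : P → P → ℤ) : Prop :=
  ∀ x ∈ Om A, ∀ b ∈ Fr A, x ≤ b → ∀ y ∈ Om A, x ≤ y → 0 < z x y →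
    ∃ y' ∈ Om A, ∃ b' ∈ Fr A, x ≤ y' ∧ y' ≤ b' ∧ 0 < z x y'

theorem NT.add (h : NT A z) {g : P → ℤ} (h1 : ∀ y ∈ Om A, g y ≤ 0)
    (h2 : ∀ x ∈ Om A, ∀ b ∈ Fr A, x ≤ b → g x = 0) : NT A (z + cb g) := fun x hx b hb l y hy l' k => by
  have e1 := h1 y hy
  have e2 := h2 x hx b hb l
  simp only [Pi.add_apply, cb] at k
  obtain ⟨y', a1, b', a2, a3, a4, a5⟩ := h x hx b hb l y hy l' (by omega)
  refine ⟨y', a1, b', a2, a3, a4, ?_⟩
  have := h2 y' a1 b' a2 a4
  simp only [Pi.add_apply, cb]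
  omega

theorem nt_bb : NT (A2 A) (pb (fun C : Ch (Ch P) => C.bot.bot) z) := by
  intro X hX B hB l Y _ l' k
  rw [A2, fr_sd] at hB ⊢
  rw [A2, om_sd] at hX
  rw [om_sd]
  exact ⟨bt X Y.bot (Ch.bot_anti l'), by simpa using hX,
    tp (bt X Y.bot (Ch.bot_anti l')) B.top (by simpa using Ch.top_mono l), by simpa using hB,
    le_bt _ _ _, le_tp _ _ _, by simpa [pb] using k⟩

theorem cond (hA : A.OrdConnected) (hp : ∀ o ∈ Op A, ∃ x a y, Rch (Op A) o y ∧ Su A x a y) (n : ℕ) :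
    ∀ z : P → P → ℤ, NN A z < n → EM A z → Coc A z → Mono A z → JO A z → BR A z → NT A z →
      ∃ g, Mono A (z + cb g) ∧ Bdy A (z + cb g) ∧ NT A (z + cb g) := by
  induction n with
  | zero => exact fun z h _ _ hm _ _ _ => absurd (NN_nn hm) (by simpa using h)
  | succ n ih =>
  intro z hn hq hz hm jo br nt
  have fin : ∀ g, NT A (z + cb g) → NN A (z + cb g) < NN A z → Mono A (z + cb g) → JO A (z + cb g) →
      BR A (z + cb g) → ∃ g, Mono A (z + cb g) ∧ Bdy A (z + cb g) ∧ NT A (z + cb g) :=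
    fun g h0 h1 h2 h3 h4 => by
    obtain ⟨g', k⟩ := ih _ (by push_cast at hn; omega) (hq.congr EqD.rfl) (hz.add (coc_cb g)) h2 h3 h4 h0
    exact ⟨g + g', by rwa [cb_add, ← add_assoc]⟩
  by_cases c1 : CP A z
  swap
  · obtain ⟨o, ho, hr⟩ : ∃ o ∈ Op A, ¬ RP A z o := by simpa [CP] using c1
    set V := {p | p ∈ Op A ∧ ¬ RP A z p} with hV
    have low : ∀ x y, x ≤ y → x ∈ Op A → y ∈ V → x ∈ V := fun x y l hx hy => ⟨hx, fun k => by
      rcases (hm _ _ (dp_op hx l)).lt_or_eq with e | e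
      exacts [hy.2 (RP.low hx l e), hy.2 (RP.dn hx l e.symm k)]⟩
    have off : ∀ x ∈ Om A, ind V x = 0 := fun x hx => ind_of_not fun k => om_op hA hx k.1
    have eq : ∀ x, ∀ y ∈ Om A, x ≤ y → (z + cb (ind V)) x y = z x y := fun x y hy l => by
      simp [cb, off y hy, off x (om_dn hA hy l)]
    obtain ⟨x, a, y, r, su⟩ := hp o ho
    obtain ⟨v, hv, p, -, l, k⟩ := exit (V := V) r ⟨ho, hr⟩
      fun k => k.2 (RP.sut su.1 su.2.1 su.2.2.2.1 su.2.2.2.2)
    have k1 : p ∉ V := fun j => k (iff_of_true (low v p l hv j) j)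
    have k2 : v ∈ V := by_contra fun j => k (iff_of_false j k1)
    refine fin (ind V) (nt.add (fun y hy => (off y hy).le) fun x hx _ _ _ => off x hx) (NN_lt (fun x y l j => ?_) l (Or.inl hv) (by simp [ind, k1, k2]))
      (fun x y d => ?_) (fun x y hy l => (eq x y hy l).trans_le (jo x y hy l)) fun o ho y hy l j => ?_
    · rcases j with j | j
      · by_cases i : y ∈ V
        · simp [ind, i, low x y l j i]
        · rw [ind_of_not i]; unfold ind; split_ifs <;> simp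
      · rw [off y j, off x (om_dn hA j l)]
    · have := hm x y d
      simp only [Pi.add_apply, cb, ind]
      split_ifs with i j j <;> try omega
      have : z x y ≠ 0 := fun e => i ⟨op_up hA j.1 d.1, fun k => j.2 (RP.up d.1 e k)⟩
      omega
    · rw [eq o y hy l] at j
      convert br o ho y hy l j using 2
      ext y
      exact and_congr_right fun hy => and_congr_right fun l => by rw [eq o y hy l]
  by_cases c2 : CM A z
  · exact ⟨0, by simpa [cb_zero] using hm, by simpa [cb_zero] using (⟨jo, br, c1, c2⟩ : Bdy A z),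
      by simpa [cb_zero] using nt⟩
  obtain ⟨o, ho, hr⟩ : ∃ o ∈ Om A, ¬ RM A z o := by simpa [CM] using c2
  set V := {p | p ∈ Om A ∧ ¬ RM A z p} with hV
  have upp : ∀ x y, x ≤ y → y ∈ Om A → x ∈ V → y ∈ V := fun x y l hy hx => ⟨hy, fun k => by
    rcases (hm _ _ (dp_om hy l)).lt_or_eq with e | e
    exacts [hx.2 (RM.hi hy l e), hx.2 (RM.up hy l e.symm k)]⟩
  have dn0 : ∀ x y, x ≤ y → z x y = 0 → y ∈ V → x ∈ V := fun x y l e hy =>
    ⟨om_dn hA hy.1 l, fun k => hy.2 (RM.dn l e k)⟩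
  have ev : ∀ x y, (z + cb (-ind V)) x y = z x y - ind V y + ind V x := fun x y => by
    simp only [Pi.add_apply, cb, Pi.neg_apply]; ring
  obtain ⟨v, p, hp', l, k⟩ : ∃ v, ∃ p ∈ Om A, v ≤ p ∧ ¬ (v ∈ V ↔ p ∈ V) := by
    by_contra k
    push Not at k
    rcases hq V ⟨o, ho, hr⟩ (fun _ h => h.1) (fun x hx y hy c =>
      c.elim (fun l => upp x y l hy hx) fun l => (k y x hx.1 l).2 hx) with ⟨x, hx, a, y, su⟩ | j
    · exact hx.2 (RM.sut su.2.2.1 su.2.1 su.2.2.2.2 su.2.2.2.1)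
    · exact j ⟨0, fun x hx y hy l => by
        simpa using ((hm _ _ (dp_om hy.1 l)).lt_or_eq.resolve_left fun e => hx.2 (RM.hi hy.1 l e)).symm⟩
  have k1 : v ∉ V := fun j => k (iff_of_true j (upp v p l hp' j))
  have k2 : p ∈ V := by_contra fun j => k (iff_of_false k1 j)
  have le : ∀ x y, x ≤ y → x ∈ Op A ∨ y ∈ Om A → ind V x ≤ ind V y := fun x y l j => by
    by_cases i : x ∈ V
    · simp [ind, i, upp x y l (j.resolve_left (om_op hA i.1)) i]
    · rw [ind_of_not i]; unfold ind; split_ifs <;> simp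
  refine fin (-ind V) (nt.add (fun y _ => by simp only [Pi.neg_apply, ind]; split_ifs <;> simp)
    fun x _ b ⟨hb, o, ho, k⟩ l => by
      rw [Pi.neg_apply, ind_of_not fun j => j.2 (RM.sut ho hb k l), neg_zero])
    (NN_lt (fun x y l j => by simpa using le x y l j) l (Or.inr hp')
    (by simp [ind, k1, k2])) (fun x y d => ?_) (fun x y hy l => ?_) fun o ho y hy l j => ?_
  · have := hm x y d
    rw [ev]
    unfold ind
    split_ifs with i j j <;> try omega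
    have : z x y ≠ 0 := fun e => j (dn0 x y d.1 e i)
    omega
  · have := le x y l (Or.inr hy)
    have := jo x y hy l
    rw [ev]; omega
  · have l1 := le o y l (Or.inr hy)
    have l2 := jo o y hy l
    rw [ev] at j
    have c := br o ho y hy l (by omega)
    convert c using 2
    ext w
    refine and_congr_right fun hw => and_congr_right fun lw => ?_
    have := le o w lw (Or.inr hw)
    refine ⟨fun i => by rw [ev] at i; omega, fun i => ?_⟩
    have e : ind V y = ind V w := (c.conn y ⟨hy, l, by omega⟩ w ⟨hw, lw, i⟩).eq fun a ha b hb ab => by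
      obtain ⟨-, q, hq, lq⟩ := id hb.1
      have e1 := (tri_hi hq ha.2.1 ab lq).add hz
      have e2 := jo o b hb.1 hb.2.1
      have e3 := hm _ _ (dp_om hb.1 ab)
      have e4 := ha.2.2
      by_cases i : a ∈ V
      · rw [ind_of_mem i, ind_of_mem (upp a b ab hb.1 i)]
      · rw [ind_of_not i, ind_of_not fun j => i (dn0 a b ab (by omega) j)]
    have := jo o w hw lw
    rw [ev]; omega

end

theorem pb_rf {P Q : Type} [PartialOrder P] (f : Q → Ch (Ch P)) (δ : Ch P → ℤ) (z : P → P → ℤ)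
    (g : Q → ℤ) : pb f (rf δ z) + cb g = pb ((Ch.top ∘ Ch.top) ∘ f) z + cb (g - dep δ z ∘ f) := by
  funext x y
  simp only [rf, pb, cb, Pi.add_apply, Pi.sub_apply, Function.comp]
  ring

theorem halve (n : ℕ) : ∀ (s : St) (z : s.P → s.P → ℤ), Coc s.A z → Mono s.A z → JD s.A z n →
    ∃ (t : St) (f : t.P → s.P) (g : t.P → ℤ), Desc s t f ∧ Mono t.A (pb f z + cb g) ∧
      JD t.A (pb f z + cb g) 1 := by
  induction n using Nat.strong_induction_on with
  | _ n ih =>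
  intro s z hz hm h
  by_cases hn : n ≤ 1
  · refine ⟨s, id, 0, Desc.refl, by simpa [cb_zero, pb_id] using hm, fun x y d => ?_⟩
    have := h x y d
    simp only [cb_zero, pb_id, add_zero]
    omega
  obtain ⟨t, f, g, d, k⟩ := ih ((n + 1) / 2) (by omega) s.sd.sd _ (coc_rf hz _) (mono_rf hz _)
    (by push_cast; exact jd_half hz hm h)
  refine ⟨t, (Ch.top ∘ Ch.top) ∘ f, g - dep (fun d => (z d.bot d.top + 1) / 2) z ∘ f,
    ((Desc.sd s).step).trans d, pb_rf f _ z g ▸ k⟩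

theorem EM.desc {s t : St} {f : t.P → s.P} {z : s.P → s.P → ℤ} (h : EM s.A z) (hz : Coc s.A z)
    (d : Desc s t f) : EM t.A (pb f z) := by
  induction d with
  | refl => exact h
  | step d ih => exact ih.sd (d.coc hz)

/-- PREP, with closed components of `R₋` on which the class is not trivial -/
def PrepStmt' : Prop := ∀ (s : St) (z : s.P → s.P → ℤ), Good s → EM s.A z →
  NC s.A (Rp s.A) → Coc s.A z →
    ∃ (t : St) (f : t.P → s.P) (g : t.P → ℤ) (w : t.P → t.P → ℤ), Desc s t f ∧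
      EqD t.A w (pb f z + cb g) ∧ Mono t.A w ∧ Bdy t.A w

theorem prepN (s : St) (z : s.P → s.P → ℤ) (hs : Good s) (hm : EM s.A z) (hp : NC s.A (Rp s.A))
    (hz : Coc s.A z) : ∃ (t : St) (f : t.P → s.P) (g : t.P → ℤ) (w : t.P → t.P → ℤ), Desc s t f ∧
      EqD t.A w (pb f z + cb g) ∧ Mono t.A w ∧ Bdy t.A w ∧ NT t.A w := by
  obtain ⟨N, hN⟩ : ∃ N : ℕ, ∀ x y, rf 0 z x y ≤ N :=
    let ⟨N, hN⟩ := (Set.finite_range (Function.uncurry (rf 0 z))).bddAbove
    ⟨N.toNat, fun x y => (hN ⟨(x, y), rfl⟩).trans (Int.self_le_toNat N)⟩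
  obtain ⟨t, f, g, d, m1, j1⟩ := halve N s.sd.sd _ (coc_rf hz 0) (mono_rf hz 0) fun x y _ => hN x y
  have d1 := ((Desc.sd s).step).trans d
  have d2 := d1.step.step
  have c1 : Coc t.A (pb f (rf 0 z) + cb g) := (d.coc (coc_rf hz 0)).add (coc_cb g)
  have e := eqD_bb c1
  have cv := d2.conv hs.conv
  have E : EqD t.sd.sd.A (pb (fun C : Ch (Ch t.P) => C.bot.bot) (pb f (rf 0 z) + cb g))
      (pb ((((Ch.top ∘ Ch.top) ∘ f) ∘ Ch.top) ∘ Ch.top) z + cb fun C : Ch (Ch t.P) =>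
        (g - dep 0 z ∘ f) C.top.top - (pb f (rf 0 z) + cb g) C.bot.bot C.top.top) := fun C D h => by
    have h1 := e C D h
    have h2 : (pb f (rf 0 z) + cb g) C.top.top D.top.top = _ :=
      congrFun (congrFun (pb_rf f 0 z g) C.top.top) D.top.top
    generalize pb f (rf 0 z) + cb g = w at h1 h2 ⊢
    have h1' : w C.bot.bot D.bot.bot = w C.top.top D.top.top +
      (-w D.bot.bot D.top.top - -w C.bot.bot C.top.top) := h1
    have h2' : w C.top.top D.top.top = z (f C.top.top).top.top (f D.top.top).top.top +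
      ((g - dep 0 z ∘ f) D.top.top - (g - dep 0 z ∘ f) C.top.top) := h2
    show w C.bot.bot D.bot.bot = z (f C.top.top).top.top (f D.top.top).top.top +
      (((g - dep 0 z ∘ f) D.top.top - w D.bot.bot D.top.top) -
        ((g - dep 0 z ∘ f) C.top.top - w C.bot.bot C.top.top))
    omega
  obtain ⟨g', m2, b2⟩ := cond cv
    (fun o ho => op_su cv (Kh11.sf_congr (d2.sf (sf_iff.2 ⟨mono_Rp hs.conv, coc_Rp, hp⟩))
      (d2.Rp hs.conv).symm).nc ho) _
    (pb (fun C : Ch (Ch t.P) => C.bot.bot) (pb f (rf 0 z) + cb g))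
    ((Int.self_le_toNat _).trans_lt (Int.ofNat_lt.2 (Nat.lt_succ_self _))) ((hm.desc hz d2).congr E)
    (((c1.pb (Ch.top_mono.comp Ch.top_mono)).add (coc_cb _)).congr e)
    (fun C D h => m1 _ _ (dp_bb h)) (fun C D hD l => j1 _ _ (dp_bb (dp_om hD l)))
    (br_bb (d1.conv hs.conv) c1 m1) nt_bb
  exact ⟨_, _, _, _, d2, eqD_cb E g', m2, b2⟩

theorem prep' : PrepStmt' := fun s z hs hm hp hz =>
  let ⟨t, f, g, w, h1, h2, h3, h4, _⟩ := prepN s z hs hm hp hz
  ⟨t, f, g, w, h1, h2, h3, h4⟩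

/-- PREP -/
theorem prep : PrepStmt := fun s z hs hm => prep' s z hs (em_of_nc hs.conv hm z)

end Crest.Agent.X212.Mcg32
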