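import Crest.Agent.X212.Cut21.Pos

/-!
# X212 / H (helper32): PREP with `NT0`
-/

set_option autoImplicit false

namespace Crest.Agent.X212.Mcg32

open Crest.Agent.X212.Hp13 Crest.Agent.X212.Cut21

theorem prepB : PrepB fun s z => NT0 s.A z := fun s z hs hz =>
  prepN s z hs.toGood (em_of_nc hs.conv hs.sfm.nc z) hs.sfp.nc hz

end Crest.Agent.X212.Mcg32
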