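import Crest.Agent.X212.Mcg32.DecP
import Crest.Agent.X212.Sep15.Av
import Crest.Agent.X212.Sep15.Dec1

/-!
# X212/Mcg32/DecM (helper32): SWD-MAIN, exponential decay from DL, LOJ, WD
-/

set_option autoImplicit false
set_option linter.unusedSectionVars false
set_option maxHeartbeats 400000
noncomputable section
open scoped Manifold ContDiff Topology InnerProductSpace
open MeasureTheory Set Function Filter

namespace Crest.Agent.X212.Mcg32.Dec
open An Cyf70 Sw Sw.En3 Sob92 Sep15.S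
open Dec47 (Gv Cy So ay LojStmt WdStmt MainStmt)
open Nd18 (Jv)
open Neck67 (Lb)
open Win39 (nh gau_at)
open Pb50 (LA LG)

/-! ### real analysis -/

/-- the differential inequality -/
theorem ode {a b : Option ℝ} {f g : ℝ → ℝ} {d M : ℝ} (hd : 0 < d)
    (h : ∀ t ∈ Jv a b, HasDerivAt f (-g t) t ∧ d * |f t| ≤ g t ∧ |f t| ≤ M) {t : ℝ}
    (ht : t ∈ Jv a b) : f t ≤ M * a.elim 0 (fun a => Real.exp (-d * (t - a))) ∧
      -f t ≤ M * b.elim 0 (fun b => Real.exp (-d * (b - t))) := by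
  have an : ∀ σ : ℝ, |σ| ≤ d → AntitoneOn (fun t => f t * Real.exp (σ * t)) (Jv a b) := fun σ hσ => by
    have D : ∀ t ∈ Jv a b, HasDerivAt (fun t => f t * Real.exp (σ * t))
        (-g t * Real.exp (σ * t) + f t * (Real.exp (σ * t) * (σ * 1))) t := fun t ht =>
      (h t ht).1.mul (((hasDerivAt_id t).const_mul σ).exp)
    refine antitoneOn_of_deriv_nonpos (ordConnected_Jv a b).convex
      (fun t ht => (D t ht).continuousAt.continuousWithinAt)
      (fun t ht => (D t (interior_subset ht)).differentiableAt.differentiableWithinAt) fun t ht => ?_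
    have ht' := interior_subset ht
    have e1 : f t * σ ≤ g t := (le_abs_self _).trans (by
      rw [abs_mul, mul_comm]
      exact (mul_le_mul_of_nonneg_right hσ (abs_nonneg _)).trans (h t ht').2.1)
    rw [(D t ht').deriv]
    nlinarith [Real.exp_pos (σ * t)]
  have k1 : ∀ s ∈ Jv a b, s ≤ t → f t ≤ M * Real.exp (-d * (t - s)) := fun s hs hst => by
    have e1 : f t * Real.exp (d * t) ≤ f s * Real.exp (d * s) := an d (abs_of_pos hd).le hs ht hst
    have e2 : Real.exp (d * s) = Real.exp (-d * (t - s)) * Real.exp (d * t) := by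
      rw [← Real.exp_add]; congr 1; ring
    have e3 := mul_le_mul_of_nonneg_right (abs_le.1 (h s hs).2.2).2 (Real.exp_pos (d * s)).le
    rw [e2, ← mul_assoc M] at e3
    exact le_of_mul_le_mul_right (e1.trans (e2 ▸ e3)) (Real.exp_pos (d * t))
  have k2 : ∀ s ∈ Jv a b, t ≤ s → -f t ≤ M * Real.exp (-d * (s - t)) := fun s hs hst => by
    have e1 : f s * Real.exp (-d * s) ≤ f t * Real.exp (-d * t) :=
      an (-d) (by rw [abs_neg, abs_of_pos hd]) ht hs hst
    have e2 : Real.exp (-d * s) = Real.exp (-d * (s - t)) * Real.exp (-d * t) := by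
      rw [← Real.exp_add]; congr 1; ring
    have e3 := mul_le_mul_of_nonneg_right (abs_le.1 (h s hs).2.2).1 (Real.exp_pos (-d * s)).le
    refine le_of_mul_le_mul_right ?_ (Real.exp_pos (-d * t))
    rw [mul_assoc M, ← e2]
    linarith
  constructor
  · cases a with
    | none =>
      have : Tendsto (fun s => M * Real.exp (-d * (t - s))) atBot (𝓝 (M * 0)) :=
        (Real.tendsto_exp_atBot.comp ((tendsto_atTop_add_const_left _ t
          tendsto_neg_atBot_atTop).const_mul_atTop_of_neg (neg_lt_zero.2 hd))).const_mul M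
      exact ge_of_tendsto this ((eventually_le_atBot t).mono fun s hs =>
        k1 s ⟨by simp, fun b hb => hs.trans_lt (ht.2 b hb)⟩ hs)
    | some a =>
      have : Tendsto (fun s => M * Real.exp (-d * (t - s))) (𝓝[>] a)
          (𝓝 (M * Real.exp (-d * (t - a)))) :=
        (Continuous.tendsto (by fun_prop) a).mono_left nhdsWithin_le_nhds
      exact ge_of_tendsto this (mem_of_superset (Ioo_mem_nhdsGT (ht.1 a rfl)) fun s hs =>
        k1 s ⟨by simpa using hs.1, fun b hb => hs.2.trans (ht.2 b hb)⟩ hs.2.le)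
  · cases b with
    | none =>
      have : Tendsto (fun s => M * Real.exp (-d * (s - t))) atTop (𝓝 (M * 0)) :=
        (Real.tendsto_exp_atBot.comp ((tendsto_atTop_add_const_right _ (-t)
          tendsto_id).const_mul_atTop_of_neg (neg_lt_zero.2 hd))).const_mul M
      exact ge_of_tendsto this ((eventually_ge_atTop t).mono fun s hs =>
        k2 s ⟨fun b hb => (ht.1 b hb).trans_le hs, by simp⟩ hs)
    | some b =>
      have : Tendsto (fun s => M * Real.exp (-d * (s - t))) (𝓝[<] b)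
          (𝓝 (M * Real.exp (-d * (b - t)))) :=
        (Continuous.tendsto (by fun_prop) b).mono_left nhdsWithin_le_nhds
      exact ge_of_tendsto this (mem_of_superset (Ioo_mem_nhdsLT (ht.2 b rfl)) fun s hs =>
        k2 s ⟨fun a ha => (ht.1 a ha).trans hs.1, by simpa using hs.2⟩ hs.1.le)

theorem ex_nonneg (δ : ℝ) (p p' : Option ℝ) (s : ℝ) : 0 ≤ ex δ p p' s := by
  cases p <;> cases p' <;> simp only [ex, Option.elim] <;> positivity

theorem ex_le2 {δ : ℝ} (hδ : 0 ≤ δ) {p p' : Option ℝ} {s : ℝ} (h : s ∈ Jv p p') :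
    ex δ p p' s ≤ 2 := by
  have a : (p.elim 0 fun a => Real.exp (-δ * (s - a))) ≤ 1 := by
    cases p with
    | none => exact zero_le_one
    | some a => exact Real.exp_le_one_iff.2 (by nlinarith [h.1 a rfl])
  have b : (p'.elim 0 fun b => Real.exp (-δ * (b - s))) ≤ 1 := by
    cases p' with
    | none => exact zero_le_one
    | some a => exact Real.exp_le_one_iff.2 (by nlinarith [h.2 a rfl])
  rw [ex]; linarith

theorem ex_shift {δ r : ℝ} (hδ : 0 ≤ δ) (p p' : Option ℝ) {s t : ℝ} (h : |s - t| ≤ r) :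
    ex δ p p' s ≤ Real.exp (δ * r) * ex δ p p' t := by
  rw [abs_le] at h
  rw [ex, ex, mul_add]
  refine add_le_add ?_ ?_
  · cases p with
    | none => simp
    | some a =>
      simp only [Option.elim, ← Real.exp_add]
      exact Real.exp_le_exp.2 (by nlinarith [h.1])
  · cases p' with
    | none => simp
    | some a =>
      simp only [Option.elim, ← Real.exp_add]
      exact Real.exp_le_exp.2 (by nlinarith [h.2])

theorem ex_sq (δ : ℝ) (p p' : Option ℝ) (s : ℝ) :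
    ((p.map (· + 1 / 2)).elim 0 fun a => Real.exp (-(2 * δ) * (s - 5 / 4 - a))) +
      ((p'.map (· - 1 / 2)).elim 0 fun b => Real.exp (-(2 * δ) * (b - (s + 5 / 4)))) ≤
      (Real.exp (δ * (7 / 4)) * ex δ p p' s) ^ 2 := by
  have a : ((p.map (· + 1 / 2)).elim 0 fun a => Real.exp (-(2 * δ) * (s - 5 / 4 - a))) =
      (Real.exp (δ * (7 / 4)) * p.elim 0 fun a => Real.exp (-δ * (s - a))) ^ 2 := by
    cases p with
    | none => simp
    | some a => simp only [Option.map, Option.elim, sq, ← Real.exp_add]; congr 1; ring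
  have b : ((p'.map (· - 1 / 2)).elim 0 fun b => Real.exp (-(2 * δ) * (b - (s + 5 / 4)))) =
      (Real.exp (δ * (7 / 4)) * p'.elim 0 fun b => Real.exp (-δ * (b - s))) ^ 2 := by
    cases p' with
    | none => simp
    | some a => simp only [Option.map, Option.elim, sq, ← Real.exp_add]; congr 1; ring
  have c : 0 ≤ (p.elim 0 fun a => Real.exp (-δ * (s - a))) := by
    cases p <;> simp only [Option.elim] <;> positivity
  have d : 0 ≤ (p'.elim 0 fun b => Real.exp (-δ * (b - s))) := by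
    cases p' <;> simp only [Option.elim] <;> positivity
  rw [a, b, ex, mul_add]
  nlinarith [mul_nonneg (mul_nonneg (Real.exp_pos (δ * (7 / 4))).le c)
    (mul_nonneg (Real.exp_pos (δ * (7 / 4))).le d)]

/-- every time lies in a window -/
theorem ex_win {J : Set ℝ} (hJ : IsOpen J) (hc : J.OrdConnected) {s₀ t : ℝ}
    (h0 : Ioo (s₀ - 3) (s₀ + 3) ⊆ J) (ht : t ∈ J) : ∃ s, win s ⊆ J ∧ t ∈ win s := by
  obtain ⟨r, r0, hr⟩ := Metric.isOpen_iff.1 hJ t ht
  have m : ∀ x, |x - t| < r → x ∈ J := fun x hx => hr hx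
  have a0 : 0 < min (r / 2) 1 := by positivity
  have a1 := min_le_left (r / 2) 1
  have a2 := min_le_right (r / 2) 1
  set d := min (r / 2) 1
  rcases le_total t s₀ with h | h
  · exact ⟨t - d + 1, fun x hx => hc.out (m (t - d) (abs_lt.2 ⟨by linarith, by linarith⟩))
      (h0 (a := s₀ + 2) ⟨by linarith, by linarith⟩) ⟨by linarith [hx.1], by linarith [hx.2]⟩,
      by linarith, by linarith⟩
  · exact ⟨t + d - 1, fun x hx => hc.out (h0 (a := s₀ - 2) ⟨by linarith, by linarith⟩)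
      (m (t + d) (abs_lt.2 ⟨by linarith, by linarith⟩)) ⟨by linarith [hx.1], by linarith [hx.2]⟩,
      by linarith, by linarith⟩

theorem mem_half {p p' : Option ℝ} {t : ℝ} :
    t ∈ Jv (p.map (· + 1 / 2)) (p'.map (· - 1 / 2)) ↔ t - 1 / 2 ∈ Jv p p' ∧ t + 1 / 2 ∈ Jv p p' := by
  rw [mem_Jv_map]
  exact ⟨fun h => ⟨⟨fun a ha => by linarith [h.1 a ha], fun a ha => by linarith [h.2 a ha]⟩,
    fun a ha => by linarith [h.1 a ha], fun a ha => by linarith [h.2 a ha]⟩,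
    fun h => ⟨fun a ha => by linarith [h.1.1 a ha], fun a ha => by linarith [h.2.2 a ha]⟩⟩

/-! ### slices -/

variable {κ lam ν : Type} [Fintype κ] [Fintype lam] [Fintype ν] [DecidableEq ν]
  {e : En3 κ lam ν} {I : Set ℝ} {c c' : e.ZC} {v : e.YC} {k : ℕ} {η t : ℝ}
  {u : e.Y.M × ℝ → ℂ} {W : Type} {T : W → Option e.YT} {q : W →₀ ℝ}

theorem lb_sl {N : Type} [NormedAddCommGroup N] [NormedSpace ℝ N] (ht : t ∈ I) :
    ∀ {k : ℕ} {f : e.Y.M × ℝ → N}, Lb e.D.Z.toPre (univ ×ˢ I) k f η →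
      Lb e.D.F.toPre univ k (fun y => f (y, t)) η := by
  have h0 : ∀ {f : e.Y.M × ℝ → N}, Lb e.D.Z.toPre (univ ×ˢ I) 0 f η →
      Lb e.D.F.toPre univ 0 (fun y => f (y, t)) η := fun h y _ =>
    ⟨(h.sm (x := (y, t)) ⟨trivial, ht⟩).comp y (contMDiffAt_id.prodMk contMDiffAt_const),
      h.le (x := (y, t)) ⟨trivial, ht⟩⟩
  intro k
  induction k with
  | zero => exact h0
  | succ k ih => exact fun h => ⟨h0 h.1, fun a => (ih (h.2 (some a))).congr isOpen_univ fun y _ =>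
      (D_some_at e.D.F.toPre (h.md (x := (y, t)) ⟨trivial, ht⟩) a).symm⟩

theorem cy_of_cl (hI : IsOpen I) (hc : e.cyl.AdmOn c (univ ×ˢ I)) (hv : e.cyl.Adm (fz v))
    (h : Cl c (fz v) I k η) (ht : t ∈ I) : Cy (sl c t) v k η := by
  rw [cl_lb hI hc (admOn_of hv _)] at h
  exact ⟨fun i => (lb_sl ht (h.1 (some i))).cb, (lb_sl ht h.2).cb⟩

theorem ay_sl (hI : IsOpen I) (hu : GauOn e.Z.I u (univ ×ˢ I)) (ht : t ∈ I) :
    ay (fun y => u (y, t)) (sl c t) = sl (e.cyl.act u c) t :=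
  (congrArg (sl · 0) (Pb50.sl_act c fun y => gau_at hI hu (x := (y, t)) ⟨trivial, ht⟩)).symm

theorem ag_sl (h : Ag c c' I) (ht : t ∈ I) : sl c t = sl c' t :=
  YC.ext (funext₂ fun k y => (h (y, t) ⟨trivial, ht⟩).1 (some k))
    (funext fun y => (h (y, t) ⟨trivial, ht⟩).2)

/-- two good gauges give the same level -/
theorem L_eq (hL : LojStmt κ lam ν) (G : Gv v) : ∃ η₀ > 0, ∀ (c : e.ZC) u u' (I : Set ℝ), IsOpen I →
    e.cyl.AdmOn c (univ ×ˢ I) → GauOn e.Z.I u (univ ×ˢ I) → GauOn e.Z.I u' (univ ×ˢ I) →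
    Cl (e.cyl.act u c) (fz v) I 0 η₀ → Cl (e.cyl.act u' c) (fz v) I 0 η₀ →
    ∀ t ∈ I, L (sl (e.cyl.act u' c) t) = L (sl (e.cyl.act u c) t) := by
  obtain ⟨η₀, e0, C, -, h⟩ := arg_lb G.ok G.crit.1 G.irr
  refine ⟨η₀, e0, fun c u u' I hI hc hu hu' g g' t ht => ?_⟩
  have hw := gauOn_mul (gauOn_star hu) hu'
  have ag : Ag (e.cyl.act (fun x => u' x * star (u x)) (e.cyl.act u c)) (e.cyl.act u' c) I :=
    (ag_mul G.ok hI hu hw c).trans (ag_act hI (fun x hx => by
      rw [mul_assoc, Pb50.star_mul_one (hu.2 x hx), mul_one]) c)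
  have a := admOn_act G.ok hI hc hu
  rw [← ag_sl ag ht, ← ay_sl hI hw ht]
  exact hL.inv e G.ok _ _ (adm_sl hI a ht) (Win39.gau_sl hI hw ht).1 fun y =>
    ((h _ _ I hI a hw g (ag.cl hI g')).1 (y, t) ⟨trivial, ht⟩).1

/-- the derivative of the level in a local gauge -/
theorem dL (hD : DlStmt κ lam ν) (H : e.OK) (hI : IsOpen I) (hc : e.cyl.AdmOn c (univ ×ˢ I))
    (hu : GauOn e.Z.I u (univ ×ˢ I)) (ht : t ∈ I) (hE : e.cyl.EqOn (pt T q) c (univ ×ˢ I))
    (h0 : ∀ y, tau T q c (y, t) = 0) :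
    HasDerivAt (fun s => L (sl (e.cyl.act u c) s)) (-gn (sl c t)) t := by
  have la := fun y => LA.of_on hc (op hI) (x := (y, t)) ⟨trivial, ht⟩
  have lg := fun y => LG.of_on hu (op hI) (x := (y, t)) ⟨trivial, ht⟩
  have ev := Pb50.eqv_sl c lg
  have ad := adm_sl hI hc ht
  have := (hD e H _ I hI (admOn_act H hI hc hu)).2.2 t ht fun y =>
    (Pb50.eD_act H.cyl (la y) (lg y)).trans ((congrArg _ (hE (y, t) ⟨trivial, ht⟩).1).trans
      (Pb50.ptD_act (T := T) (q := q) (x := (y, t)) H ev).symm)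
  have e1 : ∀ y, e.cyl.eC (e.cyl.act u c) (y, t) +
      deriv e.f (hol (sl (e.cyl.act u c) t)) • e.ζ y = 0 := fun y => by
    rw [Pb50.eC_act H.cyl (la y).sa (lg y), (hE (y, t) ⟨trivial, ht⟩).2, H.per _ _ ad ev]
    simp [pt, h0 y]
  simpa [e1, ip, Pb50.Eqv.gn H ad ev] using this

theorem en_eq (hw : 0 ≤ e.w) {f : ℝ → ℝ} {a b : ℝ} (hab : a ≤ b)
    (hg : ContinuousOn (fun s => gn (sl c s)) (Icc a b))
    (hf : ∀ t ∈ Icc a b, HasDerivAt f (-gn (sl c t)) t) :
    en c (Ioo a b) = ENNReal.ofReal (f a - f b) := by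
  have i : IntervalIntegrable (fun s => gn (sl c s)) volume a b := hg.intervalIntegrable_of_Icc hab
  have h := intervalIntegral.integral_eq_sub_of_hasDerivAt (f := f) (f' := fun t => -gn (sl c t))
    (fun t ht => hf t (uIcc_of_le hab ▸ ht)) i.neg
  rw [intervalIntegral.integral_neg, intervalIntegral.integral_of_le hab,
    integral_Ioc_eq_integral_Ioo] at h
  rw [en, ← ofReal_integral_eq_lintegral_ofReal (hg.integrableOn_Icc.mono_set Ioo_subset_Icc_self)
    (.of_forall fun t => gn_nonneg hw _)]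
  congr 1; linarith

/-- the energy decays -/
theorem en_dec (hD : DlStmt κ lam ν) (hL : LojStmt κ lam ν) (G : Gv v) (hS : L v ∉ e.S) :
    ∃ δ > 0, ∃ η₀ > 0, ∃ K, 0 ≤ K ∧ ∀ (W : Type) (T : W → Option e.YT) q c p p' η, η ≤ η₀ →
    Loc T q c p p' → (∀ t ∈ Jv p p', ∃ I u, IsOpen I ∧ t ∈ I ∧ I ⊆ Jv p p' ∧
      GauOn e.Z.I u (univ ×ˢ I) ∧ Cl (e.cyl.act u c) (fz v) I 1 η) →
    (∀ y t, t - 1 / 2 ∈ Jv p p' → t + 1 / 2 ∈ Jv p p' → tau T q c (y, t) = 0) ∧
    ∀ s, s - 7 / 4 ∈ Jv p p' → s + 7 / 4 ∈ Jv p p' →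
      en c (Ioo (s - 5 / 4) (s + 5 / 4)) ≤ ENNReal.ofReal ((K * η * ex δ p p' s) ^ 2) := by
  have H := G.ok
  obtain ⟨η₁, e1, h1⟩ := L_eq hL G
  obtain ⟨η₂, e2, C', h2⟩ := hL.loj e v G
  obtain ⟨r, r0, hr⟩ := Metric.isOpen_iff.1 H.S.isClosed.isOpen_compl _ hS
  obtain ⟨C, c1, c2⟩ : ∃ C, 1 ≤ C ∧ C' ≤ C := ⟨max 1 C', le_max_left _ _, le_max_right _ _⟩
  have c0 : 0 < C := by linarith
  refine ⟨1 / (2 * C), by positivity, min (min η₁ η₂) (min 1 (r / (2 * C))), by positivity,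
    √C * Real.exp (1 / (2 * C) * (7 / 4)), by positivity, fun W T q c p p' η hη h hN => ?_⟩
  simp only [le_min_iff] at hη
  obtain ⟨⟨n1, n2⟩, n3, n4⟩ := hη
  choose! I u hI hm hs hu hc using hN
  have hA := admOn_mono h.adm (prod_mono_right (Jv_sub p p'))
  have ad := fun t ht => admOn_mono hA (prod_mono_right (hs t ht))
  have lg := fun t ht y => LG.of_on (hu t ht) (op (hI t ht)) (x := (y, t)) ⟨trivial, hm t ht⟩
  let f : ℝ → ℝ := fun t => L (sl (e.cyl.act (u t) c) t) - L v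
  have lj : ∀ t ∈ Jv p p', |f t| ≤ C * η ^ 2 ∧ |f t| ≤ C * gn (sl c t) := fun t ht => by
    have a := admOn_act H (hI t ht) (ad t ht) (hu t ht)
    have := h2 _ η n2 (adm_sl (hI t ht) a (hm t ht))
      (cy_of_cl (hI t ht) a G.crit.1 (hc t ht) (hm t ht))
    rw [Pb50.Eqv.gn H (loc_sl h ht) (Pb50.eqv_sl c (lg t ht))] at this
    exact ⟨this.1.trans (mul_le_mul_of_nonneg_right c2 (sq_nonneg _)),
      this.2.trans (mul_le_mul_of_nonneg_right c2 (gn_nonneg G.w.le _))⟩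
  have D := hD e H c _ (isOpen_Jv p p') hA
  have t0 : ∀ y t, t - 1 / 2 ∈ Jv p p' → t + 1 / 2 ∈ Jv p p' → tau T q c (y, t) = 0 :=
    fun y t a b => by
    by_contra hn
    obtain ⟨inv, k⟩ := tau_ne hn
    have η0 := cl_nonneg (hc _ a) ⟨_, hm _ a⟩
    refine hr ((lb_abs D.1.continuousOn (x := r / 2) fun t' ht' => ?_).trans_lt (half_lt_self r0)) k
    have m := (ordConnected_Jv p p').out a b ht'
    rw [← inv _ _ (loc_sl h m) (Pb50.eqv_sl c (lg t' m))]
    rw [le_div_iff₀ (by positivity)] at n4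
    exact ⟨m, (lj t' m).1.trans (by nlinarith [mul_le_mul_of_nonneg_left n3 (mul_nonneg η0 c0.le)])⟩
  have sub : ∀ t ∈ Jv (p.map (· + 1 / 2)) (p'.map (· - 1 / 2)), t ∈ Jv p p' := fun t ht =>
    (ordConnected_Jv p p').out (mem_half.1 ht).1 (mem_half.1 ht).2 ⟨by linarith, by linarith⟩
  have df : ∀ t ∈ Jv (p.map (· + 1 / 2)) (p'.map (· - 1 / 2)), HasDerivAt f (-gn (sl c t)) t :=
    fun t ht' => by
    have ht := sub t ht'
    refine ((dL hD H (hI t ht) (ad t ht) (hu t ht) (hm t ht)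
      (fun x hx => h.eq x ⟨trivial, hs t ht hx.2⟩) fun y =>
        t0 y t (mem_half.1 ht').1 (mem_half.1 ht').2).sub_const (L v)).congr_of_eventuallyEq ?_
    filter_upwards [(hI t ht).mem_nhds (hm t ht)] with s k
    have k' := hs t ht k
    exact congrArg (· - L v) (h1 c (u t) (u s) (I t ∩ I s) ((hI t ht).inter (hI s k'))
      (admOn_mono (ad t ht) (prod_mono_right inter_subset_left))
      (gauOn_mono (hu t ht) (prod_mono_right inter_subset_left))
      (gauOn_mono (hu s k') (prod_mono_right inter_subset_right))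
      (cl_mono (hc t ht) inter_subset_left zero_le_one n1)
      (cl_mono (hc s k') inter_subset_right zero_le_one n1) s ⟨k, hm s k'⟩)
  refine ⟨t0, fun s a b => ?_⟩
  have o := (ordConnected_Jv p p').out a b
  have m : ∀ t ∈ Icc (s - 5 / 4) (s + 5 / 4), t ∈ Jv (p.map (· + 1 / 2)) (p'.map (· - 1 / 2)) :=
    fun t ht => mem_half.2 ⟨o ⟨by linarith [ht.1], by linarith [ht.2]⟩,
      o ⟨by linarith [ht.1], by linarith [ht.2]⟩⟩
  have od := fun t ht => ode (f := f) (g := fun t => gn (sl c t)) (M := C * η ^ 2) (t := t)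
    (show 0 < 2 * (1 / (2 * C)) by positivity) (fun t ht => ⟨df t ht, by
      have := (lj t (sub t ht)).2
      rw [← le_div_iff₀' (by positivity)]
      exact this.trans (le_of_eq (by field_simp)), (lj t (sub t ht)).1⟩) ht
  rw [en_eq G.w.le (by linarith) (D.2.1.continuousOn.mono fun t ht => sub t (m t ht))
    fun t ht => df t (m t ht)]
  refine ENNReal.ofReal_le_ofReal ?_
  have k1 := (od _ (m _ ⟨le_rfl, by linarith⟩)).1
  have k2 := (od _ (m _ ⟨by linarith, le_rfl⟩)).2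
  have k3 := mul_le_mul_of_nonneg_left (ex_sq (1 / (2 * C)) p p' s)
    (show 0 ≤ C * η ^ 2 by positivity)
  have k4 : (√C * Real.exp (1 / (2 * C) * (7 / 4)) * η * ex (1 / (2 * C)) p p' s) ^ 2 =
      C * η ^ 2 * (Real.exp (1 / (2 * C) * (7 / 4)) * ex (1 / (2 * C)) p p' s) ^ 2 := by
    rw [mul_pow, mul_pow, mul_pow, mul_pow, Real.sq_sqrt c0.le]; ring
  rw [k4]
  linarith

/-- **SW-DEC**, one gauge for all orders -/
theorem dec1 (hD : DlStmt κ lam ν) (hL : LojStmt κ lam ν) (hW : WdStmt κ lam ν) :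
    Dec1 κ lam ν := by
  intro e v H hw hv hn hi hS
  have G : Gv v := ⟨H, hw, hv, hn, hi⟩
  obtain ⟨δ, d0, η₁, e1, K, k0, h1⟩ := en_dec hD hL G hS
  obtain ⟨η₂, e2, h2⟩ := hW e v G
  obtain ⟨η₃, e3, P, p0, h3⟩ := patch1 G
  obtain ⟨B, b0, hB⟩ := lb_fz hv.1.sΦ (fun _ => rfl) 0
  obtain ⟨C, hC⟩ := h2 (K * 2 + (1 + B))
  set E := Real.exp (δ * (5 / 4))
  have E0 : 0 < E := Real.exp_pos _
  refine ⟨δ, d0, min (min η₁ η₂) (min 1 (η₃ / (|C 0| * K * 2 + 1))), by positivity,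
    fun k => P k (|C k| * K * E * 2) * (|C k| * K * E), fun W T q c p p' η hη h hN => ?_⟩
  simp only [le_min_iff] at hη
  obtain ⟨⟨n1, n2⟩, n3, n4⟩ := hη
  by_cases h0 : ∃ s₀, Ioo (s₀ - 3) (s₀ + 3) ⊆ Jv p p'
  swap
  · exact ⟨fun _ => 1, ⟨contMDiffOn_const, by simp⟩, fun _ s hs => (h0 ⟨s, hs⟩).elim⟩
  obtain ⟨s₀, h0⟩ := h0
  have hN' : ∀ t ∈ Jv p p', ∃ I u, IsOpen I ∧ t ∈ I ∧ I ⊆ Jv p p' ∧
      GauOn e.Z.I u (univ ×ˢ I) ∧ Cl (e.cyl.act u c) (fz v) I 1 η := fun t ht =>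
    let ⟨s, a, b⟩ := ex_win (isOpen_Jv p p') (ordConnected_Jv p p') h0 ht
    let ⟨u, d, f⟩ := hN s a
    ⟨_, u, isOpen_Ioo, b, a, d, cl_mono f Subset.rfl one_le_two le_rfl⟩
  have η0 : 0 ≤ η :=
    let ⟨_, _, _, a, _, _, b⟩ := hN' s₀ (h0 ⟨by linarith, by linarith⟩)
    cl_nonneg b ⟨_, a⟩
  obtain ⟨t0, hE⟩ := h1 W T q c p p' η n1 h hN'
  have hA := admOn_mono h.adm (prod_mono_right (Jv_sub p p'))
  let S : Set ℤ := {j | (j : ℝ) / 4 - 7 / 4 ∈ Jv p p' ∧ (j : ℝ) / 4 + 7 / 4 ∈ Jv p p'}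
  have o := ordConnected_Jv p p'
  have xe : ∀ s ∈ Jv p p', 0 ≤ K * η * ex δ p p' s ∧ K * η * ex δ p p' s ≤ K * η * 2 := fun s hs =>
    ⟨mul_nonneg (mul_nonneg k0 η0) (ex_nonneg _ _ _ _),
      mul_le_mul_of_nonneg_left (ex_le2 d0.le hs) (mul_nonneg k0 η0)⟩
  have wd : ∀ j ∈ S, ∃ u, Gau e.Z.I u ∧ ∀ k, Cl (e.cyl.act u c) (fz v) (Dec47.iv j) k
      (|C k| * (K * η * ex δ p p' (j / 4))) := fun j hj => by
    have m := o.out hj.1 hj.2
    have m0 : (j : ℝ) / 4 ∈ Jv p p' := m ⟨by linarith, by linarith⟩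
    have l := loc_win h (a := j / 4 - 5 / 4) (b := j / 4 + 5 / 4) (m ⟨by linarith, by linarith⟩)
      (m ⟨by linarith, by linarith⟩)
    obtain ⟨u, a, b⟩ := hC c (j / 4) _ (xe _ m0).1 ((xe _ m0).2.trans (by nlinarith))
      ⟨l.adm, fun x hx => ⟨(l.eq x hx).1, by
        have k := Jv_some _ _ ▸ hx.2
        rw [(l.eq x hx).2]
        simp only [pt, t0 x.1 x.2 (m ⟨by linarith [k.1], by linarith [k.2]⟩)
          (m ⟨by linarith [k.1], by linarith [k.2]⟩)]
        simp [tau]⟩⟩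
      (fun x hx => by
        obtain ⟨I, u, a, b, -, d, f⟩ := hN' x.2 (m ⟨by linarith [hx.2.1], by linarith [hx.2.2]⟩)
        have f1 := (Win39.Cl.pt f (x := x) ⟨trivial, b⟩).2
        have f2 := (hB univ).le (x := x) trivial
        rw [← Pb50.norm_act H.cyl (d.2 x ⟨trivial, b⟩)]
        have := norm_le_norm_sub_add ((e.cyl.act u c).Φ x) ((fz v).Φ x)
        nlinarith)
      (by
        obtain ⟨I, u, a, b, s, d, f⟩ := hN' _ m0
        refine ⟨_, (Win39.gau_sl a d b).1, ?_⟩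
        rw [ay_sl a d b]
        exact cy_of_cl a (admOn_act H a (admOn_mono hA (prod_mono_right s)) d) hv.1
          (cl_mono f Subset.rfl le_rfl n2) b)
      (hE _ hj.1 hj.2)
    exact ⟨u, a, fun k => cl_mono (b k) (fun t ht => ⟨by linarith [ht.1], by linarith [ht.2]⟩) le_rfl
      (mul_le_mul_of_nonneg_right (le_abs_self _) (xe _ m0).1)⟩
  choose! u hu hc using wd
  obtain ⟨u', g, hp⟩ := h3 c u S ⟨fun a ha b hb j hj => by
    have j1 : (a : ℝ) ≤ j := Int.cast_le.2 hj.1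
    have j2 : (j : ℝ) ≤ b := Int.cast_le.2 hj.2
    exact ⟨o.out ha.1 hb.1 ⟨by linarith, by linarith⟩, o.out ha.2 hb.2 ⟨by linarith, by linarith⟩⟩⟩
    fun j hj => ⟨hu j hj, admOn_mono hA (prod_mono_right fun t ht =>
      o.out hj.1 hj.2 ⟨by linarith [ht.1], by linarith [ht.2]⟩), cl_mono (hc j hj 0) Subset.rfl le_rfl (by
        rw [le_div_iff₀ (by positivity)] at n4
        have := mul_le_mul_of_nonneg_left (xe _ (o.out hj.1 hj.2
          (a := j / 4) ⟨by linarith, by linarith⟩)).2 (abs_nonneg (C 0))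
        linarith)⟩
  refine ⟨u', gauOn_of g _, fun k s hs w hw x hx => ?_⟩
  have f1 := Int.floor_le (4 * x.2)
  have f2 := Int.lt_floor_add_one (4 * x.2)
  have x1 : s - 1 < x.2 := hx.2.1
  have x2 : x.2 < s + 1 := hx.2.2
  set j := ⌊4 * x.2⌋
  have j1 : j ∈ S := ⟨hs ⟨by linarith, by linarith⟩, hs ⟨by linarith, by linarith⟩⟩
  have j2 : j + 1 ∈ S := ⟨hs ⟨by push_cast; linarith, by push_cast; linarith⟩,
    hs ⟨by push_cast; linarith, by push_cast; linarith⟩⟩
  have a0 : 0 ≤ |C k| * K * E := by positivity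
  have sh : ∀ t, |t - s| ≤ 5 / 4 → |C k| * (K * η * ex δ p p' t) ≤
      |C k| * K * E * η * ex δ p p' s := fun t ht => by
    have := mul_le_mul_of_nonneg_left (ex_shift d0.le p p' ht)
      (show 0 ≤ |C k| * (K * η) by positivity)
    linarith
  have := hp k (|C k| * K * E * 2) j (|C k| * K * E * η * ex δ p p' s) j1 j2 (by
      have a := ex_le2 d0.le (hs (a := s) ⟨by linarith, by linarith⟩)
      have b := ex_nonneg δ p p' s
      rw [mul_assoc _ η]
      exact mul_le_mul_of_nonneg_left (by nlinarith) a0)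
    (cl_mono (hc j j1 k) Subset.rfl le_rfl (sh _ (abs_le.2 ⟨by linarith, by linarith⟩)))
    (cl_mono (hc _ j2 k) Subset.rfl le_rfl
      (sh _ (abs_le.2 ⟨by push_cast; linarith, by push_cast; linarith⟩)))
    w hw x ⟨trivial, by linarith, by linarith⟩
  simpa only [mul_assoc] using this

theorem decStmt (hD : DlStmt κ lam ν) (hL : LojStmt κ lam ν) (hW : WdStmt κ lam ν) :
    DecStmt κ lam ν := (dec1 hD hL hW).dec

/-- SWD-MAIN -/
theorem mainStmt : MainStmt κ lam ν := fun hD _ hL hW _ => decStmt hD hL hW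

end Crest.Agent.X212.Mcg32.Dec
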