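import Crest.Agent.X212.Mcg32.DzN

/-!
# X212/Mcg32/DzI (helper32): DZ-INV and DZ-MS
-/

set_option autoImplicit false
set_option linter.unusedSectionVars false
set_option maxHeartbeats 400000
noncomputable section
open scoped Manifold ContDiff Topology InnerProductSpace
open MeasureTheory Set Function Filter

namespace Crest.Agent.X212.Mcg32.Dz
open An Cyf70 Sw Sw.En3 Map77.S
open Map77 (f2 s2)
open Sep15.S (av_eq cont_bp bp_nonneg)

/-- **DZ-INV** -/
theorem invStmt : Dz34.InvStmt := by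
  intro l G S hl hS hd hG hK h
  have df := hl.differentiable (by simp)
  have inj : ∀ s s', l s = l s' → l s ∈ S → s ≤ s' → s = s' := fun s s' e hs k => by
    by_contra hne
    have : IsLocalMax l s' := mem_of_superset (Ioi_mem_nhds (k.lt_of_ne hne)) fun b hb =>
      e ▸ cross df (r := l s) (fun t ht => hd t (ht ▸ hs)) le_rfl (le_of_lt hb)
    exact (hd s' (e ▸ hs)).ne this.deriv_eq_zero
  have ft : G.FactorsThrough l := fun s s' e => by
    by_cases hs : l s ∈ S
    · rcases le_total s s' with k | k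
      · rw [inj s s' e hs k]
      · rw [inj s' s e.symm (e ▸ hs) k]
    · rw [not_not.1 fun k => hs (h s k), not_not.1 fun k => hs (e ▸ h s' k)]
  have sp : ∀ r, extend l G 0 r ≠ 0 → ∃ s, l s = r ∧ G s ≠ 0 := fun r hr => by
    by_cases k : ∃ s, l s = r
    · obtain ⟨s, rfl⟩ := k
      exact ⟨s, rfl, ft.extend_apply _ s ▸ hr⟩
    · exact (hr (extend_apply' _ _ _ k)).elim
  refine ⟨extend l G 0, contDiff_iff_contDiffAt.2 fun r => ?_, fun r hr => ?_, ft.extend_apply _⟩
  · by_cases k : r ∈ l '' tsupport G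
    · obtain ⟨s, hs, rfl⟩ := k
      have hs' : l s ∈ S := (hS.preimage hl.continuous).closure_subset_iff.2 h hs
      have d := (df s).hasDerivAt.hasFDerivAt_equiv (hd s hs').ne
      have n : (∞ : WithTop ℕ∞) ≠ 0 := by simp
      refine (hG.contDiffAt.comp _ (hl.contDiffAt.to_localInverse d n)).congr_of_eventuallyEq ?_
      filter_upwards [(hl.contDiffAt.hasStrictFDerivAt' d n).eventually_right_inverse] with y hy
      exact (congrArg _ hy.symm).trans (ft.extend_apply _ _)
    · refine (contDiffAt_const (c := (0 : ℝ))).congr_of_eventuallyEq ?_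
      filter_upwards [(hK.isCompact.image hl.continuous).isClosed.isOpen_compl.mem_nhds k] with y hy
      by_contra hn
      obtain ⟨s, a, b⟩ := sp y hn
      exact hy ⟨s, subset_tsupport _ b, a⟩
  · obtain ⟨s, rfl, b⟩ := sp r hr
    exact h s b

theorem cd_av {l : ℝ → ℝ} (hl : ContDiff ℝ ∞ l) :
    ContDiff ℝ ∞ fun s => av fun p => l (s + p - 1 / 2) := by
  refine contDiff_infty.2 fun n => ?_
  induction n generalizing l with
  | zero => exact contDiff_zero.2 (continuous_iff_continuousAt.2 fun s =>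
      (av_der (hl.of_le (by simp)) s).continuousAt)
  | succ n ih =>
    have d := av_der (hl.of_le (by simp))
    rw [Nat.cast_succ, contDiff_succ_iff_deriv]
    exact ⟨fun s => (d s).differentiableAt, by simp,
      funext (fun s => (d s).deriv) ▸ ih (contDiff_infty_iff_deriv.1 hl).2⟩

theorem av_par {F F' : ℝ → ℝ → ℝ} (hF : ∀ r, Continuous (F r)) (hF' : Continuous (uncurry F'))
    (hd : ∀ r p, HasDerivAt (F · p) (F' r p) r) (r : ℝ) :
    HasDerivAt (fun r => av (F r)) (av (F' r)) r := by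
  have c2 := cont_bp
  have c1 : Continuous (F' r) := hF'.uncurry_left r
  obtain ⟨B, hB⟩ := ((isCompact_Icc (a := r - 1) (b := r + 1)).prod
    (isCompact_Icc (a := (0 : ℝ)) (b := 1))).exists_bound_of_continuousOn hF'.continuousOn
  simp only [av_eq]
  refine (hasDerivAt_integral_of_dominated_loc_of_deriv_le (μ := volume.restrict (Icc 0 1))
    (F := fun s p => bp p * F s p) (F' := fun s p => bp p * F' s p)
    (bound := fun p => bp p * B) (Icc_mem_nhds (sub_one_lt r) (lt_add_one r))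
    (.of_forall fun x => (c2.mul (hF x)).aestronglyMeasurable)
    (c2.mul (hF r)).continuousOn.integrableOn_Icc (c2.mul c1).aestronglyMeasurable
    ((ae_restrict_mem measurableSet_Icc).mono fun p hp x hx => ?_)
    (by fun_prop : Continuous _).continuousOn.integrableOn_Icc
    (.of_forall fun p x _ => (hd x p).const_mul (bp p))).2
  rw [norm_mul, Real.norm_of_nonneg (bp_nonneg p)]
  exact mul_le_mul_of_nonneg_left (hB (x, p) ⟨hx, hp⟩) (bp_nonneg p)

variable {κ lam ν : Type} [Fintype κ] [Fintype lam] [Fintype ν] [DecidableEq ν]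
  {e : En3 κ lam ν} {c : e.ZC} {u : e.Y.M × ℝ → Cf κ ν}

/-- a section as a configuration -/
def cfg (u : e.Y.M × ℝ → Cf κ ν) : e.ZC := ⟨fun i x => co i (u x), fun x => sp (u x)⟩

theorem adm_cfg (h1 : Sm (IC e.Y.I) u) (h2 : ∀ x, pC e.cyl x (u x) = u x) : e.cyl.Adm (cfg u) :=
  ⟨fun i => (co i).contMDiff.comp h1, sp.contMDiff.comp h1, fun i x => by
    have := congrArg (co i) (h2 x)
    rw [co_apply, Map77.f2_ps, Bg.p1, Map77.idx_apply] at this
    exact this, fun x => by
    have := congrArg sp (h2 x)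
    rwa [Map77.s2_ps] at this⟩

theorem adm_vr (hc : e.cyl.Adm c) (hu : e.cyl.Adm (cfg u)) (r : ℝ) : e.cyl.Adm (vr c u r) :=
  ⟨fun i => (hc.sa i).add (contMDiff_const.mul (hu.sa i)),
    hc.sΦ.add ((contMDiff_const (I' := 𝓘(ℝ, ℝ)) (c := r)).smul hu.sΦ), fun i x => by
    have := hu.pa i x
    simp only [cfg] at this
    simp only [vr, mul_add, Finset.sum_add_distrib, hc.pa i x, mul_left_comm _ r, ← Finset.mul_sum,
      this], fun x => by
    have := hu.pΦ x
    simp only [cfg] at this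
    simp only [vr, map_add, map_smul, hc.pΦ x, this]⟩

theorem fy_vr (hc : e.cyl.Adm c) (hu : e.cyl.Adm (cfg u)) (t : ℝ) :
    Dl42.FY (fun r => sl (vr c u r) t) fun _ => sl (cfg u) t :=
  ⟨fun k => ⟨(sm_fst (sm_slice_fst (hc.sa (some k)) t)).add
      (Dl42.fam_sc (sm_slice_fst (hu.sa (some k)) t)).sm, fun s y =>
      ((Dl42.fam_sc (sm_slice_fst (hu.sa (some k)) t)).dr s y).const_add _⟩,
    ⟨(sm_fst (sm_slice_fst hc.sΦ t)).add (Dl42.fam_sc (sm_slice_fst hu.sΦ t)).sm, fun s y =>
      ((Dl42.fam_sc (sm_slice_fst hu.sΦ t)).dr s y).const_add _⟩,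
    fun r => Dl42.ay_sl (adm_vr hc hu r) t⟩

theorem cont_D {N : Type} [NormedAddCommGroup N] [NormedSpace ℝ N] {f g : e.Y.M × ℝ → N}
    (hf : Sm (IC e.Y.I) f) (hg : Sm (IC e.Y.I) g) (i : κ) : Continuous fun p : (ℝ × ℝ) × e.Y.M =>
      e.D.F.D i (fun y => f (y, p.1.2) + p.1.1 • g (y, p.1.2)) p.2 := by
  have m : Continuous fun p : (ℝ × ℝ) × e.Y.M => (p.2, p.1.2) := by fun_prop
  refine (((e.D.Z.sm_D hf (some i)).continuous.comp m).add (continuous_fst.fst.smul
    ((e.D.Z.sm_D hg (some i)).continuous.comp m))).congr fun p => ?_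
  have s := (contMDiff_const (I' := 𝓘(ℝ, ℝ)) (c := p.1.1)).smul hg
  rw [← D_some e.D.F.toPre (u := fun x => f x + p.1.1 • g x) (hf.add s) i (p.2, p.1.2)]
  refine Eq.symm ((Sob92.dv_add (hf.mdifferentiableAt (by simp)) (s.mdifferentiableAt (by simp))).trans ?_)
  exact congrArg _ (congrFun (e.D.Z.D_smul hg p.1.1 (some i)) _)

theorem cont_ip (he : e.OK) (hc : e.cyl.Adm c) (hu : e.cyl.Adm (cfg u)) :
    Continuous fun p : ℝ × ℝ => ip (gr (sl (vr c u p.1) p.2)) (sl (cfg u) p.2) := by
  have m : Continuous fun p : (ℝ × ℝ) × e.Y.M => (p.2, p.1.2) := by fun_prop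
  have j : Continuous fun p : (ℝ × ℝ) × e.Y.M => Win39.jt (sl (vr c u p.1.1) p.1.2) p.2 :=
    (continuous_pi fun k => ((hc.sa (some k)).continuous.comp m).add
      (continuous_fst.fst.mul ((hu.sa (some k)).continuous.comp m))).prodMk
      ((continuous_pi fun i => continuous_pi fun k => cont_D (hc.sa (some k)) (hu.sa (some k)) i).prodMk
        (((hc.sΦ.continuous.comp m).add (continuous_fst.fst.smul (hu.sΦ.continuous.comp m))).prodMk
          (continuous_pi fun i => cont_D hc.sΦ hu.sΦ i)))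
  refine (Win39.CF.ip (Win39.cf_gJ (j := fun p : ℝ × ℝ => Win39.jt (sl (vr c u p.1) p.2)) he j)
    (u' := fun p : ℝ × ℝ => sl (cfg u) p.2) ⟨fun k => (hu.sa (some k)).continuous.comp m,
      hu.sΦ.continuous.comp m⟩).congr fun p => ?_
  have A := Dl42.ay_sl (adm_vr hc hu p.1) p.2
  rw [Win39.gr_jt he A.sa A.sΦ]

/-- **DZ-MS** -/
theorem msStmt : Dz34.MsStmt κ lam ν := by
  intro e he c hc
  refine ⟨cd_av (l := fun t => L (sl c t)) (cd_L he hc).1, fun u hu => ?_⟩
  have au := adm_cfg hu.1 hu.2.2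
  have v0 : vr c u 0 = c := Cfg.ext (by funext i x; simp [vr]) (by funext x; simp [vr])
  have f := Dl42.fy_sl hc
  have s : ContDiff ℝ ∞ fun t => ip (gr (sl c t)) (sl (cfg u) t) :=
    Dl42.SF.int (f := fun t => Dl42.ipd (gr (sl c t)) (sl (cfg u) t)) (fun x =>
      (Wz78.SA.mul contMDiffAt_const (Wz78.SA.sum _ fun k _ =>
        Wz78.SA.mul (f.sa he k x) (au.sa (some k) x))).add
      (Wz78.SA.mul contMDiffAt_const (Wz78.SA.inner (f.sΦ he x) (au.sΦ x)))) e.D.F.toPre
  obtain ⟨R, hR⟩ := (hu.2.1.isCompact.image continuous_snd).isBounded.subset_closedBall 0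
  refine ⟨_, cd_av s, HasCompactSupport.intro (isCompact_closedBall 0 (R + 1)) fun t ht => ?_,
    fun t => ?_⟩
  · rw [av_eq]
    refine setIntegral_eq_zero_of_forall_eq_zero fun p hp => mul_eq_zero_of_right _ ?_
    have z : ∀ y, u (y, t + p - 1 / 2) = 0 := fun y => by
      by_contra hn
      have := hR ⟨_, subset_tsupport _ hn, rfl⟩
      simp only [mem_closedBall_zero_iff, Real.norm_eq_abs, abs_le] at this ht
      exact ht ⟨by linarith [this.1, hp.2], by linarith [this.2, hp.1]⟩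
    generalize t + p - 1 / 2 = τ at z
    simp [ip, sl, cfg, z]
  · have := av_par (F := fun r p => L (sl (vr c u r) (t + p - 1 / 2)))
      (F' := fun r p => ip (gr (sl (vr c u r) (t + p - 1 / 2))) (sl (cfg u) (t + p - 1 / 2)))
      (fun r => (cd_L he (adm_vr hc au r)).1.continuous.comp (by fun_prop))
      ((cont_ip he hc au).comp (f := fun x : ℝ × ℝ => (x.1, t + x.2 - 1 / 2)) (by fun_prop))
      (fun r p => (fy_vr hc au _).dL he r) 0
    rw [v0] at this
    exact this

end Crest.Agent.X212.Mcg32.Dz
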