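import Crest.Agent.X212.Dz34.Defs
import Crest.Agent.X212.Sw21.Cc
import Crest.Agent.X212.Cut71.Sd

/-!
# Row 212, DZ-MU (helper32): the centring row is hit by the translations
-/

set_option autoImplicit false
set_option linter.unusedSectionVars false
noncomputable section
open scoped Manifold ContDiff Topology InnerProductSpace ENNReal
open MeasureTheory Set Function Filter Asymptotics

namespace Crest.Agent.X212.Mcg32.Dz
open An Sob92 Cyf70 Sw Sw.En3 Map77.S Pb50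
open M (Mf pm)
open Real (smoothTransition)
open Cut71 (shf Dw_sh mp_sH sH sm_sH sH_lit)

theorem slope0 {E : Type} [NormedAddCommGroup E] [NormedSpace ℝ E] {f : E → ℝ} {p : ℝ → E} {v : E}
    {C a : ℝ} (hf : HasFDerivAt f (0 : E →L[ℝ] ℝ) v) (hp : ∀ s, ‖p s - v‖ ≤ C * ‖s‖)
    (h : ∀ s ∈ Icc (0 : ℝ) 1, f (p s) = f v + a * s) : a = 0 := by
  have hO : (fun s => p s - v) =O[𝓝[>] 0] fun s : ℝ => s := .of_bound C (.of_forall hp)
  have ht : Tendsto p (𝓝[>] 0) (𝓝 v) := tendsto_sub_nhds_zero_iff.1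
    (hO.trans_tendsto (tendsto_id.mono_left nhdsWithin_le_nhds))
  have h1 := (hf.isLittleO.comp_tendsto ht).trans_isBigO hO
  by_contra ha
  have h2 : (fun s : ℝ => a * s) =o[𝓝[>] 0] fun s : ℝ => s := h1.congr' (by
    filter_upwards [Ioc_mem_nhdsGT (zero_lt_one' ℝ)] with s hs
    simp [h s ⟨hs.1.le, hs.2⟩]) .rfl
  have h3 : ∀ᶠ s : ℝ in 𝓝[>] 0, s ≠ 0 := eventually_mem_nhdsWithin.mono fun s hs => ne_of_gt hs
  exact isLittleO_irrefl h3.frequently ((isLittleO_const_mul_left_iff ha).1 h2)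

theorem mom {g : ℝ → ℝ} (hg : Continuous g) {A B R δ : ℝ} (hR : 1 ≤ R) (h1 : ∀ t ≤ 1 - R, g t = A)
    (h2 : ∀ t ≥ R, g t = B) (hδ : δ ∈ Icc (0 : ℝ) 1) :
    (∫ t, (1 - smoothTransition t) * (A - g (t + δ))) - ∫ t, smoothTransition t * (g (t + δ) - B) =
      (∫ t in -R..R, ((1 - smoothTransition t) * A + smoothTransition t * B)) -
        (∫ t in -R..R, g t) + (A - B) * δ := by
  have cs := smoothTransition.continuous
  have i := fun a b => hg.intervalIntegrable (μ := volume) a b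
  have s : ∀ {f : ℝ → ℝ}, (∀ t ≤ -R, f t = 0) → (∀ t > R, f t = 0) → ∫ t, f t = ∫ t in -R..R, f t :=
    fun k k' => (intervalIntegral.integral_eq_integral_of_support_subset fun t ht =>
      ⟨lt_of_not_ge fun j => ht (k t j), le_of_not_gt fun j => ht (k' t j)⟩).symm
  have e1 : ∫ t in -R..-R + δ, g t = A * δ := by
    rw [intervalIntegral.integral_congr (g := fun _ => A) fun t ht => h1 t (by
      rw [uIcc_of_le (by linarith [hδ.1])] at ht; linarith [ht.2, hδ.2])]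
    simp [mul_comm]
  have e2 : ∫ t in R..R + δ, g t = B * δ := by
    rw [intervalIntegral.integral_congr (g := fun _ => B) fun t ht => h2 t (by
      rw [uIcc_of_le (by linarith [hδ.1])] at ht; exact ht.1)]
    simp [mul_comm]
  have e3 := intervalIntegral.integral_add_adjacent_intervals (i (-R) (-R + δ)) (i (-R + δ) (R + δ))
  have e4 := intervalIntegral.integral_add_adjacent_intervals (i (-R) R) (i R (R + δ))
  rw [s (fun t ht => by rw [h1 _ (by linarith [hδ.2]), sub_self, mul_zero]) fun t ht => by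
      rw [smoothTransition.one_of_one_le (by linarith), sub_self, zero_mul],
    s (fun t ht => by rw [smoothTransition.zero_of_nonpos (by linarith), zero_mul]) fun t ht => by
      rw [h2 _ (by linarith [hδ.1]), sub_self, mul_zero],
    ← intervalIntegral.integral_sub (Continuous.intervalIntegrable (by fun_prop) _ _)
      (Continuous.intervalIntegrable (by fun_prop) _ _),
    intervalIntegral.integral_congr (g := fun t => ((1 - smoothTransition t) * A +
      smoothTransition t * B) - g (t + δ)) fun t _ => by ring,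
    intervalIntegral.integral_sub (Continuous.intervalIntegrable (by fun_prop) _ _)
      (Continuous.intervalIntegrable (by fun_prop) _ _), intervalIntegral.integral_comp_add_right]
  linarith

theorem sq_lint {f : ℝ → ℝ≥0∞} (hf : Measurable f) :
    (∫⁻ t in Ioc (0 : ℝ) 1, f t) ^ 2 ≤ ∫⁻ t in Ioc (0 : ℝ) 1, f t ^ 2 := by
  have h := ENNReal.lintegral_mul_le_Lp_mul_Lq (volume.restrict (Ioc (0 : ℝ) 1))
    Real.HolderConjugate.two_two hf.aemeasurable (aemeasurable_const (b := (1 : ℝ≥0∞)))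
  simp only [Pi.mul_apply, mul_one, lintegral_const, Measure.restrict_apply,
    MeasurableSet.univ, univ_inter, Real.volume_Ioc, sub_zero, ENNReal.ofReal_one,
    ENNReal.rpow_ofNat, one_pow, ENNReal.one_rpow] at h
  refine (pow_le_pow_left' h 2).trans_eq ?_
  rw [← ENNReal.rpow_natCast, ← ENNReal.rpow_mul]
  norm_num

variable {κ lam ν : Type} [Fintype κ] [Fintype lam] [Fintype ν] [DecidableEq ν]
  {e : En3 κ lam ν} {V : Type} [NormedAddCommGroup V] [InnerProductSpace ℝ V] [CompleteSpace V]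
  {G : e.Y.M × ℝ → V}

theorem tr0 (hG : Sm (IC e.Y.I) G) (s : ℝ) :
    ∫⁻ x, ‖G (x.1, x.2 + s) - G x‖ₑ ^ 2 ∂e.D.Z.μ ≤ ∫⁻ x, ‖s • e.D.Z.D none G x‖ₑ ^ 2 ∂e.D.Z.μ := by
  have c := (e.D.Z.sm_D hG none).continuous
  have c2 : Continuous fun p : (e.Y.M × ℝ) × ℝ => ‖s • e.D.Z.D none G (p.1.1, p.1.2 + p.2 * s)‖ₑ :=
    by fun_prop
  have pt : ∀ x : e.Y.M × ℝ, ‖G (x.1, x.2 + s) - G x‖ₑ ^ 2 ≤
      ∫⁻ r in Ioc (0 : ℝ) 1, ‖s • e.D.Z.D none G (x.1, x.2 + r * s)‖ₑ ^ 2 := fun x => by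
    have h := intervalIntegral.integral_eq_sub_of_hasDerivAt (a := 0) (b := 1)
      (f := fun r => G (x.1, x.2 + r * s)) (f' := fun r => s • e.D.Z.D none G (x.1, x.2 + r * s))
      (fun r _ => (hasDerivAt_slice e.D.F.toPre hG x.1 _).scomp r
        (by simpa using ((hasDerivAt_id r).mul_const s).const_add x.2))
      (Continuous.intervalIntegrable (by fun_prop) _ _)
    simp only [one_mul, zero_mul, add_zero, intervalIntegral.integral_of_le zero_le_one] at h
    rw [← h]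
    exact (pow_le_pow_left' (enorm_integral_le_lintegral_enorm _) 2).trans
      (sq_lint (c2.comp (Continuous.prodMk_right x)).measurable)
  refine (lintegral_mono pt).trans ((lintegral_lintegral_swap
    (c2.measurable.pow_const 2).aemeasurable).trans ?_).le
  have : ∀ r, ∫⁻ x, ‖s • e.D.Z.D none G (x.1, x.2 + r * s)‖ₑ ^ 2 ∂e.D.Z.μ =
      ∫⁻ x, ‖s • e.D.Z.D none G x‖ₑ ^ 2 ∂e.D.Z.μ := fun r =>
    (mp_sH (r * s)).lintegral_comp_emb (sH e _).measurableEmbedding fun x => ‖s • e.D.Z.D none G x‖ₑ ^ 2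
  simp [this]

theorem tr1 (hG : Sm (IC e.Y.I) G) (hi : Integrable (fun x => ‖e.D.Z.D none G x‖ ^ 2) e.D.Z.μ) (s : ℝ) :
    ∫ x, ⟪G (x.1, x.2 + s) - G x, G (x.1, x.2 + s) - G x⟫_ℝ ∂e.D.Z.μ ≤
      s ^ 2 * ∫ x, ⟪e.D.Z.D none G x, e.D.Z.D none G x⟫_ℝ ∂e.D.Z.μ := by
  have k : ∀ v : V, ENNReal.ofReal (‖v‖ ^ 2) = ‖v‖ₑ ^ 2 := fun v => by
    rw [ENNReal.ofReal_pow (norm_nonneg _), ofReal_norm]
  have c := hG.continuous
  simp only [real_inner_self_eq_norm_sq]
  rw [← integral_const_mul, integral_eq_lintegral_of_nonneg_ae (.of_forall fun _ => sq_nonneg _)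
    (Continuous.aestronglyMeasurable (by fun_prop))]
  refine ENNReal.toReal_le_of_le_ofReal (integral_nonneg fun _ => by positivity) ?_
  rw [ofReal_integral_eq_lintegral_ofReal (hi.const_mul _) (.of_forall fun _ => by positivity)]
  simpa only [← k, norm_smul, mul_pow, Real.norm_eq_abs, sq_abs] using tr0 hG s

theorem trk (s : ℝ) (k : ℕ) : ∀ {G : e.Y.M × ℝ → V}, Sm (IC e.Y.I) G →
    Hh e.D.Z.toPre univ (e.D.Z.D none G) →
    e.D.Z.ip k (fun x => G (x.1, x.2 + s) - G x) (fun x => G (x.1, x.2 + s) - G x) ≤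
      s ^ 2 * e.D.Z.ip k (e.D.Z.D none G) (e.D.Z.D none G) := by
  induction k with
  | zero => exact fun hG h => tr1 hG (integrableOn_univ.1 (h [])) s
  | succ k ih =>
    intro G hG h
    simp only [Pre.ip, mul_add, Finset.mul_sum]
    refine add_le_add (tr1 hG (integrableOn_univ.1 (h [])) s) (Finset.sum_le_sum fun a _ => ?_)
    have e1 : e.D.Z.D a (fun x => G (x.1, x.2 + s) - G x) =
        fun x => e.D.Z.D a G (x.1, x.2 + s) - e.D.Z.D a G x := funext fun x =>
      (dv_sub ((hG.comp (sm_sH s)).mdifferentiableAt (by simp)) (hG.mdifferentiableAt (by simp))).trans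
        (congrArg (· - _) (Dw_sh s [a] (.of_forall fun _ => rfl)))
    have e2 : e.D.Z.D a (e.D.Z.D none G) = e.D.Z.D none (e.D.Z.D a G) := by
      cases a
      exacts [rfl, (D_comm e.D.F.toPre hG _).symm]
    rw [e1, e2]
    exact ih (e.D.Z.sm_D hG a) (e2 ▸ fun w => h (a :: w))

theorem trn (hG : Sm (IC e.Y.I) G) (h : Hh e.D.Z.toPre univ (e.D.Z.D none G)) (s : ℝ) (k : ℕ) :
    e.D.Z.nrm k (fun x => G (x.1, x.2 + s) - G x) ≤ e.D.Z.nrm k (e.D.Z.D none G) * ‖s‖ := by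
  refine (Real.sqrt_le_sqrt (trk s k hG h)).trans_eq ?_
  rw [Real.sqrt_mul (sq_nonneg _), Real.sqrt_sq_eq_abs, mul_comm]
  rfl

theorem sm_toLp {α : Type} [Fintype α] {f : α → e.Y.M × ℝ → ℝ} (h : ∀ a, Sm (IC e.Y.I) (f a)) :
    Sm (IC e.Y.I) fun x => (WithLp.toLp 2 fun a => f a x : Fm α ℝ) :=
  (PiLp.continuousLinearEquiv 2 ℝ fun _ : α => ℝ).symm.contDiff.contMDiff.comp (contMDiff_pi_space.2 h)

theorem gl_toLp {α : Type} [Fintype α] {f : α → e.Y.M × ℝ → ℝ} {b : Bool}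
    (h : ∀ a, Gl e.D.F.toPre b (f a)) :
    Gl e.D.F.toPre b fun x => (WithLp.toLp 2 fun a => f a x : Fm α ℝ) := by
  choose g h1 h2 using h
  exact ⟨_, Hi.toLp (X := e.Z) h1, (eventually_all.2 h2).mono fun x hx => congrArg _ (funext hx)⟩

theorem gl_dt {G₀ : e.Y.M × ℝ → V} {b : Bool} (hG : Sm (IC e.Y.I) G) (h0 : Sm (IC e.Y.I) G₀)
    (h1 : ∀ x, G₀ x = G₀ (x.1, 0)) (h : Gl e.D.F.toPre b fun x => G x - G₀ x) :
    Gl e.D.F.toPre b (e.D.Z.D none G) := (h.D none).congr (.of_forall fun x => by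
  refine Eq.symm ((dv_sub (hG.mdifferentiableAt (by simp)) (h0.mdifferentiableAt (by simp))).trans
    (sub_eq_self.2 ?_))
  rw [funext h1]
  exact congrFun (D_none_fst e.D.F.toPre (sm_slice_fst h0 0)) x)

theorem cen_sh (he : e.OK) {c : e.ZC} {x y : e.YC} (hx : En3.Gd x) (hy : En3.Gd y) (hc : e.cyl.Adm c)
    (ax : e.nk.Asy false x c) (ay : e.nk.Asy true y c) : ∀ s ∈ Icc (0 : ℝ) 1,
    e.cen x y (shf s c) = e.cen x y c + (e.ψ (L x) - e.ψ (L y)) * s := by
  have hL := Cut71.cont_L he hc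
  have k : ∀ {b : Bool} {v : e.YC}, En3.Gd v → e.nk.Asy b v c →
      ∃ T, ∀ t, T < pm b * t → e.ψ (lb c t) = e.ψ (L v) := fun {b v} hv h => by
    obtain ⟨ρ, h0, h1⟩ := Metric.eventually_nhds_iff.1 hv.flat
    obtain ⟨T, h2⟩ := Cut71.asy_lev he hv.crit (Sw21.nk_inf e b) hc h (half_pos h0)
    refine ⟨T + 1, fun t ht => h1 ?_⟩
    have := Cut71.lb_mem hL (s := t) (x := L v - ρ / 2) (y := L v + ρ / 2) fun r hr => by
      have j : |pm b * (r - t)| ≤ 1 / 2 := by
        rw [Cut71.abs_pm, abs_le]; constructor <;> linarith [hr.1, hr.2]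
      have := abs_le.1 (show |L (sl c r) - L v| ≤ ρ / 2 from
        h2 r (by linarith [(abs_le.1 j).1, mul_sub (pm b) r t]))
      exact ⟨by linarith [this.1], by linarith [this.2]⟩
    rw [Real.dist_eq, abs_lt]
    constructor <;> linarith [this.1, this.2]
  obtain ⟨T₁, h1⟩ := k hx ax
  obtain ⟨T₂, h2⟩ := k hy ay
  have m := fun δ hδ => mom (g := fun t => e.ψ (lb c t)) (he.sψ.continuous.comp (Cut71.cont_lb hL))
    (R := |T₁| + |T₂| + 2) (δ := δ) (by linarith [abs_nonneg T₁, abs_nonneg T₂])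
    (fun t ht => h1 t (by simp only [pm]; norm_num; linarith [le_abs_self T₁, abs_nonneg T₂]))
    (fun t ht => h2 t (by simp only [pm]; norm_num; linarith [le_abs_self T₂, abs_nonneg T₁])) hδ
  have n : ∀ δ, e.cen x y (shf δ c) = (∫ t, (1 - smoothTransition t) * (e.ψ (L x) - e.ψ (lb c (t + δ)))) -
      ∫ t, smoothTransition t * (e.ψ (lb c (t + δ)) - e.ψ (L y)) := fun δ => by
    have : ∀ t, lb (e.nk.pb (shf δ c)) t = lb c (t + δ) := Cut71.lb_shf c δ
    have hp : e.nk.p = none := rfl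
    have hq : e.nk.q = none := rfl
    simp [cen, Nk.mo, Nk.β, hp, hq, this, pm]
  intro s hs
  have z : shf 0 c = c := by simp [shf, Cfg.pb]
  rw [n, m s hs, show e.cen x y c = e.cen x y (shf 0 c) by rw [z], n, m 0 ⟨le_rfl, zero_le_one⟩]
  simp

theorem tau_sh {W : Type} (T : W → Option e.YT) (q : W →₀ ℝ) (c : e.ZC) (s : ℝ) (x : e.Y.M × ℝ) :
    tau T q c (x.1, x.2 + s) = tau T q (shf s c) x := by
  simp only [tau, Cut71.lb_shf]

variable {d : Dt κ lam ν} {N : Type} [Fintype N] {ty : N → d.𝓔}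

/-- **DZ-MU** -/
theorem muStmt : Dz34.MuStmt d ty := by
  intro i T _ _ _ β h lt k hk q y hy ℓ hℓ m
  obtain ⟨⟨t, c⟩, ht, hc, ha⟩ := y
  have hP := h.ok.site
  have he := hP.en i
  have inf := Sw21.nk_inf (d.e (ty i))
  have gd : ∀ b, En3.Gd (β i b) := fun b => h.OK.gd i b (Sw21.cs_inf.2 rfl)
  have as : ∀ b, (d.e (ty i)).nk.Asy b (β i b) c := fun b => ha i b _ (Sw21.mem_cs.2 rfl) (inf b)
  have adm : ∀ s, (d.e (ty i)).cyl.Adm (shf s c) := fun s => adm_of fun z =>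
    Cut71.la_sh (.of_forall (Cut71.At.pb _ _)) (.of_adm hc _)
  let Y : ℝ → (d.cc ty i T 1 β).Pnt := fun s => ⟨(t, shf s c), ht, adm s, fun j b K hK _ => by
    obtain rfl := Sw21.cs_eq hK
    obtain rfl := Sw21.mem_cs.1 hK
    obtain ⟨R, h1, h2⟩ := as b
    have o : IsOpen ((d.e (ty j)).nk.far b (R + |s|)) :=
      Nd18.isOpen_Jv.inter (isOpen_lt continuous_const (by fun_prop))
    have hm : ∀ r ∈ (d.e (ty j)).nk.far b (R + |s|), r + s ∈ (d.e (ty j)).nk.far b R := fun r hr =>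
      ⟨⟨nofun, nofun⟩, by
        have := (abs_le.1 (Cut71.abs_pm b s).le).1
        have j : R + |s| < pm b * r := hr.2
        show R < pm b * (r + s)
        linarith [mul_add (pm b) r s]⟩
    exact ⟨R + |s|, fun a => Cut71.hh_sh o hm (fun x _ => by cases a <;> rfl) (h1 a),
      Cut71.hh_sh o hm (fun x _ => rfl) h2⟩⟩
  have pt := fun c x => pt_ψ (P := (d.cc ty i T 1 β).P t) (h.ok.ok _ trivial).toOK q c
    (i := i) (K := (d.e (ty i)).nk) (Sw21.mem_cs.2 rfl) (x := x) ⟨nofun, nofun⟩ (fun _ _ => rfl)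
  obtain ⟨C, hT⟩ := hP.bg.tame
  have hF := h.F k hk q
  have val : ∀ s, (d.cc ty i T 1 β).F k q ((d.cc ty i T 1 β).pt k (Y s)) =
      (0, 0, 0, fun _ => (d.e (ty i)).cen (β i false) (β i true) (shf s c)) := fun s => by
    have e := Prod.ext_iff.1 (hF.2 (Y s))
    have e' := Prod.ext_iff.1 e.2
    refine Prod.ext (val_injective (Sup.of_tame hT) (by omega) (e.1.trans ?_))
      (Prod.ext (val_injective (Sup.of_tame hT) (by omega) (e'.1.trans ?_))
        (e'.2.trans (Prod.ext (funext fun j => j.elim0) rfl)))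
    · rw [val_zero]
      exact funext fun x => sub_eq_zero.2 ((Cut71.eD_φ (sH_lit s) trivial
        (.of_forall (Cut71.At.pb _ _))).trans (((hy.1.2.eq _ trivial).1.trans (pt c _).1).trans
          (pt (shf s c) x).1.symm))
    · rw [val_zero]
      refine funext fun x => sub_eq_zero.2 ((Cut71.eC_φ (sH_lit s) trivial
        (.of_forall (Cut71.At.pb _ _))).trans (((hy.1.2.eq _ trivial).2.trans (pt c _).2).trans
          (Eq.trans ?_ (pt (shf s c) x).2.symm)))
      exact congrArg (_ + ·) (tau_sh _ q c s x)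
  have z : Y 0 = ⟨(t, c), ht, hc, ha⟩ := Subtype.ext (by simp [Y, shf, Cfg.pb])
  have hh : ∀ {V : Type} [NormedAddCommGroup V] [InnerProductSpace ℝ V] [CompleteSpace V]
      {G : (d.e (ty i)).Y.M × ℝ → V} {G₀ : Bool → (d.e (ty i)).Y.M × ℝ → V}, Sm (IC (d.e (ty i)).Y.I) G →
      (∀ b, Sm (IC (d.e (ty i)).Y.I) (G₀ b)) → (∀ b x, G₀ b x = G₀ b (x.1, 0)) →
      (∀ b, Gl (d.e (ty i)).D.F.toPre b fun x => G x - G₀ b x) →
      Hh (d.e (ty i)).D.Z.toPre univ ((d.e (ty i)).D.Z.D none G) := fun hG h0 h1 h2 =>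
    (hi_of_ends hP ((d.e (ty i)).D.Z.sm_D hG none) fun j b K hK _ => by
      obtain rfl := Sw21.cs_eq hK
      obtain rfl := Sw21.mem_cs.1 hK
      exact gl_dt hG (h0 b) (h1 b) (h2 b)).hh univ
  have gl := fun b => (asy_iff _ (inf b) hc (gd b).crit.1).1 (as b)
  have n1 := trn (sm_toLp hc.sa) (hh (G₀ := fun b x => WithLp.toLp 2 fun a => (fz (β i b)).a a x)
    (sm_toLp hc.sa) (fun b => sm_toLp (gd b).crit.1.sa)
    (fun b x => congrArg _ (funext fun a => fz_a _ a x)) fun b => gl_toLp (gl b).1)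
  have n2 := trn hc.sΦ (hh hc.sΦ (fun b => (gd b).crit.1.sΦ) (fun _ _ => rfl) fun b => (gl b).2)
  have al : ∀ c, (d.e (ty i)).cyl.Adm c → (d.cc ty i T 1 β).al t c =
      fun x => WithLp.toLp 2 fun a => c.a a x := fun c hc => funext fun x => congrArg _
        (funext fun a => hc.pa a x)
  have cs := cen_sh he (gd false) (gd true) hc (as false) (as true)
  have c0 : (d.e (ty i)).cen (β i false) (β i true) c = 0 := congrFun hy.2 0
  have l1 : ∀ r : ℝ, ℓ (0, 0, 0, fun _ => r) = ℓ (0, 0, 0, fun _ => 1) * r := fun r => by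
    rw [mul_comm, ← smul_eq_mul, ← map_smul]
    simp only [Prod.smul_mk, smul_zero]
    simp only [Pi.smul_def, smul_eq_mul, mul_one]
  have key := slope0 (f := fun v => ℓ ((d.cc ty i T 1 β).F k q v))
    (p := fun s => (d.cc ty i T 1 β).pt k (Y s)) (a := ℓ (0, 0, 0, fun _ => 1) *
      ((d.e (ty i)).ψ (L (β i false)) - (d.e (ty i)).ψ (L (β i true))))
    ((ℓ.hasFDerivAt.comp _ (((hF.1.contDiffAt (show (d.cc ty i T 1 β).U k ∈ 𝓝 _ from
      univ_mem)).differentiableAt (by simp)).hasFDerivAt)).congr_fderiv (ContinuousLinearMap.ext hℓ))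
    (fun s => ((h.pt.2 k (by omega)).2.2.2.2.1 _ _).trans (by
      simp only [Cel.dk, Y, al _ hc, al _ (adm s), sub_self, norm_zero, add_zero]
      exact (add_le_add (n1 s (k + 1)) (n2 s (k + 1))).trans_eq (add_mul _ _ _).symm))
    fun s hs => by
      rw [← z, val, val, cs s hs, cs 0 ⟨le_rfl, zero_le_one⟩, c0, l1, l1 (0 + _ * 0)]
      ring
  rw [show m = fun _ => m 0 from funext fun j => congrArg m (Subsingleton.elim _ _), l1,
    (mul_eq_zero.1 key).resolve_right (sub_pos.2 lt).ne', zero_mul]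

end Crest.Agent.X212.Mcg32.Dz
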