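import Crest.Agent.X212.Dz34.Defs
import Crest.Agent.X212.Cut71.Sd
import Crest.Agent.X212.Cyl58.PsC
import Crest.Agent.X212.Dl42.Main
import Crest.Agent.X212.Sep15.Av
import Crest.Agent.X212.Sep15.Pat

/-!
# X212/Mcg32/DzN (helper32): DZ-NEG and DZ-DICH
-/

set_option autoImplicit false
set_option linter.unusedSectionVars false
set_option maxHeartbeats 400000
noncomputable section
open scoped Manifold ContDiff Topology InnerProductSpace
open MeasureTheory Set Function Filter

namespace Crest.Agent.X212.Mcg32.Dz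
open An Cyf70 Sw Sw.En3
open Sep15.S (av_eq cont_bp bp_nonneg int_bp av_ge gn_nonneg tau_ne adm_sl admOn_of lb_abs)
open Real (smoothTransition)

/-! ### averages -/

theorem av_der {l : ℝ → ℝ} (hl : ContDiff ℝ 1 l) (s : ℝ) :
    HasDerivAt (fun s => av fun p => l (s + p - 1 / 2)) (av fun p => deriv l (s + p - 1 / 2)) s := by
  have c0 := hl.continuous
  have c1 := hl.continuous_deriv le_rfl
  have c2 := cont_bp
  obtain ⟨B, hB⟩ := (isCompact_Icc (a := s - 2) (b := s + 2)).exists_bound_of_continuousOn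
    c1.continuousOn
  simp only [av_eq]
  refine (hasDerivAt_integral_of_dominated_loc_of_deriv_le (μ := volume.restrict (Icc 0 1))
    (F := fun s p => bp p * l (s + p - 1 / 2)) (F' := fun s p => bp p * deriv l (s + p - 1 / 2))
    (bound := fun p => bp p * B) (Icc_mem_nhds (sub_one_lt s) (lt_add_one s))
    (.of_forall fun x => (by fun_prop : Continuous _).aestronglyMeasurable)
    (by fun_prop : Continuous _).continuousOn.integrableOn_Icc
    (by fun_prop : Continuous _).aestronglyMeasurable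
    ((ae_restrict_mem measurableSet_Icc).mono fun p hp x hx => ?_)
    (by fun_prop : Continuous _).continuousOn.integrableOn_Icc
    (.of_forall fun p x _ => ?_)).2
  · rw [norm_mul, Real.norm_of_nonneg (bp_nonneg p)]
    exact mul_le_mul_of_nonneg_left (hB _ ⟨by linarith [hp.1, hx.1], by linarith [hp.2, hx.2]⟩)
      (bp_nonneg p)
  · have := ((hl.differentiable one_ne_zero (x + p - 1 / 2)).hasDerivAt.comp x
      (((hasDerivAt_id x).add_const p).sub_const (1 / 2))).const_mul (bp p)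
    rw [mul_one] at this
    exact this

theorem st_der (x : ℝ) : HasDerivAt smoothTransition (bp x) x :=
  ((smoothTransition.contDiff (n := 1)).differentiable one_ne_zero x).hasDerivAt

theorem st_le_bp (x : ℝ) : smoothTransition x * (1 - smoothTransition x) ≤ bp x := by
  rcases le_or_gt x 0 with h | h
  · rw [smoothTransition.zero_of_nonpos h, zero_mul]; exact bp_nonneg x
  rcases le_or_gt 1 x with h' | h'
  · rw [smoothTransition.one_of_one_le h', sub_self, mul_zero]; exact bp_nonneg x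
  have d : ∀ x, HasDerivAt expNegInvGlue (x⁻¹ ^ 2 * expNegInvGlue x) x := fun x => by
    simpa using expNegInvGlue.hasDerivAt_polynomial_eval_inv_mul 1 x
  have p := smoothTransition.pos_denom x
  have d1 := (d x).div ((d x).add ((d (1 - x)).comp x ((hasDerivAt_id x).const_sub 1))) p.ne'
  have e : bp x = _ := (st_der x).unique d1
  have a := expNegInvGlue.nonneg x
  have b := expNegInvGlue.nonneg (1 - x)
  have i1 : 1 ≤ x⁻¹ ^ 2 := one_le_pow₀ ((one_le_inv₀ h).2 h'.le)
  have i2 : 0 ≤ (1 - x)⁻¹ ^ 2 := sq_nonneg _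
  simp only [Pi.add_apply, comp_apply] at e
  rw [e, smoothTransition, le_div_iff₀ (pow_pos p 2)]
  set A := expNegInvGlue x
  set B := expNegInvGlue (1 - x)
  have : A / (A + B) * (1 - A / (A + B)) * (A + B) ^ 2 = A * B := by field_simp; ring
  rw [this]
  nlinarith [mul_le_mul_of_nonneg_right i1 (mul_nonneg a b), mul_nonneg i2 (mul_nonneg a b)]

/-- weighted oscillation -/
theorem wav : ∃ m > 0, ∀ g : ℝ → ℝ, Continuous g → (∀ t, 0 ≤ g t) → ∃ p₀, m * g p₀ ≤ av g ∧
    ∀ (l : ℝ → ℝ) (A B : ℝ), ContDiff ℝ 1 l → 0 ≤ A → 0 ≤ B → (∀ t, |deriv l t| ≤ A * g t + B) →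
      |av l - l p₀| ≤ A / m * av g + B := by
  have s0 := smoothTransition.nonneg
  have s1 := smoothTransition.le_one
  have mo := smoothTransition.monotone
  have a0 := smoothTransition.pos_of_pos (show (0 : ℝ) < 1 / 4 by norm_num)
  have b0 := sub_pos.2 (smoothTransition.lt_one_of_lt_one (show (3 / 4 : ℝ) < 1 by norm_num))
  set a := smoothTransition (1 / 4)
  set b := 1 - smoothTransition (3 / 4)
  have a1 : a ≤ 1 := s1 _
  have b1 : b ≤ 1 := sub_le_self _ (s0 _)
  have c2 := cont_bp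
  have c3 := smoothTransition.continuous
  have ia : ∀ f : ℝ → ℝ, av f = ∫ p in (0 : ℝ)..1, bp p * f p := fun f => by
    rw [av_eq, intervalIntegral.integral_of_le zero_le_one, integral_Icc_eq_integral_Ioc]
  have i1 : ∫ p in (0 : ℝ)..1, bp p = 1 := by
    rw [intervalIntegral.integral_of_le zero_le_one, ← integral_Icc_eq_integral_Ioc, int_bp]
  have m0 : 0 < a * b / 2 := by positivity
  refine ⟨a * b / 2, m0, fun g hg g0 => ?_⟩
  obtain ⟨p₀, hp, hm⟩ := (isCompact_Icc (a := (1 / 4 : ℝ)) (b := 3 / 4)).exists_isMinOn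
    ⟨1 / 4, by norm_num, by norm_num⟩ hg.continuousOn
  have p0 : 0 ≤ p₀ := by linarith [hp.1]
  have p1 : p₀ ≤ 1 := by linarith [hp.2]
  refine ⟨p₀, ?_, fun l A B hl A0 B0 hd => ?_⟩
  · have k1 : ∫ _ in (1 / 4 : ℝ)..3 / 4, a * b * g p₀ ≤ ∫ p in (1 / 4 : ℝ)..3 / 4, bp p * g p :=
      intervalIntegral.integral_mono_on (by norm_num) intervalIntegrable_const
        ((c2.mul hg).intervalIntegrable _ _) fun x hx => mul_le_mul ((mul_le_mul (mo hx.1)
          (sub_le_sub_left (mo hx.2) 1) b0.le (s0 _)).trans (st_le_bp x)) (hm hx) (g0 _) (bp_nonneg _)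
    have k2 : ∫ p in (1 / 4 : ℝ)..3 / 4, bp p * g p ≤ ∫ p in (0 : ℝ)..1, bp p * g p :=
      intervalIntegral.integral_mono_interval (by norm_num) (by norm_num) (by norm_num)
        (.of_forall fun x => mul_nonneg (bp_nonneg x) (g0 x)) ((c2.mul hg).intervalIntegrable _ _)
    rw [intervalIntegral.integral_const, smul_eq_mul] at k1
    rw [ia]; linarith
  have c0 := hl.continuous
  have c1 := hl.continuous_deriv le_rfl
  have dl := fun x => ((hl.differentiable one_ne_zero x).hasDerivAt).sub_const (l p₀)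
  have ii : ∀ {f : ℝ → ℝ}, Continuous f → ∀ x y, IntervalIntegrable f volume x y :=
    fun h => h.intervalIntegrable
  have cw : Continuous fun x => A / (a * b / 2) * (bp x * g x) + B := by fun_prop
  have key : ∀ (x y r : ℝ), x ≤ y → (smoothTransition y - r) * (l y - l p₀) = 0 →
      (smoothTransition x - r) * (l x - l p₀) = 0 → (∀ t ∈ Ioc x y, |smoothTransition t - r| ≤ 1 ∧
        a * b / 2 * |smoothTransition t - r| ≤ bp t) → |∫ t in x..y, bp t * (l t - l p₀)| ≤
        ∫ t in x..y, A / (a * b / 2) * (bp t * g t) + B := fun x y r hxy h1 h2 h3 => by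
    have e := intervalIntegral.integral_deriv_mul_eq_sub (a := x) (b := y)
      (fun t _ => (st_der t).sub_const r) (fun t _ => dl t) (ii c2 _ _) (ii c1 _ _)
    rw [h1, h2, sub_zero, intervalIntegral.integral_add (ii (by fun_prop) _ _) (ii (by fun_prop) _ _),
      add_eq_zero_iff_eq_neg] at e
    rw [e, abs_neg, ← Real.norm_eq_abs]
    refine intervalIntegral.norm_integral_le_of_norm_le hxy (.of_forall fun t ht => ?_) (ii cw _ _)
    rw [norm_mul, Real.norm_eq_abs, Real.norm_eq_abs]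
    have k1 : |smoothTransition t - r| ≤ bp t / (a * b / 2) := by
      rw [le_div_iff₀' m0]; exact (h3 t ht).2
    calc _ ≤ |smoothTransition t - r| * (A * g t + B) := mul_le_mul_of_nonneg_left (hd t) (abs_nonneg _)
      _ ≤ bp t / (a * b / 2) * (A * g t) + 1 * B := by
        rw [mul_add]
        exact add_le_add (mul_le_mul_of_nonneg_right k1 (mul_nonneg A0 (g0 t)))
          (mul_le_mul_of_nonneg_right (h3 t ht).1 B0)
      _ = _ := by ring
  have k1 := key 0 p₀ 0 p0 (by simp) (by simp) fun t ht => by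
    rw [sub_zero, abs_of_nonneg (s0 t)]
    have : b ≤ 1 - smoothTransition t := sub_le_sub_left (mo (ht.2.trans hp.2)) 1
    exact ⟨s1 t, le_trans (by nlinarith [s0 t, mul_nonneg (s0 t) b0.le]) (st_le_bp t)⟩
  have k2 := key p₀ 1 1 p1 (by simp) (by simp) fun t ht => by
    rw [abs_sub_comm, abs_of_nonneg (sub_nonneg.2 (s1 t))]
    have : a ≤ smoothTransition t := mo (hp.1.trans ht.1.le)
    have z := sub_nonneg.2 (s1 t)
    exact ⟨by linarith [s0 t], le_trans (by nlinarith [mul_nonneg z a0.le]) (st_le_bp t)⟩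
  have e1 : av l - l p₀ = ∫ t in (0 : ℝ)..1, bp t * (l t - l p₀) := by
    simp only [mul_sub]
    rw [intervalIntegral.integral_sub (ii (by fun_prop) _ _) (ii (by fun_prop) _ _),
      intervalIntegral.integral_mul_const, i1, one_mul, ia]
  have e2 : A / (a * b / 2) * av g + B = ∫ t in (0 : ℝ)..1, A / (a * b / 2) * (bp t * g t) + B := by
    rw [intervalIntegral.integral_add (ii (by fun_prop) _ _) (ii (by fun_prop) _ _),
      intervalIntegral.integral_const_mul, ia]
    simp
  rw [e1, e2, ← intervalIntegral.integral_add_adjacent_intervals (b := p₀) (ii (by fun_prop) _ _)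
    (ii (by fun_prop) _ _), ← intervalIntegral.integral_add_adjacent_intervals (b := p₀) (ii cw _ _)
    (ii cw _ _)]
  exact (abs_add_le _ _).trans (add_le_add k1 k2)

theorem av_lin {f g : ℝ → ℝ} (hf : Continuous f) (hg : Continuous g) {A B : ℝ}
    (h : ∀ t, f t ≤ A * g t + B) : av f ≤ A * av g + B := by
  have c2 := cont_bp
  have := av_ge (f := fun t => A * g t - f t) (σ := 1) (x := -B) (by fun_prop) fun p _ => by
    linarith [h p]
  rw [one_mul, av_eq] at this
  simp only [mul_sub, mul_left_comm _ A] at this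
  rw [integral_sub (by fun_prop : Continuous _).continuousOn.integrableOn_Icc
    (by fun_prop : Continuous _).continuousOn.integrableOn_Icc, integral_const_mul, ← av_eq,
    ← av_eq] at this
  linarith

/-! ### the leaves -/

variable {κ lam ν : Type} [Fintype κ] [Fintype lam] [Fintype ν] [DecidableEq ν]
  {e : En3 κ lam ν} {c : e.ZC}

/-- slices with a small gradient have levels away from `S` -/
theorem ps_gap {g : e.Gen} (hg : g.OK) (hi : e.Inv) (C : ℝ) : ∃ η > 0, ∀ (v : e.YC) (r : ℝ),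
    e.cyl.Adm (fz v) → (∀ y, ‖v.Φ y‖ ≤ C) → gn v ≤ η → |r - L v| ≤ η → r ∉ e.S := by
  suffices h : ∃ η > 0, ∀ d : e.YC × ℝ, (e.cyl.Adm (fz d.1) ∧ (∀ y, ‖d.1.Φ y‖ ≤ C) ∧ gn d.1 ≤ η ∧
      |d.2 - L d.1| ≤ η) → d.2 ∉ e.S from
    let ⟨η, h0, h⟩ := h
    ⟨η, h0, fun v r a b c d => h (v, r) ⟨a, b, c, d⟩⟩
  refine Bki64.exists_eta fun d hd => by_contra fun hc => ?_
  push Not at hc
  choose h1 h2 h3 h4 using hd
  have ηt : Tendsto (fun n : ℕ => 1 / ((n : ℝ) + 1)) atTop (𝓝 0) :=
    tendsto_one_div_add_atTop_nhds_zero_nat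
  obtain ⟨v₀, v', k1, k2, -, k3, -⟩ := Cyl58.psyStmt.ps e hg.ok hg.w C ℕ (hyperfilter ℕ) _
    (fun n => ⟨h1 n, h2 n⟩)
    ((squeeze_zero (fun n => gn_nonneg hg.w.le _) h3 ηt).mono_left Nat.hyperfilter_le_atTop)
  have k5 : Tendsto (fun n => (d n).2 - L (v' n)) atTop (𝓝 0) :=
    squeeze_zero_norm (fun n => by rw [hi _ _ (h1 n) (k2 n)]; exact h4 n) ηt
  have k6 := hg.ok.S.isClosed.mem_of_tendsto
    ((k5.mono_left Nat.hyperfilter_le_atTop).add k3) (.of_forall fun n => by simpa using hc n)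
  obtain ⟨o, ho⟩ := hg.all v₀ k1
  rw [zero_add, hi _ _ (hg.crit o).1 ho] at k6
  exact hg.S o k6

theorem cd_L (he : e.OK) (hc : e.cyl.Adm c) :
    ContDiff ℝ ∞ (fun t => L (sl c t)) ∧ ContDiff ℝ ∞ fun t => gn (sl c t) :=
  let h := Dl42.dl e he c univ isOpen_univ (admOn_of hc _)
  ⟨contDiffOn_univ.1 h.1, contDiffOn_univ.1 h.2.1⟩

theorem lb_der (he : e.OK) (hc : e.cyl.Adm c) (s : ℝ) :
    HasDerivAt (lb c) (av fun p => deriv (fun t => L (sl c t)) (s + p - 1 / 2)) s :=
  av_der (l := fun t => L (sl c t)) ((cd_L he hc).1.of_le (by simp)) s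

/-- **DZ-NEG** -/
theorem negStmt : Dz34.NegStmt κ lam ν := by
  intro e g hg C
  by_cases hi : e.Inv
  swap
  · exact ⟨1, one_pos, fun _ h => (hi h).elim⟩
  obtain ⟨η₁, e1, h1⟩ := ps_gap hg hi C
  obtain ⟨m, m0, hm⟩ := wav
  set K := 2 * Fintype.card κ * e.D.F.μ.real univ
  have K0 : 0 ≤ K := by positivity
  refine ⟨min 1 (η₁ / ((6 / m + 2) * K + 1)), by positivity, fun c _ hc ha hs s hS => ?_⟩
  set η := min 1 (η₁ / ((6 / m + 2) * K + 1))
  have η0 : 0 < η := by positivity
  have η1 : η ≤ 1 := min_le_left _ _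
  have η2 : η * ((6 / m + 2) * K + 1) ≤ η₁ := (le_div_iff₀ (by positivity)).1 (min_le_right _ _)
  have η3 : (6 / m + 2) * (K * η ^ 2) ≤ η₁ := by
    have : 0 ≤ (6 / m + 2) * K * η := by positivity
    nlinarith
  obtain ⟨c1, c2⟩ := cd_L hg.ok hc
  have ad := fun t => adm_sl isOpen_univ (admOn_of hc _) (mem_univ t)
  have d : ∀ t, |deriv (fun t => L (sl c t)) t + gn (sl c t)| ≤ gn (sl c t) / 2 + 2 * (K * η ^ 2) :=
    fun t => by
    rw [(Dl42.dl0 hg.ok hc t fun y => (ha (y, t) ⟨trivial, trivial⟩).1).deriv, neg_add_cancel_comm]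
    refine (Win45.ip_abs hg.ok (ad t) two_pos fun k y =>
      (PiLp.norm_apply_le _ (none, some k)).trans (ha (y, t) ⟨trivial, trivial⟩).2).trans (le_of_eq ?_)
    simp only [K]; ring
  have sh : ContDiff ℝ 1 fun p : ℝ => s + p - 1 / 2 := by fun_prop
  have cg : Continuous fun p => gn (sl c (s + p - 1 / 2)) := c2.continuous.comp sh.continuous
  have c1' : ContDiff ℝ 1 fun t => L (sl c t) := c1.of_le (by simp)
  rw [(lb_der hg.ok hc s).deriv]
  by_contra! h0
  have k1 := h0.trans (av_lin ((c1'.continuous_deriv le_rfl).comp sh.continuous) cg (A := -1 / 2)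
    (B := 2 * (K * η ^ 2)) fun t => by
      have := (abs_le.1 (d (s + t - 1 / 2))).2
      simp only [comp_apply]; linarith)
  obtain ⟨p₀, k2, k3⟩ := hm _ cg fun t => gn_nonneg hg.w.le _
  have k4 := k3 (fun p => L (sl c (s + p - 1 / 2))) (3 / 2) (2 * (K * η ^ 2)) (c1'.comp sh)
    (by norm_num) (by positivity) fun t => by
      have e1 := ((c1'.differentiable one_ne_zero (s + t - 1 / 2)).hasDerivAt.comp t
        (((hasDerivAt_id t).const_add s).sub_const (1 / 2))).deriv
      have := abs_le.1 (d (s + t - 1 / 2))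
      have g0 := gn_nonneg hg.w.le (sl c (s + t - 1 / 2))
      rw [show deriv (fun p => L (sl c (s + p - 1 / 2))) t = _ from e1, mul_one, abs_le]
      constructor <;> linarith [this.1, this.2]
  set G := av fun p => gn (sl c (s + p - 1 / 2))
  have k5 : G ≤ 4 * (K * η ^ 2) := by linarith
  have k6 : 0 ≤ K * η ^ 2 := by positivity
  have k7 : G / m ≤ 4 * (K * η ^ 2) / m := div_le_div_of_nonneg_right k5 m0.le
  have k8 : 0 ≤ K * η ^ 2 / m := by positivity
  have k9 : (6 / m + 2) * (K * η ^ 2) = 6 * (K * η ^ 2 / m) + 2 * (K * η ^ 2) := by ring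
  rw [mul_div_assoc] at k7
  refine h1 (sl c (s + p₀ - 1 / 2)) _ (ad _) (fun y => hs (y, _) ⟨trivial, trivial⟩) ?_
    (k4.trans ?_) hS
  · rw [← le_div_iff₀' m0] at k2
    linarith
  · have : 3 / 2 / m * G = 3 / 2 * (G / m) := by ring
    linarith

/-- a level that is crossed only downwards -/
theorem cross {f : ℝ → ℝ} (hf : Differentiable ℝ f) {r a : ℝ} (h : ∀ t, f t = r → deriv f t < 0)
    (ha : f a ≤ r) {b : ℝ} (hb : a ≤ b) : f b ≤ r :=
  image_le_of_deriv_right_lt_deriv_boundary (B := fun _ => r) hf.continuous.continuousOn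
    (fun x _ => (hf x).hasDerivAt.hasDerivWithinAt) ha (fun x => hasDerivAt_const x r)
    (fun x _ => h x) ⟨hb, le_rfl⟩

theorem lim_L (he : e.OK) (hc : e.cyl.Adm c) {x : e.YC} (hx : Crit x) (s : Bool)
    (h : e.nk.Asy s x c) : Tendsto (fun t => L (sl c t)) (bif s then atTop else atBot) (𝓝 (L x)) ∧
      Tendsto (lb c) (bif s then atTop else atBot) (𝓝 (L x)) := by
  have k : ∀ ε > 0, ∀ᶠ t in bif s then atTop else atBot,
      ∀ t' ∈ Icc (t - 1 / 2) (t + 1 / 2), |L (sl c t') - L x| ≤ ε := fun ε hε => by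
    obtain ⟨T, hT⟩ := Cut71.asy_lev (K := e.nk) he hx (by cases s <;> rfl) hc h hε
    cases s
    · exact (eventually_lt_atBot (-T - 1)).mono fun t ht t' ht' =>
        hT t' (by simp only [M.pm]; norm_num; linarith [ht'.2])
    · exact (eventually_gt_atTop (T + 1)).mono fun t ht t' ht' =>
        hT t' (by simp only [M.pm]; norm_num; linarith [ht'.1])
  exact ⟨Metric.tendsto_nhds.2 fun ε hε => (k _ (half_pos hε)).mono fun t ht =>
      (ht t ⟨by linarith, by linarith⟩).trans_lt (half_lt_self hε),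
    Metric.tendsto_nhds.2 fun ε hε => (k _ (half_pos hε)).mono fun t ht =>
      (lb_abs (cd_L he hc).1.continuous.continuousOn fun t' ht' =>
        ⟨mem_univ _, ht t' ht'⟩).trans_lt (half_lt_self hε)⟩

/-- **DZ-DICH** -/
theorem dichStmt : Dz34.DichStmt κ lam ν := by
  intro e g hg W T q c x y hx hy hc hE ax ay hN
  have he := hg.ok
  obtain ⟨l1, l2⟩ := lim_L he hc hx.crit false ax
  obtain ⟨l3, l4⟩ := lim_L he hc hy.crit true ay
  simp only [cond_true, cond_false] at l1 l2 l3 l4
  have df : Differentiable ℝ (lb c) := fun s => (lb_der he hc s).differentiableAt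
  rcases lt_or_ge (L y) (L x) with h | h
  · obtain ⟨o, ho⟩ := hg.all x hx.crit
    obtain ⟨o', ho'⟩ := hg.all y hy.crit
    have e1 := hx.inv _ _ (hg.crit o).1 ho
    have e2 := hx.inv _ _ (hg.crit o').1 ho'
    obtain ⟨r, r1, r2, r3⟩ := hg.gap o' o (e1 ▸ e2 ▸ h)
    obtain ⟨a, ha⟩ := (l2.eventually (lt_mem_nhds (e1 ▸ r3))).exists
    obtain ⟨b, hb⟩ := (l4.eventually (gt_mem_nhds (e2 ▸ r2))).exists
    obtain ⟨t, ht⟩ := intermediate_value_univ b a df.continuous ⟨hb.le, ha.le⟩
    exact Or.inr ⟨t, ht ▸ r1⟩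
  have n : ∀ t, lb c t ∉ e.S := fun t ht => by
    have cr := fun {a b} => cross df (r := lb c t) (a := a) (b := b) fun s hs => hN s (hs ▸ ht)
    have k1 : L y ≤ lb c t := le_of_tendsto l4 ((eventually_ge_atTop t).mono fun b => cr le_rfl)
    have k2 : L x < lb c t := (h.trans k1).lt_of_ne fun k => hx.S (k ▸ ht)
    obtain ⟨a, ha, ha'⟩ := ((l2.eventually (gt_mem_nhds k2)).and (eventually_lt_atBot t)).exists
    have k3 : IsLocalMax (lb c) t := mem_of_superset (Ioi_mem_nhds ha') fun b hb => cr ha.le (le_of_lt hb)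
    exact (hN t ht).ne k3.deriv_eq_zero
  have d : ∀ t, HasDerivAt (fun t => L (sl c t)) (-gn (sl c t)) t := fun t => by
    have e1 : ∀ y, e.cyl.eC c (y, t) + deriv e.f (hol (sl c t)) • e.ζ y = 0 := fun y => by
      have t0 : tau T q c (y, t) = 0 := by_contra fun k => n t (tau_ne k).2
      rw [(hE (y, t) trivial).2]
      simp [pt, t0]
    simpa [e1, ip] using Dl42.dl0 he hc t fun y => (hE (y, t) trivial).1
  have an : Antitone fun t => L (sl c t) := antitone_of_deriv_nonpos (fun t => (d t).differentiableAt)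
    fun t => by rw [(d t).deriv]; exact neg_nonpos.2 (gn_nonneg hg.w.le _)
  have k1 : ∀ t, L (sl c t) ≤ L x := fun t =>
    ge_of_tendsto l1 ((eventually_le_atBot t).mono fun a ha => an ha)
  have k2 : ∀ t, L y ≤ L (sl c t) := fun t =>
    le_of_tendsto l3 ((eventually_ge_atTop t).mono fun a ha => an ha)
  have k3 : (fun t => L (sl c t)) = fun _ => L x := funext fun t => (k1 t).antisymm (h.trans (k2 t))
  refine Or.inl ⟨n, fun t => ?_, h.antisymm ((k2 0).trans (k1 0))⟩
  have := d t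
  rw [k3] at this
  exact neg_eq_zero.1 (this.unique (hasDerivAt_const t _))

end Crest.Agent.X212.Mcg32.Dz
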