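import Mathlib
import Crest.Agent.X212.Mcg32.Crv

/-!
# Row 212, PERF (helper32): surgery at two crossings that are adjacent on the core of `A`
-/

set_option autoImplicit false
set_option linter.unusedSectionVars false
noncomputable section
open Set Filter Topology Function Complex
open scoped ContDiff Manifold

namespace Crest.Agent.X212.Mcg32
open Prf6

section
variable {M : Type*} [TopologicalSpace M] [ChartedSpace ℂ M] {o : Or M} {U : Set M} {A B : ℂ → M}
  {n : ℕ} {δ : ℝ} {t θ ε : Fin n → ℝ}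

theorem nf_adj (h : Nf o U A B n δ t θ ε) (hn : 2 ≤ n) : ∃ P Q : Fin n, ∃ k : ℤ, P ≠ Q ∧
    θ P + 2 * δ ≤ θ Q + k ∧ θ Q + k ≤ θ P + 1 - 2 * δ ∧ ∀ j, ∀ m : ℤ, θ P - 2 * δ < θ j + m →
      θ j + m < θ Q + k + 2 * δ → (j = P ∧ m = 0) ∨ (j = Q ∧ m = k) := by
  set P : Fin n := ⟨0, by omega⟩
  obtain ⟨Q, hQ, hm⟩ := exists_min_image ({P}ᶜ : Set (Fin n)) (fun j => Int.fract (θ j - θ P))
    (toFinite _) ⟨⟨1, by omega⟩, fun e => by simpa [P] using congrArg Fin.val e⟩
  have hδ := h.pos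
  have l1 := Int.floor_add_fract (θ Q - θ P)
  have l2 := Int.fract_nonneg (θ Q - θ P)
  have l3 := Int.fract_lt_one (θ Q - θ P)
  refine ⟨P, Q, -⌊θ Q - θ P⌋, fun e => hQ e.symm, ?_, ?_, fun j m h1 h2 => ?_⟩
  · by_contra hh
    push_cast at hh
    exact hQ (h.sepθ Q P ⌊θ Q - θ P⌋ (abs_lt.2 ⟨by linarith, by linarith⟩)).1
  · by_contra hh
    push_cast at hh
    refine hQ (h.sepθ Q P (⌊θ Q - θ P⌋ + 1) (abs_lt.2 ⟨?_, ?_⟩)).1 <;> push_cast <;> linarith
  push_cast at h2
  by_cases h3 : θ j + m < θ P + 2 * δ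
  · have := h.sepθ j P (-m) (abs_lt.2 ⟨by push_cast; linarith, by push_cast; linarith⟩)
    exact Or.inl ⟨this.1, by omega⟩
  by_cases h4 : θ Q - ⌊θ Q - θ P⌋ - 2 * δ < θ j + m
  · have := h.sepθ j Q (-⌊θ Q - θ P⌋ - m) (abs_lt.2 ⟨by push_cast; linarith, by push_cast; linarith⟩)
    exact Or.inr ⟨this.1, by omega⟩
  exfalso
  have h5 : Int.fract (θ j - θ P) = θ j + m - θ P :=
    Int.fract_eq_iff.2 ⟨by linarith, by linarith, -m, by push_cast; ring⟩
  have h6 : j ≠ P := by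
    rintro rfl
    exact not_int (m := m) (k := 0) (by push_cast; linarith) (by push_cast; linarith)
  have := hm j h6
  simp only [h5] at this
  linarith

end

/-- `one_cv` for a curve that is `A ∘ α` near the point, with the transverse direction `d` -/
theorem cut_conn (tub : Tub) (X : Sf) {U S : Set X.R} {γ : ℝ → X.R} (hγ : Cv γ) (hU : IsOpen U)
    (hc : IsPreconnected U) (hr : range γ ⊆ U) {A : ℂ → X.R} (hA : An X.o A) {α : ℝ → ℂ}
    (hα : ContDiff ℝ ∞ α) {y L : ℝ} (hL : 0 < L) (loc : ∀ᶠ u in 𝓝 (y / L), γ u = A (α (L * u)))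
    {d : ℂ} (hd : (deriv α y).re * d.im - d.re * (deriv α y).im ≠ 0)
    (hS : IsPreconnected S) (hSU : S ⊆ U \ range γ)
    (hv : ∀ᶠ v : ℝ in 𝓝[≠] 0, A (α y + v * d) ∈ S) : IsPreconnected (U \ range γ) := by
  set p : ℂ → ℂ := fun z => α (y + L * z.re) + z.im * d with hp
  have c1 : ContDiff ℝ ∞ fun z : ℂ => y + L * z.re :=
    contDiff_const.add (contDiff_const.mul reCLM.contDiff)
  have cp : ContDiff ℝ ∞ p :=
    (hα.comp c1).add ((ofRealCLM.contDiff.comp imCLM.contDiff).mul contDiff_const)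
  have d1 : HasFDerivAt (fun z : ℂ => y + L * z.re) (L • reCLM) 0 :=
    (reCLM.hasFDerivAt.const_smul L).const_add y
  have d2 : HasDerivAt α (deriv α y) (y + L * (0 : ℂ).re) := by
    simpa using (hα.differentiable (by simp) y).hasDerivAt
  have d3 := (d2.hasFDerivAt.comp 0 d1).add ((ofRealCLM.comp imCLM).hasFDerivAt.mul_const d)
  have dp : HasFDerivAt p _ 0 := d3
  refine one_cv tub X hγ hU hc hr (t := y / L) (e := A ∘ p) (Cyl58.ld_comp (an_ld hA _)
    (ld_plane cp ?_)) ?_ hS hSU (by simpa [hp] using hv)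
  · rw [dp.fderiv, det_c]
    simp only [add_apply, ContinuousLinearMap.comp_apply]
    simp
    intro e
    apply hd
    have : L * ((deriv α y).re * d.im - d.re * (deriv α y).im) = 0 := by linarith
    exact (mul_eq_zero.1 this).resolve_left hL.ne'
  · have : Tendsto (fun u : ℝ => y / L + u) (𝓝 0) (𝓝 (y / L)) := by
      simpa using (continuous_const_add (y / L)).tendsto 0
    filter_upwards [this loc] with u hu
    have hu' : γ (y / L + u) = A (α (L * (y / L + u))) := hu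
    rw [hu', mul_add, mul_div_cancel₀ _ hL.ne']
    simp [hp]

/-- the conclusion of `Surg` -/
def Out {M : Type*} [TopologicalSpace M] [ChartedSpace ℂ M] (U : Set M) (A B : ℂ → M) (n : ℕ) : Prop :=
  ∃ γ, Cv γ ∧ range γ ⊆ U ∧ IsPreconnected (U \ range γ) ∧
    (∃ n' < n, ∃ s : Fin n' → ℝ, (∀ i j, ∀ m : ℤ, s i = s j + m → i = j) ∧ (∀ j, Tv A γ (s j)) ∧
      ∀ u, γ u ∈ core A → ∃ j, ∃ m : ℤ, u = s j + m) ∧
    (Disjoint (range γ) (core B) ∨ ∃ s, Tv B γ s ∧ ∀ u, γ u ∈ core B → ∃ m : ℤ, u = s + m)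

variable {X : Sf} {U : Set X.R} {A B : ℂ → X.R} {n : ℕ} {δ : ℝ} {t θ ε : Fin n → ℝ}
  {P Q : Fin n} {k : ℤ}

/-- same sign -/
theorem same (tub : Tub) (hU : IsOpen U) (h : Nf X.o U A B n δ t θ ε)
    (hc : IsPreconnected (U \ core B)) (hPQ : P ≠ Q) (g1 : θ P + 2 * δ ≤ θ Q + k)
    (g2 : θ Q + k ≤ θ P + 1 - 2 * δ) (adj : ∀ j, ∀ m : ℤ, θ P - 2 * δ < θ j + m →
      θ j + m < θ Q + k + 2 * δ → (j = P ∧ m = 0) ∨ (j = Q ∧ m = k)) (he : ε Q = ε P) :
    Out U A B n := by
  have hδ := h.pos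
  have ee : ε P * ε P = 1 := by rcases h.sgn P with e | e <;> simp [e]
  have hs : |ε P * (δ / 2)| = δ / 2 := by rw [nf_abs h, abs_of_pos (by linarith)]
  set x := θ P - δ / 2 with hx
  set x' := θ Q + k - δ / 2 with hx'
  have hf : ContDiff ℝ ∞ fun y : ℝ => ε P * y := by fun_prop
  obtain ⟨γ, L, hL, hγ, hr, loc, ψ, dec⟩ := crv h hPQ 0 k (s := ε P * (δ / 2)) (a := δ / 4)
    (b := δ / 2) (c := 0) (f := fun y => ε P * y) (x := x) (x' := x')
    (by rw [← mul_assoc, ee]; simp [hx]) (by rw [he, ← mul_assoc, ee]; simp [hx'])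
    (fun j m hj => by
      rw [uIcc_of_le (by linarith)] at hj
      have := abs_le.1 ((nf_abs h j _).trans hs).le
      exact adj j m (by linarith [hj.1]) (by linarith [hj.2]))
    (by linarith) (by rw [abs_lt]; constructor <;> linarith) (by linarith) le_rfl (by linarith)
    (by linarith) (by linarith) hf (fun y _ => by rw [he, add_zero]) (fun y _ => by rw [sub_zero])
    (fun y hy => by rw [nf_abs h]; linarith)
  set α := al x x' (δ / 4) fun y => ε P * y with hα
  have ha : 0 < δ / 4 := by linarith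
  have hΔ : 0 < x' - x := by linarith
  obtain ⟨y0, -, hy0⟩ : δ / 2 / (x' - x) ∈ sg (δ / 4) '' Icc (-(δ / 4)) (δ / 4) := by
    refine intermediate_value_Icc (by linarith) (sg_cd _).continuous.continuousOn ?_
    rw [(sg_zero ha).2 le_rfl, (sg_one ha).2 le_rfl]
    exact ⟨by positivity, (div_le_one hΔ).2 (by linarith)⟩
  have hy1 : (x' - x) * sg (δ / 4) y0 = δ / 2 := by rw [hy0]; field_simp
  have y1 : -(δ / 4) < y0 := by
    by_contra hh
    rw [(sg_zero ha).2 (not_lt.1 hh)] at hy1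
    linarith
  have y2 : y0 < δ / 4 := by
    by_contra hh
    rw [(sg_one ha).2 (not_lt.1 hh)] at hy1
    linarith
  have sd := sg_deriv ha (abs_lt.2 ⟨y1, y2⟩)
  have r0 : (α y0).re = θ P := by rw [hα, al_re]; linarith
  have l0 := loc y0 (abs_lt.2 ⟨by linarith, by linarith⟩)
  have only : ∀ u, γ u ∈ core B → ∃ m : ℤ, u = y0 / L + m := by
    rintro u ⟨r, hr⟩
    rcases dec u with ⟨y, hy, m, rfl, e⟩ | ⟨⟨r', e⟩, -⟩
    · obtain ⟨j, m', l, -, c2, -⟩ := nf_cross h (z := α y) (w := r)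
        (by rw [hα, al_im, nf_abs h, abs_lt]; constructor <;> linarith [hy.1, hy.2])
        (by simpa using hδ) (e.symm.trans hr.symm)
      have c3 : (α y).re ∈ uIcc x x' := al_mem y
      rw [uIcc_of_le (by linarith), c2, ofReal_im, mul_zero, sub_zero] at c3
      rcases adj j l (by linarith [c3.1]) (by linarith [c3.2]) with ⟨rfl, rfl⟩ | ⟨rfl, rfl⟩
      · rw [hα, al_re] at c2
        have c4 : sg (δ / 4) y = sg (δ / 4) y0 := mul_left_cancel₀ hΔ.ne' (by simp at c2; linarith)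
        refine ⟨m, ?_⟩
        rcases lt_trichotomy y y0 with c5 | c5 | c5
        · rcases sg_inj ha c5 c4 with c6 | c6 <;> linarith
        · rw [c5]
        · rcases sg_inj ha c5 c4.symm with c6 | c6 <;> linarith
      · linarith [c3.2]
    · have := an_im h.hB (hr.trans e)
      simp only [ofReal_im, add_im, mul_im, ofReal_re, I_im, mul_one, I_re, mul_zero, add_zero,
        zero_add] at this
      rw [← this, abs_zero] at hs
      linarith
  have bx : ∀ v : ℝ, |y0 + ε P * v| < δ → A (α y0 + v * I) = B (t P + (y0 + ε P * v) : ℝ) :=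
    fun v hv => nf_box h P 0 0 (by simpa using hv) (by simpa using hδ) (by simp [r0])
      (by simp only [hα, al_im, add_im, mul_im, ofReal_re, I_im, mul_one, ofReal_im, I_re, mul_zero,
            add_zero, Int.cast_zero]
          linear_combination -v * ee)
  refine ⟨γ, hγ, hr, ?_, count hγ P (update ψ Q 0) fun u hu => ?_, Or.inr ⟨y0 / L, ?_, only⟩⟩
  · refine cut_conn tub X hγ hU (conn_up h.hB hU hc) hr h.hA (al_cd hf) hL l0 (d := I)
      (S := (fun r : ℝ => B r) '' Ioo (t P + y0) (t P + y0 + 1)) ?_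
      (isPreconnected_Ioo.image _ ((an_cont h.hB).comp continuous_ofReal).continuousOn) ?_ ?_
    · rw [(al_deriv hf y0).deriv]
      simpa using ⟨hΔ.ne', sd.ne'⟩
    · rintro _ ⟨r, hr', rfl⟩
      refine ⟨h.rB ⟨_, rfl⟩, fun ⟨u, hu⟩ => ?_⟩
      obtain ⟨m, rfl⟩ := only u ⟨r, hu.symm⟩
      have b0 := bx 0 (by rw [mul_zero, add_zero, abs_lt]; constructor <;> linarith)
      rw [cv_per hγ, l0.self_of_nhds, mul_div_cancel₀ _ hL.ne'] at hu
      simp only [ofReal_zero, zero_mul, add_zero, mul_zero] at b0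
      obtain ⟨l, hl⟩ := (h.hB.2 _ _).1 (b0.symm.trans hu)
      have := congrArg re hl
      simp only [ofReal_re, add_re, intCast_re] at this
      exact not_int (m := l) (k := 0) (by push_cast; linarith [hr'.1]) (by push_cast; linarith [hr'.2])
    · filter_upwards [self_mem_nhdsWithin, mem_nhdsWithin_of_mem_nhds
        (Ioo_mem_nhds (by linarith : -(δ / 4) < 0) ha)] with v v1 v2
      have v3 := abs_lt.1 ((nf_abs h P v).trans_lt (abs_lt.2 v2))
      rw [bx v (abs_lt.2 ⟨by linarith, by linarith⟩)]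
      rcases lt_or_gt_of_ne (mul_ne_zero (nf_sq h P) v1) with v4 | v4
      · refine ⟨t P + (y0 + ε P * v) + 1, ⟨by linarith, by linarith⟩, ?_⟩
        simpa using an_per h.hB (t P + (y0 + ε P * v) : ℝ) 1
      · exact ⟨_, ⟨by linarith, by linarith⟩, rfl⟩
  · rcases dec u with ⟨y, hy, m, rfl, e⟩ | ⟨-, e⟩
    · rw [e, an_mem h.hA, al_im] at hu
      obtain rfl : y = 0 := (mul_eq_zero.1 hu).resolve_left (nf_sq h P)
      refine ⟨tv_per hγ (tv_aff (F := A ∘ α) (y := 0) (b := 0) (L := L) ⟨α, (al_cd hf).contDiffAt,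
        Eventually.of_forall fun _ => rfl, by simp [hα], ?_⟩ hL.ne' (by simp)
        (by simpa using loc 0 (by simpa using hδ))) m, Q, hPQ.symm, m, by simp⟩
      rw [(al_deriv hf 0).deriv]
      simpa using nf_sq h P
    · obtain ⟨e1, j, j1, j2, m, e2⟩ := e hu
      exact ⟨e1, j, j1, m, by rwa [update_of_ne j2]⟩
  · set g : ℝ → ℂ := fun v => (t P + v : ℝ) + (ε P * (θ P - (x + (x' - x) * sg (δ / 4) v)) : ℝ) * I
    have cs := sg_cd (δ / 4)
    have dg : HasDerivAt g (((1 : ℝ) : ℂ) + (ε P * -((x' - x) * deriv (sg (δ / 4)) y0) : ℝ) * I) y0 :=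
      ((hasDerivAt_id' y0).const_add (t P)).ofReal_comp.add
        ((((((cs.differentiable (by simp) y0).hasDerivAt.const_mul _).const_add x).const_sub
          (θ P)).const_mul (ε P)).ofReal_comp.mul_const I)
    have g0 : (g y0).im = 0 := by
      rw [hα, al_re] at r0
      simp [g, r0]
    refine tv_aff (F := A ∘ α) (y := y0) (b := 0) (L := L) ⟨g, ?_, ?_, g0, ?_⟩ hL.ne'
      (by rw [zero_add, mul_div_cancel₀ _ hL.ne']) (by simpa using l0)
    · exact ((ofRealCLM.contDiff.comp (contDiff_const.add contDiff_id)).add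
        ((ofRealCLM.contDiff.comp (contDiff_const.mul (contDiff_const.sub
          (contDiff_const.add (contDiff_const.mul cs))))).mul contDiff_const)).contDiffAt
    · have c1 : ContinuousAt (fun v => |(g v).im|) y0 :=
        (continuous_im.continuousAt.comp dg.continuousAt).abs
      filter_upwards [c1.eventually_lt continuousAt_const (by rw [g0]; simpa using hδ),
        Ioo_mem_nhds y1 y2] with v v1 v2
      refine nf_box h P 0 0 ?_ v1 ?_ ?_
      · simp only [g, add_re, ofReal_re, mul_re, I_re, mul_zero, ofReal_im, I_im, mul_one, sub_self,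
          add_zero, Int.cast_zero, sub_zero, add_sub_cancel_left]
        exact abs_lt.2 ⟨by linarith [v2.1], by linarith [v2.2]⟩
      · simp only [g, hα, al_re, add_im, ofReal_im, mul_im, ofReal_re, I_im, mul_one, I_re, mul_zero,
          add_zero, zero_add, Int.cast_zero]
        linear_combination (θ P - (x + (x' - x) * sg (δ / 4) v)) * ee
      · simp [g, hα]
    · rw [dg.deriv]
      simpa using ⟨nf_sq h P, hΔ.ne', sd.ne'⟩

/-- opposite signs -/
theorem opp (tub : Tub) (hU : IsOpen U) (h : Nf X.o U A B n δ t θ ε)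
    (hc : IsPreconnected (U \ core B)) (hPQ : P ≠ Q) (g1 : θ P + 2 * δ ≤ θ Q + k)
    (g2 : θ Q + k ≤ θ P + 1 - 2 * δ) (adj : ∀ j, ∀ m : ℤ, θ P - 2 * δ < θ j + m →
      θ j + m < θ Q + k + 2 * δ → (j = P ∧ m = 0) ∨ (j = Q ∧ m = k)) (he : ε Q = -ε P) :
    Out U A B n := by
  have := ChartedSpace.locallyConnectedSpace ℂ X.R
  have := ChartedSpace.locallyPathConnectedSpace ℂ X.R
  have hδ := h.pos
  have cA := an_cont h.hA
  have ee : ε P * ε P = 1 := by rcases h.sgn P with e | e <;> simp [e]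
  set a0 := (fun r : ℝ => A r) '' Icc (θ P) (θ Q + k) with ha0
  have a0c : IsClosed a0 := (isCompact_Icc.image (cA.comp continuous_ofReal)).isClosed
  have hO : IsOpen ((U \ core B) \ a0) := (hU.sdiff (an_cpt h.hB).isClosed).sdiff a0c
  have NB : ∀ z : ℂ, θ P - δ < z.re → z.re < θ Q + k → z.re ≠ θ P → |z.im| < δ → A z ∈ U \ core B := by
    refine fun z z1 z2 z3 z4 => ⟨h.rA ⟨_, rfl⟩, fun ⟨r, hr⟩ => ?_⟩
    obtain ⟨j, m, l, -, c2, -⟩ := nf_cross h (w := r) z4 (by simpa using hδ) hr.symm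
    rw [ofReal_im, mul_zero, sub_zero] at c2
    rcases adj j l (by linarith) (by linarith) with ⟨rfl, rfl⟩ | ⟨rfl, rfl⟩
    · exact z3 (by simpa using c2)
    · linarith
  have lft : ∀ y : ℝ, |y| < δ → A ((θ P - δ / 2 : ℝ) + y * I) ∈ (U \ core B) \ a0 := fun y hy => by
    refine ⟨NB _ (by simp; linarith) (by simp; linarith) (by simp; linarith) (by simpa using hy), ?_⟩
    rintro ⟨r, hr, e⟩
    obtain ⟨l, hl⟩ := (h.hA.2 _ _).1 e
    have := congrArg re hl
    simp only [add_re, ofReal_re, mul_re, I_re, mul_zero, ofReal_im, I_im, mul_one, sub_self, add_zero,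
      intCast_re] at this
    exact not_int (m := l) (k := -1) (by push_cast; linarith [hr.2]) (by push_cast; linarith [hr.1])
  obtain ⟨_, ⟨z, ⟨z1, z2⟩, rfl⟩, hz⟩ := meets (N := A '' {z | z.re ∈ Ioo (θ P) (θ Q + k) ∧ |z.im| < δ})
    hc hO (an_open h.hA _ ((isOpen_Ioo.preimage continuous_re).inter
      (isOpen_lt continuous_im.abs continuous_const)))
    (by
      rintro _ ⟨h1, r, hr, rfl⟩
      refine ⟨r, ⟨⟨lt_of_le_of_ne hr.1 ?_, lt_of_le_of_ne hr.2 ?_⟩, by simpa using hδ⟩, rfl⟩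
      · rintro rfl
        exact h1.2 ⟨t P, (nf_box h P 0 0 (by simpa using hδ) (by simpa using hδ) (by simp)
          (by simp)).symm⟩
      · intro e
        exact h1.2 ⟨t Q, (nf_box h Q 0 k (by simpa using hδ) (by simpa using hδ) (by simpa using e)
          (by simp)).symm⟩)
    ⟨A (θ P + δ : ℝ), NB _ (by simp; linarith) (by simp; linarith) (by simp; linarith)
      (by simpa using hδ), _, ⟨by linarith, by linarith⟩, rfl⟩ (lft 0 (by simpa using hδ))
  have z3 : z.im ≠ 0 := fun e => (connectedComponentIn_subset _ _ hz).2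
    ⟨z.re, Ioo_subset_Icc_self z1, by show A _ = A _; congr 1; apply Complex.ext <;> simp [e]⟩
  obtain ⟨κ, hκ, z4⟩ : ∃ κ : ℝ, (κ = 1 ∨ κ = -1) ∧ 0 < κ * z.im := by
    rcases lt_or_gt_of_ne z3 with e | e
    exacts [⟨-1, Or.inr rfl, by linarith⟩, ⟨1, Or.inl rfl, by linarith⟩]
  have κa : ∀ y, |κ * y| = |y| := fun y => by rcases hκ with rfl | rfl <;> simp
  have κκ : κ * κ = 1 := by rcases hκ with rfl | rfl <;> simp
  have κd : |κ * (δ / 2)| = δ / 2 := by rw [κa, abs_of_pos (by linarith)]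
  set sgm : ℝ → X.R := fun ξ => A ((θ P + ξ : ℝ) + (κ * (δ / 2) : ℝ) * I) with hsgm
  have csg : Continuous sgm := cA.comp (by fun_prop)
  have m1 : sgm (δ / 2) ∈ connectedComponentIn ((U \ core B) \ a0) (sgm (-(δ / 2))) := by
    have cv : Convex ℝ {z : ℂ | z.re ∈ Ioo (θ P) (θ Q + k) ∧ κ * z.im ∈ Ioo 0 δ} :=
      ((convex_Ioo _ _).linear_preimage reLm).inter ((convex_Ioo _ _).linear_preimage (κ • imLm))
    have e1 := (cv.isPreconnected.image A cA.continuousOn).subset_connectedComponentIn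
      (F := (U \ core B) \ a0) (mem_image_of_mem A ⟨z1, z4, (le_abs_self _).trans_lt ((κa _).trans_lt z2)⟩)
      (by
        rintro _ ⟨w, ⟨w1, w2⟩, rfl⟩
        refine ⟨NB w (by linarith [w1.1]) w1.2 w1.1.ne' ?_, fun ⟨r, _, e⟩ => ?_⟩
        · rw [← κa, abs_of_pos w2.1]; exact w2.2
        · have := an_im h.hA e
          rw [ofReal_im] at this
          rw [← this, mul_zero] at w2
          exact lt_irrefl _ w2.1)
    have e2 := ((isPreconnected_Ioo (a := -δ) (b := δ)).image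
      (fun y : ℝ => A ((θ P - δ / 2 : ℝ) + y * I)) (cA.comp (by fun_prop)).continuousOn).subset_connectedComponentIn
      (F := (U \ core B) \ a0) (mem_image_of_mem _ (⟨by linarith, hδ⟩ : (0 : ℝ) ∈ Ioo (-δ) δ))
      (by rintro _ ⟨y, hy, rfl⟩; exact lft y (abs_lt.2 hy))
    have e3 := e2 (mem_image_of_mem _ (abs_lt.1 (κd.trans_lt (half_lt_self hδ))))
    rw [show sgm (-(δ / 2)) = A ((θ P - δ / 2 : ℝ) + (κ * (δ / 2) : ℝ) * I) from rfl,
      ← connectedComponentIn_eq e3, connectedComponentIn_eq hz]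
    refine e1 (mem_image_of_mem A ⟨?_, ?_⟩)
    · simp only [add_re, ofReal_re, mul_re, I_re, mul_zero, ofReal_im, I_im, mul_one, sub_self, add_zero]
      exact ⟨by linarith, by linarith⟩
    · simp only [add_im, ofReal_im, mul_im, ofReal_re, I_im, mul_one, I_re, mul_zero, add_zero, zero_add]
      rw [← mul_assoc, κκ]
      exact ⟨by linarith, by linarith⟩
  obtain ⟨K, K1, K2, K3, K4, K5⟩ := exists_cpt hO m1
  obtain ⟨δ1, hδ1, t1⟩ := an_tube h.hB K1.isClosed.isOpen_compl fun x hx hK => (K3 hK).1.2 hx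
  obtain ⟨δ2, hδ2, t2⟩ := tube cA K1.isClosed.isOpen_compl (a := θ P) (b := θ Q + k)
    fun x hx hK => (K3 hK).2 ⟨x, hx, rfl⟩
  obtain ⟨ρ, ρ0, ρ1, ρ2, ρ3⟩ : ∃ ρ > 0, ρ < δ1 ∧ 2 * ρ < δ2 ∧ 8 * ρ < δ :=
    ⟨min (δ1 / 2) (min (δ2 / 4) (δ / 16)), by positivity, by linarith [min_le_left (δ1 / 2) (min (δ2 / 4) (δ / 16))],
      by linarith [min_le_right (δ1 / 2) (min (δ2 / 4) (δ / 16)), min_le_left (δ2 / 4) (δ / 16)],
      by linarith [min_le_right (δ1 / 2) (min (δ2 / 4) (δ / 16)), min_le_right (δ2 / 4) (δ / 16)]⟩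
  set f0 : ℝ → ℝ := fun y => y * (2 * sg (ρ / 2) y - 1) + ρ with hf0
  have ρh : 0 < ρ / 2 := by linarith
  have f1 : ∀ y, ρ / 2 ≤ y → f0 y = y + ρ := fun y hy => by simp only [hf0, (sg_one ρh).2 hy]; ring
  have f2 : ∀ y, y ≤ -(ρ / 2) → f0 y = -(y - ρ) := fun y hy => by
    simp only [hf0, (sg_zero ρh).2 hy]; ring
  have f3 : ∀ y, |y * (2 * sg (ρ / 2) y - 1)| ≤ |y| := fun y => by
    rw [abs_mul]
    exact mul_le_of_le_one_right (abs_nonneg _)
      (abs_le.2 ⟨by linarith [@sg_nonneg (ρ / 2) y], by linarith [@sg_le (ρ / 2) y]⟩)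
  have f4 : ∀ y, 0 < f0 y := fun y => by
    rcases le_total (ρ / 2) y with e | e
    · rw [f1 y e]; linarith
    rcases le_total y (-(ρ / 2)) with e' | e'
    · rw [f2 y e']; linarith
    have := abs_le.1 ((f3 y).trans (abs_le.2 ⟨e', e⟩))
    simp only [hf0]
    linarith
  have f5 : ∀ y, |y| ≤ ρ → |κ * f0 y| ≤ 2 * ρ := fun y hy => by
    rw [κa, abs_of_pos (f4 y)]
    have := abs_le.1 ((f3 y).trans hy)
    simp only [hf0]
    linarith
  have cs := sg_cd (ρ / 2)
  have hf : ContDiff ℝ ∞ fun y => κ * f0 y := by simp only [hf0]; fun_prop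
  have hs : |ε P * -ρ| = ρ := by rw [nf_abs h, abs_neg, abs_of_pos ρ0]
  obtain ⟨S, E, kS, kE, x, x', y0, hSE, eE, eS, hx, hx', hI, hab, hy0, r0, i0, d0⟩ :
      ∃ (S E : Fin n) (kS kE : ℤ) (x x' y0 : ℝ), S ≠ E ∧ ε E = κ ∧ ε S = -κ ∧
        x = θ S + kS - ε S * (ε P * -ρ) ∧ x' = θ E + kE - ε E * (ε P * -ρ) ∧
        uIcc x x' = Icc (θ P + ρ) (θ Q + k - ρ) ∧
        (∀ j, ∀ m : ℤ, (j = P ∧ m = 0) ∨ (j = Q ∧ m = k) → (j = S ∧ m = kS) ∨ (j = E ∧ m = kE)) ∧
        |y0| < δ / 2 ∧ x + (x' - x) * sg ρ y0 = θ P + ρ ∧ f0 y0 = δ / 2 ∧ deriv f0 y0 ≠ 0 := by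
    by_cases e : ε P = κ
    · refine ⟨Q, P, k, 0, θ Q + k - ρ, θ P + ρ, δ / 2 - ρ, hPQ.symm, e, by rw [he, e],
        by rw [he]; linear_combination ρ * ee, by push_cast; linear_combination -ρ * ee,
        uIcc_of_ge (by linarith), fun j m hj => hj.symm, abs_lt.2 ⟨by linarith, by linarith⟩,
        by rw [(sg_one ρ0).2 (by linarith)]; ring, by rw [f1 _ (by linarith)]; ring, ?_⟩
      have : f0 =ᶠ[𝓝 (δ / 2 - ρ)] fun y => y + ρ :=
        (eventually_gt_nhds (by linarith : ρ / 2 < δ / 2 - ρ)).mono fun s hs => f1 s hs.le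
      rw [this.deriv_eq]; simp
    · have e' : ε P = -κ := by
        rcases hκ with rfl | rfl <;> rcases h.sgn P with e1 | e1 <;> simp_all
      refine ⟨P, Q, 0, k, θ P + ρ, θ Q + k - ρ, -(δ / 2 - ρ), hPQ, by rw [he, e', neg_neg], e',
        by push_cast; linear_combination -ρ * ee, by rw [he]; linear_combination ρ * ee,
        uIcc_of_le (by linarith), fun j m hj => hj, abs_lt.2 ⟨by linarith, by linarith⟩,
        by rw [(sg_zero ρ0).2 (by linarith)]; ring, by rw [f2 _ (by linarith)]; ring, ?_⟩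
      have : f0 =ᶠ[𝓝 (-(δ / 2 - ρ))] fun y => -(y - ρ) :=
        (eventually_lt_nhds (by linarith : -(δ / 2 - ρ) < -(ρ / 2))).mono fun s hs => f2 s hs.le
      rw [this.deriv_eq]; simp
  have xm : x ∈ Icc (θ P + ρ) (θ Q + k - ρ) := hI ▸ left_mem_uIcc
  have xm' : x' ∈ Icc (θ P + ρ) (θ Q + k - ρ) := hI ▸ right_mem_uIcc
  obtain ⟨γ, L, hL, hγ, hr, loc, ψ, dec⟩ := crv h hSE kS kE (s := ε P * -ρ) (a := ρ)
    (b := δ / 2) (c := ρ) (f := fun y => κ * f0 y) hx hx'
    (fun j m hj => by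
      rw [hI] at hj
      have := abs_le.1 ((nf_abs h j _).trans hs).le
      exact hab j m (adj j m (by linarith [hj.1]) (by linarith [hj.2])))
    (by
      intro e
      rw [e, uIcc_self] at hI
      have h1 : θ P + ρ ∈ ({x} : Set ℝ) := hI ▸ left_mem_Icc.2 (by linarith)
      have h2 : θ Q + k - ρ ∈ ({x} : Set ℝ) := hI ▸ right_mem_Icc.2 (by linarith)
      rw [mem_singleton_iff] at h1 h2
      linarith)
    (abs_lt.2 ⟨by linarith [xm.2, xm'.1], by linarith [xm.1, xm'.2]⟩) ρ0 ρ0.le (by linarith)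
    (by linarith) (by linarith) hf (fun y hy => by rw [eE, f1 y hy])
    (fun y hy => by rw [eS, f2 y hy]; ring) (fun y hy => by linarith [f5 y hy])
  set α := al x x' ρ fun y => κ * f0 y with hα
  have αm : ∀ y, (α y).re ∈ Icc (θ P + ρ) (θ Q + k - ρ) := fun y => hI ▸ al_mem y
  have off : ∀ ξ, |ξ| < δ → ξ ≠ ρ → sgm ξ ∈ U \ range γ := by
    refine fun ξ h1 h2 => ⟨h.rA ⟨_, rfl⟩, fun ⟨u, hu⟩ => ?_⟩
    rcases dec u with ⟨y, hy, m, rfl, e⟩ | ⟨⟨r, e⟩, -⟩
    · have := an_im h.hA (e.symm.trans hu)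
      simp only [hα, al_im, add_im, ofReal_im, mul_im, ofReal_re, I_im, mul_one, I_re, mul_zero,
        add_zero, zero_add] at this
      have h3 := f5 y (abs_le.2 hy)
      rw [this, κd] at h3
      linarith
    · have h3 : sgm ξ = B ((t P + ε P * (κ * (δ / 2)) : ℝ) + (ε P * -ξ : ℝ) * I) := by
        refine nf_box h P 0 0 ?_ ?_ ?_ ?_
        · simp only [add_re, ofReal_re, mul_re, I_re, mul_zero, ofReal_im, I_im, mul_one, sub_self,
            add_zero, Int.cast_zero, sub_zero, add_sub_cancel_left]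
          rw [nf_abs h, κd]; linarith
        · simp only [add_im, ofReal_im, mul_im, ofReal_re, I_im, mul_one, I_re, mul_zero, add_zero,
            zero_add]
          rwa [nf_abs h, abs_neg]
        · simp only [add_re, ofReal_re, mul_re, I_re, mul_zero, ofReal_im, I_im, mul_one, sub_self,
            add_zero, Int.cast_zero, add_im, mul_im, zero_add]
          linear_combination -ξ * ee
        · simp only [add_re, ofReal_re, mul_re, I_re, mul_zero, ofReal_im, I_im, mul_one, sub_self,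
            add_zero, Int.cast_zero, add_im, mul_im, zero_add]
          linear_combination -(κ * (δ / 2)) * ee
      have := an_im h.hB (h3.symm.trans (hu.symm.trans e))
      simp only [add_im, ofReal_im, mul_im, ofReal_re, I_im, mul_one, I_re, mul_zero, add_zero,
        zero_add] at this
      exact h2 (neg_injective (mul_left_cancel₀ (nf_sq h P) this))
  refine ⟨γ, hγ, hr, ?_, count hγ S ψ fun u hu => ?_, Or.inl (disjoint_left.2 ?_)⟩
  · refine cut_conn tub X hγ hU (conn_up h.hB hU hc) hr h.hA (al_cd hf) hL (loc y0 hy0) (d := 1)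
      (S := (sgm '' Ico (-(δ / 2)) ρ ∪ K) ∪ sgm '' Ioc ρ (δ / 2)) ?_ ?_ ?_ ?_
    · rw [(al_deriv hf y0).deriv, deriv_const_mul_field']
      simpa using ⟨by rcases hκ with rfl | rfl <;> simp, d0⟩
    · exact IsPreconnected.union _ (Or.inr K5) (mem_image_of_mem _ ⟨by linarith, le_rfl⟩)
        (IsPreconnected.union _ (mem_image_of_mem _ ⟨le_rfl, by linarith⟩) K4
          (isPreconnected_Ico.image _ csg.continuousOn) K2) (isPreconnected_Ioc.image _ csg.continuousOn)
    · rintro p ((⟨ξ, hξ, rfl⟩ | hp) | ⟨ξ, hξ, rfl⟩)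
      · exact off ξ (abs_lt.2 ⟨by linarith [hξ.1], by linarith [hξ.2]⟩) hξ.2.ne
      · refine ⟨(K3 hp).1.1, ?_⟩
        rintro ⟨u, rfl⟩
        rcases dec u with ⟨y, hy, m, rfl, e⟩ | ⟨⟨r, e⟩, -⟩
        · refine t2 (α y) ⟨by linarith [(αm y).1], by linarith [(αm y).2]⟩ ?_ (e ▸ hp)
          rw [hα, al_im]
          linarith [f5 y (abs_le.2 hy)]
        · refine t1 _ ?_ (e ▸ hp)
          simp only [add_im, ofReal_im, mul_im, ofReal_re, I_im, mul_one, I_re, mul_zero, add_zero,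
            zero_add]
          linarith
      · exact off ξ (abs_lt.2 ⟨by linarith [hξ.1], by linarith [hξ.2]⟩) hξ.1.ne'
    · filter_upwards [self_mem_nhdsWithin, mem_nhdsWithin_of_mem_nhds
        (Ioo_mem_nhds (by linarith : -ρ < 0) ρ0)] with v v1 v2
      have e : A (α y0 + v * 1) = sgm (ρ + v) := by
        show A _ = A _
        congr 1
        apply Complex.ext
        · simp only [hα, add_re, al_re, r0]; simp; ring
        · simp [hα, i0]
      rw [e]
      rcases lt_or_gt_of_ne v1 with v3 | v3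
      · exact Or.inl (Or.inl ⟨_, ⟨by linarith [v2.1], by linarith⟩, rfl⟩)
      · exact Or.inr ⟨_, ⟨by linarith, by linarith [v2.2]⟩, rfl⟩
  · rcases dec u with ⟨y, hy, m, rfl, e⟩ | ⟨-, e⟩
    · rw [e, an_mem h.hA, al_im] at hu
      have := κa (f0 y)
      rw [hu, abs_zero, abs_of_pos (f4 y)] at this
      exact absurd this (f4 y).ne
    · obtain ⟨e1, j, j1, -, e2⟩ := e hu
      exact ⟨e1, j, j1, e2⟩
  · rintro _ ⟨u, rfl⟩ hu
    rcases dec u with ⟨y, hy, m, rfl, e⟩ | ⟨⟨r, e⟩, -⟩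
    · rw [e] at hu
      refine (NB _ (by linarith [(αm y).1]) (by linarith [(αm y).2]) (by linarith [(αm y).1]) ?_).2 hu
      rw [al_im]
      linarith [f5 y (abs_le.2 hy)]
    · rw [e, an_mem h.hB] at hu
      simp only [add_im, ofReal_im, mul_im, ofReal_re, I_im, mul_one, I_re, mul_zero, add_zero,
        zero_add] at hu
      rw [hu, abs_zero] at hs
      linarith

/-- SURG -/
theorem surg (tub : Tub) : Surg := by
  intro X U A B n δ t θ ε hU h hn hc
  obtain ⟨P, Q, k, hPQ, g1, g2, adj⟩ := nf_adj h hn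
  by_cases he : ε Q = ε P
  · exact same tub hU h hc hPQ g1 g2 adj he
  · refine opp tub hU h hc hPQ g1 g2 adj ?_
    rcases h.sgn P with e | e <;> rcases h.sgn Q with e' | e' <;> simp_all

/-- LK without the surgery hypothesis -/
theorem lk' (n0 : Nf0) (nf : Nf1) (tub : Tub) (d2 : Dual2) (pl : Plumb) : Lk :=
  lk n0 nf tub d2 pl (surg tub)

end Crest.Agent.X212.Mcg32
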