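import Crest.Agent.X212.Sf30.P2Defs

/-!
# Row 212, H / P2 (helper32): EXTD, cocycles extend over a two sided part without cohomology
-/

set_option autoImplicit false
set_option linter.unusedSectionVars false

open Classical

noncomputable section

namespace Crest.Agent.X212.Mcg32

open Crest.Agent.X212.Hp13 Pt30

/-- potentials on one side -/
theorem side_pot {P : Type} [PartialOrder P] [Fintype P] {V Y : Set P} {σ : P → P → Prop}
    (h1 : ∀ y ∈ Y, ∀ y' ∈ Y, ∀ v ∈ V \ Y, y' ≤ y → y ≤ v → σ y v → σ y' v)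
    (h2 : ∀ y ∈ Y, Ctr {v | v ∈ V \ Y ∧ y ≤ v ∧ σ y v}) {w : P → P → ℤ} (hw : CocOn (V \ Y) w) :
    ∃ a t : P → P → ℤ, CocOn Y t ∧
      (∀ y ∈ Y, ∀ v ∈ V \ Y, ∀ v' ∈ V \ Y, y ≤ v → v ≤ v' → σ y v → σ y v' →
        a y v' = a y v + w v v') ∧
      ∀ y ∈ Y, ∀ y' ∈ Y, ∀ v ∈ V \ Y, y' ≤ y → y ≤ v → σ y v → a y' v = t y' y + a y v := by
  have e : ∀ y, ∃ (g : P → ℤ) (p : P), y ∈ Y → (p ∈ V \ Y ∧ y ≤ p ∧ σ y p) ∧
      ∀ v ∈ {v | v ∈ V \ Y ∧ y ≤ v ∧ σ y v}, ∀ v' ∈ {v | v ∈ V \ Y ∧ y ≤ v ∧ σ y v}, v ≤ v' →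
        w v v' = g v' - g v := fun y => by
    by_cases hy : y ∈ Y
    · obtain ⟨g, hg⟩ := (h2 y hy).ex ℤ w fun _ a _ b _ c => hw _ a.1 _ b.1 _ c.1
      obtain ⟨p, hp⟩ := (h2 y hy).ne
      exact ⟨g, p, fun _ => ⟨hp, hg⟩⟩
    · exact ⟨0, y, fun h => absurd h hy⟩
  choose a p h using e
  have k : ∀ y ∈ Y, ∀ y' ∈ Y, ∀ v ∈ V \ Y, y' ≤ y → y ≤ v → σ y v →
      a y' v = (a y' (p y) - a y (p y)) + a y v := fun y hy y' hy' v hv l l' s => by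
    have := ((h2 y hy).conn _ (h y hy).1 v ⟨hv, l', s⟩).eq (g := fun v => a y' v - a y v)
      fun u hu u' hu' l'' => by
        have e1 := (h y hy).2 u hu u' hu' l''
        have e2 := (h y' hy').2 u ⟨hu.1, l.trans hu.2.1, h1 y hy y' hy' u hu.1 l hu.2.1 hu.2.2⟩ u'
          ⟨hu'.1, l.trans hu'.2.1, h1 y hy y' hy' u' hu'.1 l hu'.2.1 hu'.2.2⟩ l''
        omega
    omega
  refine ⟨a, fun y' y => a y' (p y) - a y (p y), fun x hx y hy u hu l l' => ?_,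
    fun y hy v hv v' hv' l l' s s' => ?_, k⟩
  · obtain ⟨p1, p2, p3⟩ := (h u hu).1
    have := k y hy x hx (p u) p1 l (l'.trans p2) (h1 u hu y hy _ p1 l' p2 p3)
    beta_reduce
    omega
  · have := (h y hy).2 v ⟨hv, l, s⟩ v' ⟨hv', l.trans l', s'⟩ l'
    omega

/-- EXTD -/
theorem extd : ExtdStmt := by
  intro P _ _ V Y σ _ lo h1 h2 h3 hY w hw
  obtain ⟨a, t, c1, a1, t1⟩ := side_pot (σ := σ)
    (fun y hy y' hy' v hv l l' => (h1 y hy y' hy' v hv l l').2) (fun y hy => (h3 y hy).1) hw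
  obtain ⟨b, u, c2, a2, t2⟩ := side_pot (σ := fun y v => ¬ σ y v)
    (fun y hy y' hy' v hv l l' => mt (h1 y hy y' hy' v hv l l').1) (fun y hy => (h3 y hy).2) hw
  obtain ⟨g, hg⟩ := hY (u - t) fun x hx y hy v hv l l' => by
    simp only [Pi.sub_apply, c1 x hx y hy v hv l l', c2 x hx y hy v hv l l']; ring
  refine ⟨fun x y => if x ∈ Y then if y ∈ Y then t x y else if σ x y then a x y else b x y + g x
    else w x y, fun x hx y hy v hv l l' => ?_, fun x hx y _ _ => if_neg hx.2⟩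
  by_cases v1 : v ∈ Y
  · have y1 := lo v v1 y hy l'
    have x1 := lo y y1 x hx l
    simp only [x1, y1, v1, if_true]
    exact c1 x x1 y y1 v v1 l l'
  by_cases y1 : y ∈ Y
  · have x1 := lo y y1 x hx l
    simp only [x1, y1, v1, if_true, if_false, h1 y y1 x x1 v ⟨hv, v1⟩ l l']
    split_ifs with s
    · exact t1 y y1 x x1 v ⟨hv, v1⟩ l l' s
    · have := t2 y y1 x x1 v ⟨hv, v1⟩ l l' s
      have := hg x x1 y y1 l
      simp only [Pi.sub_apply] at this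
      omega
  by_cases x1 : x ∈ Y
  · have e := h2 x x1 y ⟨hy, y1⟩ v ⟨hv, v1⟩ l l'
    simp only [x1, y1, v1, if_true, if_false, ← e]
    split_ifs with s
    · exact a1 x x1 y ⟨hy, y1⟩ v ⟨hv, v1⟩ l l' s (e.1 s)
    · have := a2 x x1 y ⟨hy, y1⟩ v ⟨hv, v1⟩ l l' s (mt e.2 s)
      omega
  · simp only [x1, y1, if_false]
    exact hw x ⟨hx, x1⟩ y ⟨hy, y1⟩ v ⟨hv, v1⟩ l l'

end Crest.Agent.X212.Mcg32
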