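import Crest.Agent.X212.Sf30.P2Pk
import Crest.Agent.X212.Mcg32.Extd

/-!
# Row 212, H / P2 (helper32): THICK, SPAN for the cut system
-/

set_option autoImplicit false
set_option linter.unusedSectionVars false

open Finset Classical

noncomputable section

namespace Crest.Agent.X212.Mcg32

open Crest.Agent.X212.Hp13 Alg36 Cut21 Ind26 Pt30
open Sup43 (Inn inn_up)
open Kh11 (WS sctr_min)

variable {P : Type} [PartialOrder P] [Fintype P] {M N : Set P} {e : P → P → ℤ}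

/-- two levels up -/
def T2 (N : Set P) : Set (Ch (Ch P)) := Ch.top ⁻¹' (Ch.top ⁻¹' N)

/-- the chains of mixed chains -/
def Ze (e : P → P → ℤ) : Set (Ch (Ch P)) := {C | ∀ c ∈ C.1, 0 < e c.bot c.top}

theorem ze_lower : IsLowerSet (Ze e) := fun _ _ l h c hc => h c (l hc)

theorem t2_up (hM : IsUpperSet M) : IsUpperSet (T2 M) :=
  fun _ _ l h => hM (Ch.top_mono (Ch.top_mono l)) h

theorem bb_le_bb {C D : Ch (Ch P)} (l : C ≤ D) : C.bot.bot ≤ D.bot.bot :=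
  Ch.bot_anti (Ch.bot_anti l)

theorem tt_mono {C D : Ch (Ch P)} (l : C ≤ D) : C.top.top ≤ D.top.top :=
  Ch.top_mono (Ch.top_mono l)

theorem le_tt {C : Ch (Ch P)} {c : Ch P} (hc : c ∈ C.1) {x : P} (hx : x ∈ c.1) : x ≤ C.top.top :=
  Ch.le_top (Ch.le_top hc hx)

theorem bb_le (C : Ch (Ch P)) : C.bot.bot ≤ C.top.top := le_tt C.bot_mem C.bot.bot_mem

theorem dom_mem {C : Ch (Ch P)} (h : C ∈ T2 M) {c : Ch P} (hc : c ∈ C.1) : Dom M c :=
  (dom_top (M := M) h).mono (Ch.le_top hc)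

theorem nze (h : Z1 M e) {C : Ch (Ch P)} (hC : C ∈ T2 M) :
    C ∉ Ze e ↔ e C.bot.bot C.bot.top = 0 := by
  refine ⟨fun k => by_contra fun k' => k fun c hc => h.up (dom_mem hC hc) (Ch.bot_le hc) ?_,
    fun k k' => (k' _ C.bot_mem).ne' k⟩
  have := h.mono _ _ (dom_mem hC C.bot_mem).bt
  omega

/-- no jump inside a flat chain -/
theorem flat (h : Z1 M e) {c : Ch P} (hc : Dom M c) (k : e c.bot c.top = 0) {x y : P}
    (hx : x ∈ c.1) (hy : y ∈ c.1) (l : x ≤ y) : e x y = 0 :=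
  le_antisymm (k ▸ h.mono.le_range h.coc hc hx hy l) (h.mono _ _ (hc.dp hx hy l))

theorem bb_flat (h : Z1 M e) {C D : Ch (Ch P)} (hC : C ∈ T2 M) (k : C ∉ Ze e) (l : C ≤ D) :
    e C.bot.bot D.bot.bot = 0 :=
  flat h (dom_mem hC C.bot_mem) ((nze h hC).1 k) C.bot.bot_mem (Ch.bot_anti l D.bot.bot_mem)
    (bb_le_bb l)

theorem ws_ze (N : Set P) (e : P → P → ℤ) : WS (T2 N ∩ Ze e) (Mx N e) Ch.top := by
  refine WS.of_le (fun C k => ⟨k.1, k.2 _ C.top_mem⟩) (fun _ _ _ _ l => Ch.top_mono l)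
    fun d hd => ?_
  have m : ∀ (C : Ch (Ch P)) (l : C.top ≤ d), C ∈ Ze e →
      tp C d l ∈ T2 N ∩ Ze e ∧ (tp C d l).top ≤ d := fun C l k =>
    ⟨⟨show (tp C d l).top.top ∈ N by rw [top_tp]; exact hd.1, fun c hc =>
      (mem_tp.1 hc).elim (fun a => a ▸ hd.2) (k c)⟩, (top_tp _ _ _).le⟩
  refine (WS.of_clo' (D := {C | (C ∈ T2 N ∩ Ze e ∧ C.top ≤ d) ∧ d ∈ C.1})
    (A := {C | C ∈ T2 N ∩ Ze e ∧ C.top ≤ d}) (fun _ k => k.1) fun C k =>
      ⟨tp C d k.2, ⟨m C k.2 k.1.2, by simp⟩, le_tp _ _ _, fun b hb l => tp_le l hb.2⟩).ctr_iff.1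
    (sctr_min (m := Ch.pt d) ⟨⟨⟨show (Ch.pt d).top.top ∈ N by rw [Ch.top_pt]; exact hd.1,
      fun c hc => mem_singleton.1 hc ▸ hd.2⟩, by simp⟩, by simp⟩ fun b hb => Ch.pt_le.2 hb.2)

theorem h1z_ws {Q : Type} [PartialOrder Q] [Fintype Q] {A : Set P} {B : Set Q} {f : P → Q}
    (h : WS A B f) (k : H1Z B) : H1Z A := fun w hw => by
  obtain ⟨u, hu, g, hg⟩ := h.onto hw
  obtain ⟨g', hg'⟩ := h.ex_pb (k u hu)
  refine ⟨g + g', fun x hx y hy l => ?_⟩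
  have := hg x hx y hy l
  have := hg' x hx y hy l
  simp only [Pi.sub_apply, Pi.add_apply] at *
  omega

theorem h1z_cmp {E : Set P} (h : ∀ C, IsCmp E C → Ctr C) : H1Z E := fun w hw => by
  have k : ∀ C : Set P, ∃ g : P → ℤ, IsCmp E C → ∀ x ∈ C, ∀ y ∈ C, x ≤ y → w x y = g y - g x :=
    fun C => by
      by_cases c : IsCmp E C
      · exact ((h C c).ex ℤ w (CocOn.mono hw c.sub)).imp fun _ a _ => a
      · exact ⟨0, fun a => absurd a c⟩
  choose g hg using k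
  refine ⟨fun x => g (cmp E x) x, fun x hx y hy l => ?_⟩
  have r := Rch.of_cm hx hy (Or.inl l)
  beta_reduce
  rw [← cmp_eq r]
  exact hg _ (isCmp_cmp hx) x (mem_cmp_self hx) y ⟨hy, r⟩ l

theorem h1z_in (h : Dsc M e) (hM : Mf 3 M) : H1Z (T2 M ∩ Ze e) :=
  h1z_ws (ws_ze M e) (h1z_cmp fun C k => by
    obtain ⟨h1, c, hc, x, hx, y, hy, l, h2, h3⟩ := h.disc C k
    exact h.toZ1.ctr hM k.sub k.conn hc (q := Ch.pr x y l)
      ⟨(dom_top (k.sub hc).1).mono (Cut21.pr_le hx hy), by simpa using h3⟩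
      (fun a => h2 (by simpa using (k.sub a).1)) (Or.inr (Cut21.pr_le hx hy)) h1.ge)

theorem out_ze (k : ∀ C, IsCmp (Mx N e) C → Tc M e C) :
    Out (T2 M) (T2 N ∩ Ze e) := fun C hC => by
  have w := ws_ze N e
  obtain ⟨c, hc, x, hx, y, hy, l, h2, h3⟩ := k _ (isCmp_cmp (w.maps hC))
  have m : Ch.pr _ c (Cut21.pr_le (h := l) hx hy) ∈ T2 N ∩ Ze e :=
    ⟨show (Ch.pr _ c _).top.top ∈ N by rw [Ch.top_pr]; exact hc.1.1, fun d hd =>
      (mem_pr.1 hd).elim (fun a => by simpa [a] using h3) fun a => a ▸ hc.1.2⟩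
  refine ⟨_, (w.rch_iff hC m).2 (by rw [Ch.top_pr]; exact hc.2), Ch.pt (Ch.pr x y l),
    fun a => h2 ?_, Ch.pt_le.2 (by simp)⟩
  have : (Ch.pt (Ch.pr x y l)).top.top ∈ M := a
  simpa using this

/-- the two sides of the surface -/
theorem ctr_side (h : Z1 M e) (hM : IsUpperSet M) {X : Ch (Ch P)} (hX : X ∈ T2 M ∩ Ze e) {j : ℤ}
    {p : P} (hp : p ∈ X.bot.1) (hj : e X.bot.bot p = j) :
    Ctr {D | D ∈ T2 M \ (T2 M ∩ Ze e) ∧ X ≤ D ∧ e X.bot.bot D.bot.bot = j} := by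
  let k := X.bot.sub (X.bot.1.filter fun x => e X.bot.bot x = j) ⟨p, mem_filter.2 ⟨hp, hj⟩⟩
    (filter_subset _ _)
  have k1 : k ≤ X.bot := filter_subset _ _
  have k2 : ∀ x ∈ k.1, e X.bot.bot x = j := fun x hx => (mem_filter.1 hx).2
  have d := dom_mem hX.1 X.bot_mem
  have mk : ∀ f (l : f ≤ X.bot), e f.bot f.top = 0 → e X.bot.bot f.bot = j →
      bt X f l ∈ {D | D ∈ T2 M \ (T2 M ∩ Ze e) ∧ X ≤ D ∧ e X.bot.bot D.bot.bot = j} :=
    fun f l a b =>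
      have m := t2_up hM (le_bt X f l) hX.1
      ⟨⟨m, fun c => (nze h m).2 (by rwa [bot_bt]) c.2⟩, le_bt _ _ _, by rwa [bot_bt]⟩
  refine (force_up (fun D D' l a => ?_) k fun D a => ?_).ctr_iff.1
    (sctr_min (m := bt X k k1) ⟨mk k k1 ?_ (k2 _ k.bot_mem), by simp⟩
      fun D a => insert_subset a.2 a.1.2.1)
  · have m := t2_up hM l a.1.1
    refine ⟨⟨m, fun c => a.1.2 ⟨a.1.1, ze_lower l c.2⟩⟩, a.2.1.trans l, ?_⟩
    rw [h.add m (bb_le_bb a.2.1) (bb_le_bb l) (bb_le _), a.2.2,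
      bb_flat h a.1.1 (fun c => a.1.2 ⟨a.1.1, c⟩) l, add_zero]
  · have f := (nze h a.1.1).1 fun c => a.1.2 ⟨a.1.1, c⟩
    have l : D.bot ≤ X.bot := Ch.bot_anti a.2.1
    refine ⟨bt X D.bot l, mk _ l f a.2.2, insert_subset D.bot_mem a.2.1, fun x hx => ?_⟩
    rcases mem_bt.1 hx with rfl | hx
    · refine Or.inr fun y hy => mem_filter.2 ⟨l hy, ?_⟩
      rw [h.coc.add' d X.bot.bot_mem (l D.bot.bot_mem) (l hy) (Ch.bot_anti l) (Ch.bot_le hy), a.2.2,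
        flat h (d.mono l) f D.bot.bot_mem hy (Ch.bot_le hy), add_zero]
    · exact Or.inl (k1.trans (Ch.bot_le hx))
  · have := h.coc.add' d X.bot.bot_mem (k1 k.bot_mem) (k1 k.top_mem) (Ch.bot_anti k1) k.bot_le_top
    rw [k2 _ k.bot_mem, k2 _ k.top_mem] at this
    omega

/-- the complement of a complete disc system has no cohomology -/
theorem h1z_out (h : Dsc M e) (hs : Spn1 M e) (hM : IsUpperSet M) (h3 : Mf 3 M) (hN : Nice M) :
    H1Z (T2 M \ Ze e) := fun w hw => by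
  have z := h.toZ1
  obtain ⟨w', c', e'⟩ := extd _ (T2 M) (T2 M ∩ Ze e) (fun C D => e C.bot.bot D.bot.bot = 1)
    Set.inter_subset_left (fun y hy x hx l => ⟨hx, ze_lower l hy.2⟩)
    (fun y hy y' hy' v hv l l' => by
      rw [z.add hv.1 (bb_le_bb l) (bb_le_bb l') (bb_le _),
        z.bot_bot (dom_mem hy'.1 y'.bot_mem) (Ch.bot_anti l) (hy.2 _ y.bot_mem), zero_add])
    (fun y hy v hv v' hv' l l' => by
      rw [z.add hv'.1 (bb_le_bb l) (bb_le_bb l') (bb_le _),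
        bb_flat z hv.1 (fun c => hv.2 ⟨hv.1, c⟩) l', add_zero])
    (fun y hy => ⟨ctr_side z hM hy y.bot.top_mem (le_antisymm
      (z.le _ _ (dom_mem hy.1 y.bot_mem).bt) (hy.2 _ y.bot_mem)), by
        convert ctr_side z hM hy y.bot.bot_mem (z.self hy.1 (bb_le y)) using 1
        ext D
        refine and_congr_right fun a => and_congr_right fun b => ?_
        have := z.nn a.1 (bb_le_bb b) (bb_le D)
        have := z.le1 a.1 (bb_le_bb b) (bb_le D)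
        omega⟩)
    (h1z_in h h3) w (by rwa [Set.sdiff_self_inter])
  rw [Set.sdiff_self_inter] at e'
  obtain ⟨w0, c0, g0, e0⟩ := ((ws_sd (Ch.top ⁻¹' M)).comp (ws_sd M)).onto c'
  obtain ⟨u, cu, eu⟩ := Nice.exists_coc hN c0
  obtain ⟨g, hg⟩ := hs u cu
  refine ⟨fun C => g C.bot.bot + u C.bot.bot C.top.top + g0 C, fun C hC D hD l => ?_⟩
  have a1 := e0 C hC.1 D hD.1 l
  have a2 := eu _ hC.1 _ hD.1 (tt_mono l)
  have a3 := hg _ _ (dp_hi (A := M) hD.1 (bb_le_bb l) (bb_le D)) (bb_flat z hC.1 hC.2 l)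
  have a4 := (tri_hi (A := M) hD.1 (bb_le_bb l) (bb_le D) le_rfl).add cu
  have a5 := (tri_hi (A := M) hD.1 (bb_le C) (tt_mono l) le_rfl).add cu
  simp only [Pi.sub_apply, pb, Function.comp] at a1
  rw [← e' C hC D hD l]
  beta_reduce
  omega

/-- and conversely -/
theorem spn_of (z : Z1 M e) (hM : IsUpperSet M) (hN : Nice M) (h : H1Z (T2 M \ Ze e)) :
    Spn1 M e := fun w hw => by
  obtain ⟨g, hg⟩ := h (fun C D => w C.top.top D.top.top) fun C _ D _ E hE l l' =>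
    (tri_hi (A := M) hE.1 (tt_mono l) (tt_mono l') le_rfl).add hw
  set G : Ch (Ch P) → ℤ := fun C => g C - w C.bot.bot C.top.top with hG
  have a : ∀ C ∈ T2 M \ Ze e, ∀ D, C ≤ D → G D = G C + w C.bot.bot D.bot.bot := fun C hC D l => by
    have hD := t2_up hM l hC.1
    have a1 := hg C hC D ⟨hD, fun c => hC.2 (ze_lower l c)⟩ l
    have a4 := (tri_hi (A := M) hD (bb_le_bb l) (bb_le D) le_rfl).add hw
    have a5 := (tri_hi (A := M) hD (bb_le C) (tt_mono l) le_rfl).add hw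
    simp only [hG] at a1 ⊢
    omega
  have a' : ∀ C ∈ T2 M \ Ze e, ∀ D, C ≤ D → D.bot.bot = C.bot.bot → G D = G C := fun C hC D l k => by
    rw [a C hC D l, k, hw.self hC.1 (Or.inr (bb_le C)), add_zero]
  have m : ∀ x c (l : Ch.pt x ≤ c), c.top ∈ M → Ch.pr _ c l ∈ T2 M \ Ze e := fun x c l k =>
    have t : Ch.pr _ c l ∈ T2 M := show (Ch.pr _ c l).top.top ∈ M by rwa [Ch.top_pr]
    ⟨t, (nze z t).2 (by simpa using z.self k (Ch.le_top (Ch.pt_le.1 l)))⟩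
  let H : P → Ch P → ℤ := fun x c => if l : Ch.pt x ≤ c then G (Ch.pr _ c l) else 0
  have b : ∀ C ∈ T2 M \ Ze e, G C = H C.bot.bot C.top := fun C hC => by
    have l : Ch.pt C.bot.bot ≤ C.bot := Ch.pt_le.2 C.bot.bot_mem
    have l' := l.trans C.bot_le_top
    simp only [H, dif_pos l']
    rw [← a' C hC _ (le_bt C _ l) (by simp), a' _ (m _ _ l' hC.1) (bt C _ l)
      (Cut21.pr_le (by simp) (le_bt C _ l C.top_mem)) (by simp)]
  have c : ∀ x c c', Ch.pt x ≤ c → c.top ∈ M → Ch.pt x ≤ c' → c'.top ∈ M → H x c = H x c' :=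
    fun x c c' l k l' k' => by
      have t : Ctr {i | i ∈ M ∧ (Ch.pt x).top ≤ i} := by
        rw [Ch.top_pt]
        by_cases j : x ∈ M
        exacts [sctr_min ⟨j, le_rfl⟩ fun _ m => m.2,
          Nice.ctr_ge hM.ordConnected hN ⟨j, _, k, Ch.le_top (Ch.pt_le.1 l)⟩]
      refine ((ctr_over (fun _ => True) trivial t).conn c ⟨l, k, trivial⟩ c' ⟨l', k', trivial⟩).eq
        fun u hu v hv j => ?_
      have j' : (Ch.pr _ u hu.1).top ≤ v := by simpa using j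
      simp only [H, dif_pos hu.1, dif_pos hv.1]
      rw [← a' _ (m _ _ hu.1 hu.2.1) _ (le_tp _ v j') (by simp), a' _ (m _ _ hv.1 hv.2.1) (tp _ v j')
        (Cut21.pr_le (by simp) (by simp)) (by simp)]
  have d : ∀ x, ∃ n : ℤ, ∀ C ∈ T2 M \ Ze e, C.bot.bot = x → G C = n := fun x => by
    by_cases j : ∃ C ∈ T2 M \ Ze e, C.bot.bot = x
    · obtain ⟨D, hD, rfl⟩ := j
      refine ⟨G D, fun C hC k => ?_⟩
      rw [b C hC, b D hD, k]
      exact c _ _ _ (k ▸ Ch.pt_le.2 (C.bot_le_top C.bot.bot_mem)) hC.1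
        (Ch.pt_le.2 (D.bot_le_top D.bot.bot_mem)) hD.1
    · exact ⟨0, fun C hC k => absurd ⟨C, hC, k⟩ j⟩
  choose n hn using d
  refine ⟨n, fun x y hp k => ?_⟩
  obtain ⟨u, hu, l⟩ := Sup43.dp_up hM hp
  have l' : (Ch.pr x y hp.le).top ≤ u := by simpa using l
  let C := Ch.pr _ _ (le_tp (Ch.pr x y hp.le) u l')
  have t : C ∈ T2 M := show C.top.top ∈ M by simpa [C] using hu
  have hC : C ∈ T2 M \ Ze e := ⟨t, (nze z t).2 (by simpa [C] using k)⟩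
  have q : Ch.pt y ≤ C.bot := Ch.pt_le.2 (by simp [C])
  have := a C hC _ (le_bt C _ q)
  rw [hn x C hC (by simp [C]), hn y _ ⟨t2_up hM (le_bt C _ q) t,
    fun c => hC.2 (ze_lower (le_bt C _ q) c)⟩ (by simp)] at this
  simp only [C, Ch.bot_pr, bot_bt, Ch.bot_pt] at this
  omega

/-- THICK -/
theorem p2good (hM : McStmt) : Pt30.GoodStmt := by
  intro s s' z π e h d k
  have e1 : Inn s.sd.sd.A = T2 (Inn s.A) :=
    (inn_sd (A := Ch.top ⁻¹' s.A)).trans (congrArg _ inn_sd)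
  have e2 : Uz s.sd.sd.A (pb Ch.top (pb Ch.top z)) = T2 (Uz s.A z) :=
    (uz_sd (A := Ch.top ⁻¹' s.A)).trans (congrArg _ uz_sd)
  have := hM _ _ _ _ (Ze e) h.sd.sd ze_lower
    (e1 ▸ h1z_out d.toDsc d.spn inn_up h.mf h.nice)
    (e1 ▸ out_ze fun C c => (d.disc C c).2)
    (e2 ▸ e1 ▸ out_ze k)
  rw [e2] at this
  refine spn_of (h.z1_pb d.toZ1) inn_up h.nice' ?_
  refine (Set.ext fun D => ?_ : T2 (Inn s'.A) \ Ze (pb π e) = _) ▸
    h1z_ws (h.sd.ws_im (S := T2 (Uz s.A z) \ Ze e) fun c a => mem_uz_sd.2 a.1) this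
  have a1 : h.sd.im D ∈ Ze e ↔ D ∈ Ze (pb π e) :=
    ⟨fun a c hc => by
      have := a _ (h.sd.mem_im.2 ⟨c, hc, rfl⟩)
      rwa [h.top_im, h.bot_im] at this, fun a c hc => by
      obtain ⟨q, hq, rfl⟩ := h.sd.mem_im.1 hc
      exact (h.top_im q).symm ▸ (h.bot_im q).symm ▸ a q hq⟩
  refine ⟨fun a => ⟨mem_inn_sd.2 a.1, ?_, mt a1.1 a.2⟩, fun a => ⟨mem_inn_sd.1 a.1, mt a1.2 a.2.2⟩⟩
  exact mem_uz_sd.1 ((h.sd.top_im D).symm ▸ h.sd.uz_of (mem_inn_sd.2 a.1))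

end Crest.Agent.X212.Mcg32
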