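import Crest.Agent.X212.Kh11.Bas

/-!
# Row 212, H / P1 (helper32): DEG, half lives half dies
-/

set_option autoImplicit false
set_option linter.unusedSectionVars false

open Finset Classical Module

noncomputable section

namespace Crest.Agent.X212.Mcg32

open Crest.Agent.X212.Hp13 Hk Alg36
open Kh11 (WS)

section lin

variable {K : Type} [Field K]

theorem finrank_map_mkQ {U : Type} [AddCommGroup U] [Module K U] [FiniteDimensional K U]
    {B Z : Submodule K U} (h : B ≤ Z) : finrank K (Z.map B.mkQ) + finrank K B = finrank K Z := by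
  have := LinearMap.finrank_range_add_finrank_ker (B.mkQ.domRestrict Z)
  rwa [LinearMap.range_domRestrict, LinearMap.ker_domRestrict, Submodule.ker_mkQ,
    (Submodule.comapSubtypeEquivOfLe h).finrank_eq] at this

theorem quot_le {W U V : Type} [AddCommGroup W] [Module K W] [FiniteDimensional K W]
    [AddCommGroup U] [Module K U] [FiniteDimensional K U] [AddCommGroup V] [Module K V]
    [FiniteDimensional K V] (f : W →ₗ[K] U) (g : W →ₗ[K] V) {B Z : Submodule K U}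
    {B' Z' : Submodule K V} (h : B ≤ Z) (h' : B' ≤ Z') (h1 : ∀ z ∈ Z, ∃ w, f w - z ∈ B)
    (h2 : ∀ w, g w ∈ Z') (h3 : ∀ w, g w ∈ B' → f w ∈ B) :
    finrank K Z + finrank K B' ≤ finrank K Z' + finrank K B := by
  have a1 := LinearMap.finrank_range_add_finrank_ker (B.mkQ ∘ₗ f)
  have a2 := LinearMap.finrank_range_add_finrank_ker (B'.mkQ ∘ₗ g)
  have a3 : finrank K (LinearMap.ker (B'.mkQ ∘ₗ g)) ≤ finrank K (LinearMap.ker (B.mkQ ∘ₗ f)) :=
    Submodule.finrank_mono fun w hw => by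
      simpa using h3 w (by simpa using hw)
  have a4 : finrank K (Z.map B.mkQ) ≤ finrank K (LinearMap.range (B.mkQ ∘ₗ f)) :=
    Submodule.finrank_mono fun _ ⟨z, hz, e⟩ =>
      let ⟨w, hw⟩ := h1 z hz; ⟨w, e ▸ (Submodule.Quotient.eq B).2 hw⟩
  have a5 : finrank K (LinearMap.range (B'.mkQ ∘ₗ g)) ≤ finrank K (Z'.map B'.mkQ) :=
    Submodule.finrank_mono fun _ ⟨w, e⟩ => ⟨g w, h2 w, e⟩
  have := finrank_map_mkQ h
  have := finrank_map_mkQ h'
  omega

variable {P Q R : Type} [PartialOrder P] [Fintype P] [PartialOrder Q] [Fintype Q] [PartialOrder R]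
  [Fintype R]

theorem exists_res (E : Set P) : ∃ r : (P → P → K) →ₗ[K] (chains (fs E) 2 → K),
    ∀ z, ∀ x ∈ E, ∀ y ∈ E, x < y → ex (r z) {x, y} = z x y := by
  choose x hx y hy hxy hc using fun c : chains (fs E) 2 => eq_pair c.2
  refine ⟨⟨⟨fun z c => z (x c) (y c), fun _ _ => rfl⟩, fun _ _ => rfl⟩, fun z a ha b hb hab => ?_⟩
  rw [ex_mem _ (pair_mem (mem_fs.2 ha) (mem_fs.2 hb) hab)]
  set c : chains (fs E) 2 := ⟨_, pair_mem (mem_fs.2 ha) (mem_fs.2 hb) hab⟩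
  have e : ({a, b} : Finset P) = {x c, y c} := hc c
  have m1 : a ∈ ({x c, y c} : Finset P) := e ▸ (by simp)
  have m2 : b ∈ ({x c, y c} : Finset P) := e ▸ (by simp)
  simp only [mem_insert, mem_singleton] at m1 m2
  rcases m1 with m1 | m1 <;> rcases m2 with m2 | m2
  · exact absurd (m1.trans m2.symm) hab.ne
  · show z (x c) (y c) = _
    rw [← m1, ← m2]
  · exact absurd (m1 ▸ m2 ▸ hxy c) (lt_asymm hab)
  · exact absurd (m1.trans m2.symm) hab.ne

theorem ext2 {E : Set P} {φ ψ : chains (fs E) 2 → K}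
    (h : ∀ x ∈ E, ∀ y ∈ E, x < y → ex φ {x, y} = ex ψ {x, y}) : φ = ψ := funext fun c => by
  obtain ⟨x, hx, y, hy, l, e⟩ := eq_pair c.2
  have := h x (mem_fs.1 hx) y (mem_fs.1 hy) l
  rwa [← e, ex_mem _ c.2, ex_mem _ c.2] at this

theorem ex_d0 {E : Set P} (ψ : chains (fs E) 1 → K) {x y : P} (hx : x ∈ E) (hy : y ∈ E)
    (l : x < y) : ex ((mat K (fs E) 1).mulVecLin ψ) {x, y} = ex ψ {y} - ex ψ {x} := by
  rw [ex_mem _ (pair_mem (mem_fs.2 hx) (mem_fs.2 hy) l), Matrix.mulVecLin_apply, mat_mulVec,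
    dd_pair _ l]

/-- the first Betti number -/
def b1 (K : Type) [Field K] (E : Set P) : ℤ :=
  (finrank K (LinearMap.ker (mat K (fs E) 2).mulVecLin) : ℤ) -
    finrank K (LinearMap.range (mat K (fs E) 1).mulVecLin)

theorem eu_b1 {E : Set P} (hd : Dim (fs E) 3) : eu E =
    finrank K (LinearMap.ker (mat K (fs E) 1).mulVecLin) - b1 K E + finrank K (Cyc K (fs E) 2) := by
  have e0 := rank_add_ker (K := K) (fs E) 1
  have e1 := rank_add_ker (K := K) (fs E) 2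
  have e2 := rank_add_cyc (K := K) (fs E) 2
  rw [← chi_fs, chi_eq_chi4 (hd.le (by norm_num)), chi4, hd.chains_eq (k := 4) (by norm_num), b1]
  simp only [Nat.reduceAdd, card_empty] at *
  omega

/-- a family of classes that is onto on `E` and dies on `E` when it dies on `F` -/
theorem b1_le {E : Set Q} {F : Set R} {D : Set P} (f : Q → P) (g : R → P)
    (h1 : ∀ a : Q → Q → K, CocOn E a → ∃ b, CocOn D b ∧ ExOn E (pb f b - a))
    (h2 : ∀ b : P → P → K, CocOn D b → CocOn F (pb g b))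
    (h3 : ∀ b : P → P → K, CocOn D b → ExOn F (pb g b) → ExOn E (pb f b)) : b1 K E ≤ b1 K F := by
  let W : Submodule K (P → P → K) :=
    { carrier := {b | CocOn D b}
      add_mem' := cocOn_add
      zero_mem' := cocOn_zero
      smul_mem' := fun k b hb x hx y hy v hv l l' => by
        simp only [Pi.smul_apply, hb x hx y hy v hv l l', smul_add] }
  obtain ⟨r, hr⟩ := exists_res (K := K) E
  obtain ⟨s, hs⟩ := exists_res (K := K) F
  have k : ∀ z, ExOn E z → r z ∈ LinearMap.range (mat K (fs E) 1).mulVecLin := fun z ⟨p, hp⟩ =>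
    ⟨fun e => ∑ x ∈ e.1, p x, ext2 fun x hx y hy l => by
      rw [ex_d0 _ hx hy l, hr z x hx y hy l, hp x hx y hy l.le, ex_mem _ (single_mem (mem_fs.2 hx)),
        ex_mem _ (single_mem (mem_fs.2 hy)), sum_singleton, sum_singleton]⟩
  have := quot_le (K := K) (W := W) (r ∘ₗ ⟨⟨fun b => pb f b.1, fun _ _ => rfl⟩, fun _ _ => rfl⟩)
    (s ∘ₗ ⟨⟨fun b => pb g b.1, fun _ _ => rfl⟩, fun _ _ => rfl⟩)
    (B := LinearMap.range (mat K (fs E) 1).mulVecLin) (Z := LinearMap.ker (mat K (fs E) 2).mulVecLin)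
    (B' := LinearMap.range (mat K (fs F) 1).mulVecLin)
    (Z' := LinearMap.ker (mat K (fs F) 2).mulVecLin)
    (fun _ ⟨ψ, e⟩ => e ▸ mat_mat ψ) (fun _ ⟨ψ, e⟩ => e ▸ mat_mat ψ) (fun φ hφ => ?_)
    (fun b => ?_) fun b ⟨ψ, e⟩ => k _ (h3 _ b.2 ⟨fun x => ex ψ {x}, fun x hx y hy l => ?_⟩)
  · exact sub_le_sub_iff.2 (by exact_mod_cast this)
  · let z : Q → Q → K := fun x y => if x < y then ex φ {x, y} else 0
    have hz : CocOn E z := by
      intro x hx y hy t ht h h'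
      rcases h.eq_or_lt with rfl | h
      · simp [z]
      rcases h'.eq_or_lt with rfl | h'
      · simp [z]
      have := congrFun (LinearMap.mem_ker.1 hφ)
        ⟨_, triple_mem (mem_fs.2 hx) (mem_fs.2 hy) (mem_fs.2 ht) h h'⟩
      rw [Matrix.mulVecLin_apply, mat_mulVec, dd_triple _ h h'] at this
      simp only [z, if_pos h, if_pos h', if_pos (h.trans h')]
      simp only [Pi.zero_apply] at this
      linear_combination -this
    obtain ⟨b, c, e⟩ := h1 z hz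
    have e' : r z = φ := ext2 fun x hx y hy l => by rw [hr z x hx y hy l]; exact if_pos l
    exact ⟨⟨b, c⟩, by have := k _ e; rwa [map_sub, e'] at this⟩
  · obtain ⟨φ, c, e⟩ := exists_coch (coc_fs.2 (h2 _ b.2))
    have : s (pb g b.1) = φ := ext2 fun x hx y hy l => by
      rw [hs _ x hx y hy l, e x (mem_fs.2 hx) y (mem_fs.2 hy) l]
    exact LinearMap.mem_ker.2 (this ▸ c)
  · rcases l.eq_or_lt with rfl | l
    · rw [cocOn_self (h2 _ b.2) hx, sub_self]
    · rw [← ex_d0 ψ hx hy l, e]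
      exact (hs _ x hx y hy l).symm

theorem ker_pos {E : Set P} (h : E.Nonempty) :
    1 ≤ finrank K (LinearMap.ker (mat K (fs E) 1).mulVecLin) := by
  rw [Nat.one_le_iff_ne_zero, Ne, Submodule.finrank_eq_zero, LinearMap.ker_eq_bot']
  intro h0
  obtain ⟨x, hx⟩ := h
  have : (fun _ => (1 : K) : chains (fs E) 1 → K) = 0 := h0 _ (funext fun c => by
    obtain ⟨a, ha, b, hb, hab, hc⟩ := eq_pair c.2
    rw [Matrix.mulVecLin_apply, mat_mulVec, hc, dd_pair _ hab, ex_mem _ (single_mem ha),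
      ex_mem _ (single_mem hb)]
    simp)
  exact one_ne_zero (congrFun this ⟨_, single_mem (mem_fs.2 hx)⟩)

/-- the fundamental class of a closed surface -/
theorem cyc_pos {E : Set P} (h : Mf 2 E) (hE : ∀ x, x ∈ E) (x : P) :
    1 ≤ finrank (ZMod 2) (Cyc (ZMod 2) (fs E) 2) := by
  have mt : ∀ c : Ch P, Mt E c := fun c => ⟨_, c.top_mem, hE _⟩
  rw [Nat.one_le_iff_ne_zero, Ne, Submodule.finrank_eq_zero, eq_bot_iff]
  intro h0
  obtain ⟨c, -, hc⟩ := h.pure _ (mt (Ch.pt x))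
  refine one_ne_zero (congrFun (h0 (x := fun _ => (1 : ZMod 2)) (mem_cyc.2 (funext fun e => ?_)))
    ⟨c.1, mem_chains.2 ⟨fun y _ => mem_fs.2 (hE y), c.2.2, hc⟩⟩)
  obtain ⟨-, e1, e2⟩ := mem_chains.1 e.2
  let e' : Ch P := ⟨e.1, card_pos.1 (by omega), e1⟩
  have s : ∀ (c : Finset P) (y : P), (sg c y : ZMod 2) = 1 := fun c y => by
    have := sg_ne (ZMod 2) c y
    revert this
    generalize (sg c y : ZMod 2) = t
    revert t
    decide
  rw [vecMul_mat, bd, sum_congr rfl fun c hc => by rw [ex_mem _ hc, one_mul]]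
  simp only [s]
  rw [sum_sigma', ← sum_filter, sum_const, card_bij (t := Sf30.xt e') (fun p _ => p.2),
    Sf30.Mf.xt_two h (mt e') e2]
  · rfl
  · rintro ⟨c, y⟩ hp
    simp only [mem_filter, mem_sigma] at hp
    refine Sf30.mem_xt.2 ⟨fun k => notMem_erase y c (hp.2 ▸ k), fun t ht => ?_⟩
    exact (mem_chains.1 hp.1.1).2.1.total hp.1.2 (mem_of_mem_erase (hp.2 ▸ ht : t ∈ c.erase y))
  · rintro ⟨c, y⟩ hp ⟨d, t⟩ hq (rfl : y = t)
    simp only [mem_filter, mem_sigma] at hp hq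
    rw [← insert_erase hp.1.2, ← insert_erase hq.1.2, hp.2, hq.2]
  · intro y hy
    have k := Sf30.mem_xt.1 hy
    exact ⟨⟨(e'.ins y k.2).1, y⟩, mem_filter.2 ⟨mem_sigma.2 ⟨mem_chains.2 ⟨fun y _ => mem_fs.2 (hE y),
      (e'.ins y k.2).2.2, (Sf30.card_ins hy).trans (congrArg (· + 1) e2)⟩, mem_insert_self _ _⟩,
      erase_insert k.1⟩, rfl⟩

end lin

/-- a class of the outside that dies on `mix N` dies on `Om C` -/
theorem cut_off {P : Type} [PartialOrder P] [Fintype P] {Y C N : Set P} (h : Sub Y C) (q : QQ Y C)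
    (h1 : cl C ⊆ N) (h2 : N ⊆ Y) {b : P → P → ZMod 2} (hb : CocOn (cl Y \ C) b)
    (e : ExOn (mix N) (pb Ch.top b)) : ExOn (Om C) b := by
  obtain ⟨g, hg⟩ := e
  let b' : Ch P → Ch P → ZMod 2 := fun c d => if Mt Nᶜ c then 0 else b c.top d.top - (g d - g c)
  have k : ∀ c d : Ch P, Mt N c → c ≤ d → b' c d = b c.top d.top - (g d - g c) := fun c d m l => by
    simp only [b']
    split_ifs with j
    · rw [← hg c ⟨m, j⟩ d (mix_upper ⟨m, j⟩ l) l, pb, sub_self]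
    · rfl
  have c' : CocOn (Ch.top ⁻¹' (cl Y \ C)) b' := fun c hc d hd t ht l l' => by
    by_cases j : Mt Nᶜ c
    · simp only [b', if_pos j, if_pos (j.mono l), add_zero]
    · have m : Mt N c := ⟨_, c.top_mem, by_contra fun i => j ⟨_, c.top_mem, i⟩⟩
      rw [k c t m (l.trans l'), k c d m l, k d t (m.mono l) l',
        hb _ hc _ hd _ ht (Ch.top_mono l) (Ch.top_mono l')]
      ring
  obtain ⟨a, ca, ea⟩ := (ws_sd (cl Y \ C)).onto c'
  have sY : Om Y ⊆ cl Y \ C := fun _ j => ⟨j.2, fun i => j.1 (h.sub i)⟩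
  have sC : Om C ⊆ cl Y \ C := fun _ j => ⟨cl_mono h.sub j.2, j.1⟩
  have e1 : ExOn (Om Y) a := (ws_sd (Om Y)).ex (cocOn_mono ca sY)
    ((exOn_iff_of_sub (exOn_mono ea (Set.preimage_mono sY))).1
      (Flat.exOn fun c hc d _ _ => if_pos ⟨_, c.top_mem, fun j => hc.1 (h2 j)⟩))
  have e2 := (exOn_iff_of_sub (exOn_mono ea (Set.preimage_mono sC))).2
    ((ws_sd (Om C)).ex_pb (q.q2 a ca e1))
  refine (ws_sd (Om C)).ex (cocOn_mono hb sC) (exOn_congr (exOn_add e2 (exOn_cb g))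
    fun c hc d _ l => ?_)
  rw [Pi.add_apply, Pi.add_apply, k c d ⟨_, c.top_mem, h1 hc.2⟩ l, pb, cb]
  ring

/-- DEG -/
theorem degStmt : DegStmt := by
  intro P _ _ Y C N h ⟨c, hc⟩ q h1 h2 hm
  have mN := h.amb.mf.mono h2
  have z : Pt30.Z1 C (cb (ind C)) := Pt30.z1_ind h.up
  have : IsCoc C (cb (ind C)) := ⟨z.coc⟩
  have e1 : Pt30.Mx C (cb (ind C)) = Pt30.Sr C (Om C) := Set.ext fun d => Pt30.mem_mx_ind.trans
    (and_congr_right fun k => ⟨fun j => ⟨_, d.bot_mem, j, _, k, d.bot_le_top⟩,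
      fun ⟨_, j, i⟩ l => i.1 (h.up (Ch.bot_le j) l)⟩)
  have w := (z.ws (Pt30.mx_qe subset_rfl)).comp (e1 ▸ Pt30.ws_sr h.up h.nice subset_rfl)
  have m := z.mf h.mf subset_rfl
  have all : ∀ p : Lv C (cb (ind C)), p ∈ Pt30.ch ⁻¹' Pt30.Mx C (cb (ind C)) := fun p =>
    ⟨(cb_ind_pos.1 (Pt30.ch_mem p).2).2, (Pt30.ch_mem p).2⟩
  obtain ⟨o, ho⟩ : (Om C).Nonempty := by
    obtain ⟨b, -, r, x, hx, k⟩ := h.amb.esc c (h.sub hc)
    by_contra j
    have i : ∀ a b, a ≤ b → (a ∈ C ↔ b ∈ C) := fun a b l =>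
      ⟨fun k => h.up l k, fun k => by_contra fun k' => j ⟨a, k', b, k, l⟩⟩
    have : b ∈ C := r.ind hc fun a _ b _ => i a b
    exact hx (h.sub (k.elim (fun l => (i _ _ l).1 this) fun l => (i _ _ l).2 this))
  obtain ⟨p, hp⟩ := w.ne_iff.2 ⟨o, ho⟩
  have a1 := eu_b1 (K := ZMod 2) (Mf.dim_mix mN)
  have a2 := eu_b1 (K := ZMod 2) (E := Pt30.ch ⁻¹' Pt30.Mx C (cb (ind C))) fun d _ hd => by
    rcases d.eq_empty_or_nonempty with rfl | j
    · simp
    · exact m.card_le ⟨d, j, hd⟩ ⟨_, Ch.top_mem _, all _⟩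
  have a3 := ker_d0_le (K := ZMod 2) (cn_fs.2 hm)
  have a4 := (Mf.pm_mix mN hm).cyc_le (K := ZMod 2)
  have a5 := ker_pos (K := ZMod 2) ⟨p, hp⟩
  have a6 := cyc_pos m all p
  have a7 := b1_le (K := ZMod 2) (F := mix N) (D := cl Y \ C) _ Ch.top (fun a ha => by
      obtain ⟨a0, c0, e0⟩ := w.onto ha
      obtain ⟨b, cb, eb⟩ := q.q1 a0 c0
      exact ⟨b, cb, by simpa [pb_sub] using exOn_sub (w.ex_pb eb) e0⟩)
    (fun b hb => cocOn_mono (cocOn_pb hb Ch.top_mono) fun d ⟨⟨x, i, j⟩, y, i', j'⟩ =>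
      ⟨sub_cl (h.amb.up (Ch.le_top i) (h2 j)), fun l => j' (h1 ⟨_, l, Ch.le_top i'⟩)⟩)
    fun b hb e => w.ex_pb (cut_off h q h1 h2 hb e)
  rw [Mf.eu_mix mN] at a1
  rw [(z.eu_pre (Pt30.mx_qe subset_rfl)).trans
    ((congrArg eu (ca_ind h.up subset_rfl)).trans (Mf.eu_mix h.mf))] at a2
  omega

end Crest.Agent.X212.Mcg32
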