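import Crest.Agent.X212.Kh11.Lev

/-!
# Row 212, H / P1 (helper32): PUSH, the boundary of the core is pushed off the outer boundary
-/

set_option autoImplicit false
set_option linter.unusedSectionVars false

open Finset Classical

noncomputable section

namespace Crest.Agent.X212.Mcg32

open Crest.Agent.X212.Hp13 Hk
open Alg36 (Om force ws_sd top_ins top_ins')
open Cut21 (tp top_tp le_tp tp_le mem_tp)
open Kh11 (WS sctr_min sctr_max)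

variable {P R : Type} [PartialOrder P] [Fintype P] [PartialOrder R]

theorem ws_in (M V : Set P) :
    WS {c : Ch P | c.top ∈ V ∧ ∀ d ∈ c.1, d ∈ M} {d | d ∈ V ∧ d ∈ M} Ch.top := by
  refine WS.of_le (fun C k => ⟨k.1, k.2 _ C.top_mem⟩) (fun _ _ _ _ l => Ch.top_mono l)
    fun d hd => ?_
  refine (WS.of_clo' (A := {C | C ∈ {c : Ch P | c.top ∈ V ∧ ∀ d ∈ c.1, d ∈ M} ∧ C.top ≤ d})
    (D := {C | (C ∈ {c : Ch P | c.top ∈ V ∧ ∀ d ∈ c.1, d ∈ M} ∧ C.top ≤ d) ∧ d ∈ C.1})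
    (fun _ k => k.1) fun C k => ⟨tp C d k.2, ⟨⟨⟨by rw [top_tp]; exact hd.1, fun c hc =>
      (mem_tp.1 hc).elim (fun a => a ▸ hd.2) (k.1.2 c)⟩, (top_tp _ _ _).le⟩, by simp⟩,
      le_tp _ _ _, fun b hb l => tp_le l hb.2⟩).ctr_iff.1
    (sctr_min (m := Ch.pt d) ⟨⟨⟨by rw [Ch.top_pt]; exact hd.1,
      fun c hc => mem_singleton.1 hc ▸ hd.2⟩, by simp⟩, by simp⟩ fun b hb => Ch.pt_le.2 hb.2)

theorem ws_mt {K L : Set P} (h : ∀ a ∈ K, ∃ m ∈ L, m ≤ a ∧ ∀ l ∈ L, l ≤ a → l ≤ m) :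
    WS {d : Ch P | d ∈ Ch.top ⁻¹' K ∧ d ∈ {d | Mt L d}} K Ch.top := by
  refine WS.of_le (fun C k => k.1) (fun _ _ _ _ l => Ch.top_mono l) fun a ha => ?_
  obtain ⟨m, m1, m2, m3⟩ := h a ha
  have t : ∀ d : Ch P, a ∈ d.1 → (∀ x ∈ d.1, x ≤ a) → Mt L d →
      (d ∈ {d : Ch P | d ∈ Ch.top ⁻¹' K ∧ d ∈ {d | Mt L d}} ∧ d.top ≤ a) ∧ a ∈ d.1 :=
    fun d h1 h2 h3 =>
      have e := Ch.top_eq h1 h2
      ⟨⟨⟨show d.top ∈ K from e ▸ ha, h3⟩, e.le⟩, h1⟩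
  refine (force a (fun C k => ⟨C, k, Finset.ext fun x => ⟨fun hx => mem_filter.2
    ⟨hx, Or.inr ((Ch.le_top hx).trans k.2)⟩, fun hx => (mem_filter.1 hx).1⟩⟩) fun C k j => (t _ (mem_insert_self _ _) (fun x hx =>
      (mem_insert.1 hx).elim Eq.le fun i => (Ch.le_top i).trans k.2)
      (Mt.mono k.1.2 (C.le_ins _ _))).1).ctr_iff.1 ((force m (fun C k => ?_) fun C k j =>
    t _ (mem_insert_of_mem k.2) (fun x hx => (mem_insert.1 hx).elim (fun e => e.le.trans m2)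
      fun i => (Ch.le_top i).trans k.1.2) (Mt.mono k.1.1.2 (C.le_ins _ _))).ctr_iff.1
    (sctr_min (m := Ch.pr m a m2) ⟨t _ (by simp) (by simp [m2]) ⟨m, by simp, m1⟩, by simp⟩
      fun b hb => Cut21.pr_le hb.2 hb.1.2))
  have i : a ∈ C.1.filter (Cm m) := mem_filter.2 ⟨k.2, Or.inl m2⟩
  obtain ⟨l, l1, l2⟩ := k.1.1.2
  exact ⟨C.sub _ ⟨a, i⟩ (filter_subset _ _), t _ i (fun x hx => (Ch.le_top (mem_filter.1 hx).1).trans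
    k.1.2) ⟨l, mem_filter.2 ⟨l1, Or.inr (m3 l l2 ((Ch.le_top l1).trans k.1.2))⟩, l2⟩, rfl⟩

/-- the open neighbourhood of `κ` -/
def Nb (C κ : Set P) : Set (Ch P) := {c | Mt κ c ∧ c.top ∈ cl C}

/-- what is left of `E` -/
theorem ws_rest {C κ E : Set P} (h : E ⊆ cl C) (d : Disjoint E κ) :
    WS (mvK (Ch.top ⁻¹' E) (Nb C κ)) E t3 := by
  have := ((ws_in {d : Ch (Ch P) | Mt (Nb C κ)ᶜ d} (Ch.top ⁻¹' (Ch.top ⁻¹' E))).comp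
    (ws_mt fun a ha => ?_)).comp (ws_sd E)
  · convert this using 1
    exact Set.ext fun c => and_congr_right fun _ =>
      ⟨fun k d hd => Mt.mono k (Ch.bot_le hd), fun k => k _ c.bot_mem⟩
  · refine ⟨a.sub (a.1.filter (· ∉ κ)) ⟨_, mem_filter.2 ⟨a.top_mem, Set.disjoint_left.1 d ha⟩⟩
      (filter_subset _ _), fun ⟨⟨x, x1, x2⟩, _⟩ => (mem_filter.1 x1).2 x2, filter_subset _ _,
      fun l hl k x hx => mem_filter.2 ⟨k hx, fun j => hl ⟨⟨x, hx, j⟩, cl_low (Ch.top_mono k) (h ha)⟩⟩⟩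

theorem two_eq {car : P → R} {Y X X' : Set P} (h : Two car Y X (Om X) X') : X' = Y \ cl X :=
  Set.ext fun y => ⟨fun k => ⟨h.sub' k, fun j => (mem_cl.1 j).elim
    (fun i => Set.disjoint_left.1 h.dj i k) (Set.disjoint_left.1 h.dg k)⟩, fun k =>
      ((h.cov y k.1).resolve_left fun i => k.2 (sub_cl i)).resolve_left fun i => k.2 i.2⟩

/-- the data of the push -/
structure Ps (car : P → R) (Y C F : Set P) (ζ : P → P → ℤ) : Prop where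
  amb : Amb Y
  pr : PR car Y C
  inc : INC C (Om C)
  low : IsLowerSet F
  dj : Disjoint F (Om C)
  coc : CocOn (cl C) ζ
  nex : ¬ ExOn (Om C) ζ

variable {car : P → R} {Y C F : Set P} {ζ : P → P → ℤ}

theorem Ps.pre (h : Ps car Y C F ζ) {t : St} {f : t.P → P} (k : Tw P t f) :
    Ps (car ∘ f) (f ⁻¹' Y) (f ⁻¹' C) (f ⁻¹' F) (pb f ζ) :=
  ⟨h.amb.pre k, h.pr.pre k, by rw [k.om]; exact h.inc.pre k, k.lower h.low,
    by rw [k.om]; exact h.dj.preimage f, by rw [k.cl]; exact cocOn_pb h.coc k.mono,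
    by rw [k.om, k.exOn (cocOn_mono h.coc om_sub_cl)]; exact h.nex⟩

theorem Ps.mv (m1 : Mv1Stmt) (m2 : Mv2Stmt) (m3 : Mv3Stmt) (h : Ps car Y C F ζ) {N : Set P}
    (hN : Bl C (Om C) N) (hF : Disjoint F N) (w : Conn (mvK C N) ∧ (mvK C N).Nonempty) :
    Ps (car ∘ t2) (t2 ⁻¹' Y) (mvX C N) (t2 ⁻¹' F) (pb t2 ζ) ∧ Om (mvX C N) = mvG C (Om C) N := by
  have r := h.pr.amb.toRg
  have b := bd_om r.up
  obtain ⟨a1, -, a3, a4, a5, a6⟩ := m1 P C (Om C) N r b hN.toOpn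
  obtain ⟨⟨-, -, -, -, -, b1, -, b2, b3⟩, b4⟩ :=
    And.imp_left (fun k => k hN) (m2 P C (Om C) N r b)
  rw [Set.sdiff_self, Set.preimage_empty, Set.union_empty] at a4
  have w' : WS (mvX C N) (mvK C N) id := WS.of_ge
    (fun c k => ⟨k.1, _, c.bot.bot_mem, k.2 _ c.bot.bot_mem⟩) (fun _ _ _ _ l => l)
    fun c k => a1.ctr (a3 ▸ ⟨sub_cl k.1, k.2⟩)
  have tw := a6 R car Y _ h.amb.up h.pr.two
  have c1 : CocOn (cl (mvX C N)) (pb t2 ζ) :=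
    cocOn_mono (cocOn_pb h.coc t2_mono) (a3 ▸ fun _ k => k.1)
  rw [← a4] at tw
  refine ⟨⟨h.amb.pre (Tw.two P), ⟨a5 h.pr.amb (b2 h.pr.amb.esc), w'.conn_iff.2 w.1,
    w'.ne_iff.2 w.2, two_eq tw ▸ tw, b4 Y h.pr.two.sub hN.toOpn b1 h.pr.qq⟩,
    a4 ▸ (m3 P Y C (Om C) N (Sub.of h.amb r h.pr.two.sub) b hN).1 h.inc, h.low.preimage t2_mono,
    a4 ▸ Set.disjoint_left.2 fun c k j => j.elim (fun j => Set.disjoint_left.1 h.dj k j.1)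
      fun ⟨⟨_, x, x1, x2⟩, _⟩ => Set.disjoint_left.1 hF (h.low (le_t2 x1) k) x2, c1,
    fun e => h.nex (((b3 ℤ).1 ζ (pb t2 ζ) (cocOn_mono h.coc om_sub_cl)
      (a4 ▸ cocOn_mono c1 om_sub_cl) (by rw [sub_self]; exact exOn_zero)).2 (a4 ▸ e))⟩, a4⟩

/-- one cell of the outer boundary -/
theorem Ps.step (nb : NbhStmt) (m1 : Mv1Stmt) (m2 : Mv2Stmt) (m3 : Mv3Stmt) (h : Ps car Y C F ζ)
    {κ : Set P} (h1 : IsLowerSet κ) (h2 : κ ⊆ Om C) (h3 : Ctr κ) :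
    ∃ C', Ps (car ∘ t3) (t3 ⁻¹' Y) C' (t3 ⁻¹' F) (pb t3 ζ) ∧ C' ⊆ t3 ⁻¹' C ∧
      (∀ c ∈ Om C', t3 c ∉ C → t3 c ∈ Om C \ κ) ∧
      ∀ E ⊆ Om C \ κ, WS (Om C' ∩ t3 ⁻¹' E) E t3 := by
  have r := h.pr.amb.toRg
  have hN := nb P C (Om C) κ r (bd_om r.up) h1 (fun _ k => Or.inr (h2 k)) h3
    (by rwa [Set.inter_eq_left.2 h2])
  have eo := (Tw.one P).om C
  have w := ws_rest (κ := κ) (sub_cl (X := C)) (om_disj.mono_right h2)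
  obtain ⟨p, e⟩ := (h.pre (Tw.one P)).mv m1 m2 m3 (N := Nb C κ) (eo ▸ hN)
    (Set.disjoint_left.2 fun c k ⟨⟨x, x1, x2⟩, _⟩ =>
      Set.disjoint_left.1 h.dj (h.low (Ch.le_top x1) k) (h2 x2))
    ⟨w.conn_iff.2 h.pr.conn, w.ne_iff.2 h.pr.ne⟩
  have q : ∀ c ∈ Om (mvX (Ch.top ⁻¹' C) (Nb C κ)), t3 c ∈ cl C ∧ ∃ y ∈ c.bot.1, y ∉ Nb C κ :=
    fun c k => by
      have := (Set.ext_iff.1
        (m1 _ _ _ _ (r.pre (Tw.one P)) ((bd_om r.up).pre (Tw.one P)) hN.toOpn).2.2.1 c).1 k.2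
      exact ⟨Set.ext_iff.1 ((Tw.one P).cl C) _ |>.1 this.1, this.2⟩
  refine ⟨_, p, mvX_sub, fun c k j => ?_, fun E hE => ?_⟩
  · obtain ⟨q1, y, y1, y2⟩ := q c k
    have l := Ch.top_mono (le_t2 y1)
    exact ⟨⟨j, q1⟩, fun i => y2 ⟨⟨_, y.top_mem, h1 l i⟩, cl_low l q1⟩⟩
  · convert ws_rest (C := C) (κ := κ) (fun x k => (hE k).1.2)
      (Set.disjoint_left.2 fun x k => (hE k).2) using 1
    exact Set.ext fun c => ⟨fun k => ⟨k.2, (q c k.1).2⟩, fun k =>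
      ⟨e ▸ Or.inl ⟨Set.ext_iff.1 eo _ |>.2 (hE k.1).1, k.2⟩, k.1⟩⟩

theorem push_ind (nb : NbhStmt) (m1 : Mv1Stmt) (m2 : Mv2Stmt) (m3 : Mv3Stmt) {B : Type}
    [PartialOrder B] (O : Finset B) : ∀ (P : Type) [PartialOrder P] [Fintype P] (car : P → R)
    (Y C F : Set P) (ζ : P → P → ℤ) (φ : P → B), Monotone φ → Ps car Y C F ζ →
    (∀ x ∈ Om C, x ∉ Y → φ x ∈ O) → (∀ b ∈ O, {x | x ∈ Om C ∧ x ∉ Y ∧ φ x = b}.Nonempty →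
      Ctr {x | x ∈ Om C ∧ x ∉ Y ∧ φ x = b}) →
    ∃ t f C', Tw P t f ∧ Ps (car ∘ f) (f ⁻¹' Y) C' (f ⁻¹' F) (pb f ζ) ∧ Om C' ⊆ f ⁻¹' Y ∧
      C' ⊆ f ⁻¹' C := by
  induction O using Finset.strongInduction with
  | H O ih =>
  intro P _ _ car Y C F ζ φ hφ h h1 h2
  rcases O.eq_empty_or_nonempty with rfl | hO
  · exact ⟨lv0 P, id, C, Tw.refl P, h, fun x k => by_contra fun j => notMem_empty _ (h1 x k j), subset_rfl⟩
  obtain ⟨b, hb⟩ := O.exists_minimal hO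
  by_cases k : {x | x ∈ Om C ∧ x ∉ Y ∧ φ x = b}.Nonempty
  · obtain ⟨C', p, s, q1, q2⟩ := h.step nb m1 m2 m3
      (κ := {x | x ∈ Om C ∧ x ∉ Y ∧ φ x = b}) (fun x y l j =>
      have i := om_low h.pr.amb.up l j.1
      have i' : y ∉ Y := fun i => j.2.1 (h.amb.up l i)
      ⟨i, i', le_antisymm (j.2.2 ▸ hφ l) (hb.2 (h1 y i i') (j.2.2 ▸ hφ l))⟩)
      (fun _ j => j.1) (h2 b hb.1 k)
    have q : ∀ c ∈ Om C', t3 c ∉ Y → t3 c ∈ Om C \ {x | x ∈ Om C ∧ x ∉ Y ∧ φ x = b} :=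
      fun c i j => q1 c i fun l => j (h.pr.two.sub l)
    obtain ⟨t, f, C'', a1, a2, a3, a4⟩ := ih _ (erase_ssubset hb.1) _ _ _ _ _ _ (φ ∘ t3)
      (hφ.comp t3_mono) p (fun c i j => mem_erase.2 ⟨fun e => (q c i j).2 ⟨(q c i j).1, j, e⟩,
        h1 _ (q c i j).1 j⟩) fun b' hb' => by
        have w := q2 {x | x ∈ Om C ∧ x ∉ Y ∧ φ x = b'} fun x j =>
          ⟨j.1, fun i => (mem_erase.1 hb').1 (j.2.2.symm.trans i.2.2)⟩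
        rw [show {x | x ∈ Om C' ∧ x ∉ t3 ⁻¹' Y ∧ (φ ∘ t3) x = b'} =
          Om C' ∩ t3 ⁻¹' {x | x ∈ Om C ∧ x ∉ Y ∧ φ x = b'} from Set.ext fun c =>
            ⟨fun j => ⟨j.1, (q c j.1 j.2.1).1, j.2⟩, fun j => ⟨j.1, j.2.2⟩⟩, w.ne_iff, w.ctr_iff]
        exact h2 b' (mem_erase.1 hb').2
    exact ⟨t, t3 ∘ f, C'', (Tw.three P).trans a1, a2, a3, fun x j => s (a4 j)⟩
  · exact ih _ (erase_ssubset hb.1) P car Y C F ζ φ hφ h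
      (fun x i j => mem_erase.2 ⟨fun e => k ⟨x, i, j, e⟩, h1 x i j⟩)
      fun b' hb' => h2 b' (mem_erase.1 hb').2

/-- PUSH -/
theorem pushStmt (nb : NbhStmt) (m1 : Mv1Stmt) (m2 : Mv2Stmt) (m3 : Mv3Stmt) : PushStmt := by
  intro P _ _ R _ car Y C F ζ h1 h2 h3 h4 _ h5 h6 h7
  obtain ⟨t, f, C', a1, a2, a3, a4⟩ := push_ind nb m1 m2 m3 univ P car Y C F ζ id monotone_id
    ⟨h1, h2, h3, h4, h5, h6, h7⟩ (fun _ _ _ => mem_univ _) fun b _ ⟨x, hx⟩ =>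
      sctr_max hx fun y hy => (hy.2.2.trans hx.2.2.symm).le
  exact ⟨t, f, C', a1, a2.pr, a2.inc, a3, a4, a2.dj, a2.nex⟩

end Crest.Agent.X212.Mcg32
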