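import Crest.Agent.X212.Sep15.Pat
import Crest.Agent.X212.Dec47.Defs

/-!
# X212/Mcg32/DecP (helper32): SWD-PATCH, one gauge for all orders
-/

set_option autoImplicit false
set_option linter.unusedSectionVars false
set_option maxHeartbeats 400000
noncomputable section
open scoped Manifold ContDiff Topology InnerProductSpace
open MeasureTheory Set Function Filter

namespace Crest.Agent.X212.Mcg32.Dec
open An Cyf70 Sw Sw.En3 Sob92 Sep15.S
open Dec47 (Gv PatchStmt)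
open Wz78 (SA)
open Neck67 (Lb)
open Win39 (bt nh mi D_gau gau_at sm_bt)
open Pb50 (cB)

variable {κ lam ν : Type} [Fintype κ] [Fintype lam] [Fintype ν] [DecidableEq ν]
  {e : En3 κ lam ν} {T T' : Set ℝ} {c c' : e.ZC} {v : e.YC} {k : ℕ} {η : ℝ}

theorem abs_arg_le {z : ℂ} (h : ‖z‖ = 1) (h1 : ‖z - 1‖ < 1) : |z.arg| ≤ 2 * ‖z - 1‖ := by
  have h2 : |z.arg| ≤ Real.pi / 2 := Complex.abs_arg_le_pi_div_two_iff.2 (by
    have := (abs_le.1 ((Complex.abs_re_le_norm _).trans h1.le)).1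
    simp only [Complex.sub_re, Complex.one_re] at this; linarith)
  have h3 := Real.mul_abs_le_abs_sin h2
  rw [Complex.sin_arg, h, div_one, div_mul_eq_mul_div, div_le_iff₀ Real.pi_pos] at h3
  have h4 : |z.im| ≤ ‖z - 1‖ := by simpa using Complex.abs_im_le_norm (z - 1)
  nlinarith [Real.pi_le_four, abs_nonneg z.im, Real.pi_pos]

theorem exp_arg {z : ℂ} (h : ‖z‖ = 1) : Complex.exp (z.arg * Complex.I) = z := by
  simpa [h] using Complex.norm_mul_exp_arg_mul_I z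

/-- a retraction of the integers onto an interval -/
theorem retr {S : Set ℤ} (hS : S.OrdConnected) (h0 : S.Nonempty) : ∃ r : ℤ → ℤ, (∀ j, r j ∈ S) ∧
    (∀ j ∈ S, r j = j) ∧ ∀ j, ¬(j ∈ S ∧ j + 1 ∈ S) → r (j + 1) = r j := by
  choose r h1 h2 using fun j : ℤ =>
    (InvImage.wf (fun i : ℤ => (i - j).natAbs) Nat.lt_wfRel.wf).has_min S h0
  have h3 : ∀ j, ∀ x ∈ S, ¬(x - j).natAbs < (r j - j).natAbs := h2
  refine ⟨r, h1, fun j hj => by have := h3 j j hj; omega, fun j hj => ?_⟩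
  by_contra hne
  have a := h3 j _ (h1 (j + 1))
  have b := h3 (j + 1) _ (h1 j)
  rcases lt_or_gt_of_ne hne with h | h
  · exact hj ⟨hS.out (h1 (j + 1)) (h1 j) ⟨by omega, by omega⟩,
      hS.out (h1 (j + 1)) (h1 j) ⟨by omega, by omega⟩⟩
  · exact hj ⟨hS.out (h1 j) (h1 (j + 1)) ⟨by omega, by omega⟩,
      hS.out (h1 j) (h1 (j + 1)) ⟨by omega, by omega⟩⟩

theorem cl_union (h : Cl c c' T k η) (h' : Cl c c' T' k η) : Cl c c' (T ∪ T') k η :=
  fun w hw x hx => hx.2.elim (fun a => h w hw x ⟨trivial, a⟩) fun a => h' w hw x ⟨trivial, a⟩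

theorem cl_nonneg (h : Cl c c' T k η) (hT : T.Nonempty) : 0 ≤ η :=
  let ⟨t, ht⟩ := hT
  (norm_nonneg _).trans (Win39.Cl.pt h (x := (Classical.arbitrary _, t)) ⟨trivial, ht⟩).2

theorem gau_exp (hT : IsOpen T) {θ : e.Y.M × ℝ → ℝ} (h : ∀ x ∈ univ ×ˢ T, SA (IC e.Y.I) θ x) :
    GauOn e.Z.I (fun x => Complex.exp (θ x * Complex.I)) (univ ×ˢ T) :=
  have _ := hT
  ⟨fun x hx => (sa_exp (h x hx)).contMDiffWithinAt, fun _ _ => Complex.norm_exp_ofReal_mul_I _⟩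

/-- a small phase moves a configuration by a small amount -/
theorem cl_exp (H : e.OK) (hv : e.cyl.Adm (fz v)) (k : ℕ) (A : ℝ) : ∃ C, 1 ≤ C ∧
    ∀ (c : e.ZC) (T : Set ℝ) (θ : e.Y.M × ℝ → ℝ) ε, IsOpen T → 0 ≤ ε → ε ≤ A →
      e.cyl.AdmOn c (univ ×ˢ T) → Cl c (fz v) T k ε → Lb e.D.Z.toPre (univ ×ˢ T) (k + 1) θ ε →
      Cl (e.cyl.act (fun x => Complex.exp (θ x * Complex.I)) c) (fz v) T k (C * ε) := by
  obtain ⟨G, G0, hG⟩ := lb_gau (e := e) k A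
  obtain ⟨B, B0, hB⟩ := lb_fz hv.sΦ (fun _ => rfl) k
  set A₁ := 1 + 2 ^ k * G
  set A₂ := 2 ^ k * ‖cB e.m.J‖ * A₁ * (|A| + B)
  have p0 : 0 ≤ 2 ^ k * G := by positivity
  have p1 : 0 ≤ A₁ := by positivity
  have p2 : 0 ≤ A₂ := by positivity
  refine ⟨2 + A₂, by linarith, fun c T θ ε hT e0 e1 hc g lθ => ?_⟩
  have hS := op (e := e) hT
  have G' := gau_exp hT fun x hx => lθ.sm hx
  rw [cl_lb hT hc (admOn_of hv _)] at g
  have lb' : ∀ i, Lb e.D.Z.toPre (univ ×ˢ T) k (bt e (fun x => Complex.exp (θ x * Complex.I)) i)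
      ε := fun i => (lθ.2 i).congr hS fun x hx => th_exp (lθ.sm hx) i
  have lg := hG T _ hT G' fun i => (lb' i).mono e1
  have lu : Lb e.D.Z.toPre (univ ×ˢ T) (k + 1) (fun x => Complex.exp (θ x * Complex.I) - 1)
      (A₁ * ε) := ⟨fun x hx => ⟨(gau_at hT G' hx).sub contMDiffAt_const, by
      simp only [mul_comm (θ x : ℂ)]
      exact (Real.norm_exp_I_mul_ofReal_sub_one_le.trans (lθ.le hx)).trans (by
        simp only [A₁]; nlinarith)⟩,
    fun a => (((lb' a).bil' hS Win39.norm_mi lg).congr hS fun x hx => by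
        rw [Pre.D_def, Wz78.dv_sub' (gau_at hT G' hx) contMDiffAt_const, dv_const, ← Pre.D_def,
          D_gau hT G' hx]
        exact sub_zero _).mono (by
          rw [abs_of_nonneg e0, abs_of_nonneg G0]; simp only [A₁]; nlinarith)⟩
  refine (cl_lb hT (admOn_act H hT hc G') (admOn_of hv _)).2
    ⟨fun i => (((g.1 i).sub' hS (lb' i)).congr hS fun x _ => ?_).mono ?_, ((g.2.add hS
      (Lb.bil hS (cB e.m.J) (by positivity) (by positivity) lu.pred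
        (((g.2.mono (e1.trans (le_abs_self A))).add hS (hB _))))).congr hS fun x _ => ?_).mono ?_⟩
  · rw [Win39.act_a]; ring
  · rw [abs_of_nonneg e0]; nlinarith
  · rw [sub_add_cancel, Pb50.cB_apply, Win39.cs_sub_l, Win39.cs_one, Win39.act_P]; abel
  · have : 2 ^ k * ‖cB e.m.J‖ * (A₁ * ε) * (|A| + B) = A₂ * ε := by simp only [A₂]; ring
    rw [this]; nlinarith

/-- the argument of a gauge transformation between two good gauges -/
theorem arg_lb (H : e.OK) (hv : e.cyl.Adm (fz v)) (h0 : ∃ y, v.Φ y ≠ 0) : ∃ η₀ > 0, ∃ C, 1 ≤ C ∧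
    ∀ (c : e.ZC) (u : e.Y.M × ℝ → ℂ) (T : Set ℝ), IsOpen T → e.cyl.AdmOn c (univ ×ˢ T) →
      GauOn e.Z.I u (univ ×ˢ T) → Cl c (fz v) T 0 η₀ → Cl (e.cyl.act u c) (fz v) T 0 η₀ →
      (∀ x ∈ univ ×ˢ T, ‖u x - 1‖ < 1 ∧ SA (IC e.Y.I) (fun x => (u x).arg) x) ∧
      ∀ k ε, 0 ≤ ε → Cl c (fz v) T k ε → Cl (e.cyl.act u c) (fz v) T k ε →
        Lb e.D.Z.toPre (univ ×ˢ T) (k + 1) (fun x => (u x).arg) (C * ε) := by
  obtain ⟨C, C0, hC⟩ := Win39.rigOn e v H hv h0 0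
  refine ⟨1 / (C + 2), by positivity, 2 * C + 2, by linarith, fun c u T hT hc hu g1 g2 => ?_⟩
  have hS := op (e := e) hT
  have e1 : 1 / (C + 2) ≤ 1 / 2 := one_div_le_one_div_of_le two_pos (by linarith)
  have n1 : ∀ x ∈ univ ×ˢ T, ‖u x - 1‖ < 1 := fun x hx =>
    (hC c u T _ hT e1 hc hu g1 g2 [] (Nat.zero_le _) x hx).trans_lt (by
      rw [mul_one_div, div_lt_one (by positivity)]; linarith)
  have sχ : ∀ x ∈ univ ×ˢ T, SA (IC e.Y.I) (fun x => (u x).arg) x := fun x hx => by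
    have := Complex.mem_slitPlane_of_norm_lt_one (n1 x hx)
    rw [add_sub_cancel] at this
    simpa only [Complex.imCLM_apply, comp_apply, Complex.log_im] using sa_clm Complex.imCLM
      (((Complex.contDiffAt_log this).restrict_scalars ℝ).contMDiffAt.comp x (gau_at hT hu hx))
  refine ⟨fun x hx => ⟨n1 x hx, sχ x hx⟩, fun k ε e0 k1 k2 => ⟨fun x hx => ⟨sχ x hx, ?_⟩, fun i => ?_⟩⟩
  · have m : ∀ {c : e.ZC}, Cl c (fz v) T 0 (1 / (C + 2)) → Cl c (fz v) T k ε →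
        Cl c (fz v) T 0 (min (1 / (C + 2)) ε) := fun a b w hw x hx =>
      ⟨fun i => le_min ((a w hw x hx).1 i) ((b w (hw.trans k.zero_le) x hx).1 i),
        le_min (a w hw x hx).2 (b w (hw.trans k.zero_le) x hx).2⟩
    have n2 : ‖u x - 1‖ ≤ C * min (1 / (C + 2)) ε := hC c u T _ hT ((min_le_left _ _).trans e1) hc hu
      (m g1 k1) (m g2 k2) [] (Nat.zero_le _) x hx
    have n3 := mul_le_mul_of_nonneg_left (min_le_right (1 / (C + 2)) ε) C0
    exact (abs_arg_le (hu.2 x hx) (n1 x hx)).trans (by nlinarith)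
  · rw [cl_lb hT hc (admOn_of hv _)] at k1
    rw [cl_lb hT (admOn_act H hT hc hu) (admOn_of hv _)] at k2
    exact (((k1.1 i).sub' hS (k2.1 i)).congr hS fun x hx => by
      rw [← th_exp (sχ x hx), Win39.act_a, bt, bt, Pre.D_def, Pre.D_def, exp_arg (hu.2 x hx),
        dv_congr (mem_of_superset (nh hT hx) fun y hy => exp_arg (hu.2 y hy))]
      ring).mono (by rw [abs_of_nonneg e0]; nlinarith)

theorem ps_lb (k : ℕ) : ∃ C, 0 ≤ C ∧ ∀ (a : ℝ) S,
    Lb e.D.Z.toPre S k (fun x => Real.smoothTransition (12 * x.2 - a)) C := by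
  obtain ⟨C, hC⟩ := Nd18.bd_st
  have c0 := hC.nonneg
  refine ⟨12 ^ k * C k, by have := c0 k; positivity, fun a S => ?_⟩
  have h1 := hC.shift (-a)
  have h2 : Nd18.BD (fun t => Real.smoothTransition (12 * t + -a)) fun k => 12 ^ k * C k :=
    ⟨h1.1.comp (contDiff_const.mul contDiff_id), fun k i hi t => by
      rw [iteratedDeriv_comp_const_mul (f := fun t => Real.smoothTransition (t + -a))
        (h1.1.of_le (by exact_mod_cast le_top)) 12, norm_mul, norm_pow]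
      exact mul_le_mul (by simpa using pow_le_pow_right₀ (by norm_num) hi) (h1.2 k i hi _)
        (norm_nonneg _) (by positivity)⟩
  have := h2.cyl e.D.F.toPre
  simp only [sub_eq_add_neg]
  exact Lb.of_CB this.1 (this.2 k)

/-- **patching**, one gauge for all orders -/
theorem patch1 (G : Gv v) : ∃ η₀ > 0, ∃ C : ℕ → ℝ → ℝ, (∀ k A, 0 ≤ C k A) ∧
    ∀ (c : e.ZC) (u : ℤ → e.Y.M × ℝ → ℂ) (S : Set ℤ), S.OrdConnected →
    (∀ j ∈ S, Gau e.Z.I (u j) ∧ e.cyl.AdmOn c (univ ×ˢ Dec47.iv j) ∧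
      Cl (e.cyl.act (u j) c) (fz v) (Dec47.iv j) 0 η₀) →
    ∃ u', Gau e.Z.I u' ∧ ∀ k A j ε, j ∈ S → j + 1 ∈ S → ε ≤ A →
      Cl (e.cyl.act (u j) c) (fz v) (Dec47.iv j) k ε →
      Cl (e.cyl.act (u (j + 1)) c) (fz v) (Dec47.iv (j + 1)) k ε →
      Cl (e.cyl.act u' c) (fz v) (Ico ((j : ℝ) / 4) (((j : ℝ) + 1) / 4)) k (C k A * ε) := by
  have H := G.ok
  have hv := G.crit.1
  obtain ⟨η₀, e0, C₀, c0, hA⟩ := arg_lb H hv G.irr
  choose Cs s0 hs using fun k => ps_lb (e := e) k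
  choose Ce ce hE using cl_exp H hv
  let M : ℕ → ℝ := fun k => 1 + 2 ^ (k + 1) * Cs (k + 1) * C₀
  have m0 : ∀ k, 0 ≤ 2 ^ (k + 1) * Cs (k + 1) * C₀ := fun k => by
    have := s0 (k + 1); have : 0 ≤ C₀ := by linarith
    positivity
  have m1 : ∀ k, 1 ≤ M k := fun k => le_add_of_nonneg_right (m0 k)
  refine ⟨η₀, e0, fun k A => Ce k (M k * A) * M k, fun k A => mul_nonneg (zero_le_one.trans (ce _ _))
    (zero_le_one.trans (m1 k)), fun c u S hS hu => ?_⟩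
  rcases S.eq_empty_or_nonempty with rfl | hne
  · exact ⟨fun _ => 1, ⟨contMDiff_const, by simp⟩, fun _ _ _ _ h => h.elim⟩
  obtain ⟨r, r1, r2, r3⟩ := retr hS hne
  let U : ℤ → e.Y.M × ℝ → ℂ := fun j => u (r j)
  have hU : ∀ j, Gau e.Z.I (U j) := fun j => (hu _ (r1 j)).1
  let w : ℤ → e.Y.M × ℝ → ℂ := fun j x => U (j + 1) x * star (U j x)
  have hw : ∀ j O, GauOn e.Z.I (w j) O := fun j O =>
    gauOn_mul (gauOn_star (gauOn_of (hU j) O)) (gauOn_of (hU (j + 1)) O)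
  have wU : ∀ j x, w j x * U j x = U (j + 1) x := fun j x => by
    simp only [w, mul_assoc, Pb50.star_mul_one ((hU j).2 x), mul_one]
  let ph : ℤ → e.Y.M × ℝ → ℝ := fun j x =>
    Real.smoothTransition (12 * x.2 - (3 * j + 1)) * (w j x).arg
  let g : ℤ → e.Y.M × ℝ → ℂ := fun j x => Complex.exp (ph j x * Complex.I) * U j x
  let O : ℤ → Set ℝ := fun j => Ioo ((j : ℝ) / 4) (((j : ℝ) + 1) / 4)
  have O1 : ∀ j, O j ⊆ Dec47.iv j := fun j t ht => ⟨by linarith [ht.1], ht.2⟩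
  have O2 : ∀ j, O j ⊆ Dec47.iv (j + 1) := fun j t ht =>
    ⟨by push_cast; linarith [ht.1], by push_cast; linarith [ht.2]⟩
  have ag : ∀ j, Ag (e.cyl.act (w j) (e.cyl.act (U j) c)) (e.cyl.act (U (j + 1)) c) (O j) :=
    fun j => (ag_mul H isOpen_Ioo (gauOn_of (hU j) _) (hw j _) c).trans
      (ag_act isOpen_Ioo (fun x _ => wU j x) c)
  have ad : ∀ j ∈ S, e.cyl.AdmOn (e.cyl.act (U j) c) (univ ×ˢ O j) := fun j hj =>
    admOn_act H isOpen_Ioo (admOn_mono (hu j hj).2.1 (prod_mono_right (O1 j))) (gauOn_of (hU j) _)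
  have k1 : ∀ j ∈ S, ∀ {k ε}, Cl (e.cyl.act (u j) c) (fz v) (Dec47.iv j) k ε →
      Cl (e.cyl.act (U j) c) (fz v) (O j) k ε := fun j hj k ε h => by
    simpa only [U, r2 j hj] using cl_mono h (O1 j) le_rfl le_rfl
  have k2 : ∀ j, j + 1 ∈ S → ∀ {k ε}, Cl (e.cyl.act (u (j + 1)) c) (fz v) (Dec47.iv (j + 1)) k ε →
      Cl (e.cyl.act (w j) (e.cyl.act (U j) c)) (fz v) (O j) k ε := fun j hj k ε h =>
    (ag j).cl isOpen_Ioo (by simpa only [U, r2 _ hj] using cl_mono h (O2 j) le_rfl le_rfl)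
  have hA' := fun j (h1 : j ∈ S) (h2 : j + 1 ∈ S) => hA _ (w j) (O j) isOpen_Ioo (ad j h1) (hw j _)
    (k1 j h1 (hu j h1).2.2) (k2 j h2 (hu _ h2).2.2)
  have g0 : ∀ (j : ℤ) x, x.2 ≤ ((j : ℝ) + 1 / 3) / 4 → g j x = U j x := fun j x h => by
    simp only [g, ph, Real.smoothTransition.zero_of_nonpos
      (show 12 * x.2 - (3 * j + 1) ≤ 0 by linarith), zero_mul, Complex.ofReal_zero,
      Complex.exp_zero, one_mul]
  have g1 : ∀ (j : ℤ) x, ((j : ℝ) + 2 / 3) / 4 ≤ x.2 → g j x = U (j + 1) x := fun j x h => by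
    simp only [g, ph, Real.smoothTransition.one_of_one_le
      (show 1 ≤ 12 * x.2 - (3 * j + 1) by linarith), one_mul, exp_arg ((hw j univ).2 x trivial), wU]
  have sp : ∀ j, ∀ x ∈ univ ×ˢ O j, SA (IC e.Y.I) (ph j) x := fun j x hx => by
    by_cases h : j ∈ S ∧ j + 1 ∈ S
    · exact Wz78.SA.mul ((hs 0 _ univ).sm trivial) ((hA' j h.1 h.2).1 x hx).2
    · have : ph j = fun _ => 0 := funext fun x => by
        simp only [ph, w, U, r3 j h, mul_comm (u (r j) x), Pb50.star_mul_one ((hU j).2 x),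
          Complex.arg_one, mul_zero]
      rw [this]; exact contMDiffAt_const
  let u' : e.Y.M × ℝ → ℂ := fun x => g ⌊4 * x.2⌋ x
  let P : ℤ → Set ℝ := fun j => Ioo (((j : ℝ) - 1 / 3) / 4) (((j : ℝ) + 1) / 4)
  have ug : ∀ j, ∀ x ∈ univ ×ˢ P j, u' x = g j x := fun j x hx => by
    rcases le_or_gt ((j : ℝ) / 4) x.2 with h | h
    · have : ⌊4 * x.2⌋ = j := Int.floor_eq_iff.2 ⟨by linarith, by linarith [hx.2.2]⟩
      simp only [u', this]
    · have : ⌊4 * x.2⌋ = j - 1 :=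
        Int.floor_eq_iff.2 ⟨by push_cast; linarith [hx.2.1], by push_cast; linarith⟩
      simp only [u', this]
      rw [g1 _ _ (by push_cast; linarith [hx.2.1]), g0 _ _ (by linarith), sub_add_cancel]
  let Q : ℤ → Set ℝ := fun j => Ioo (((j : ℝ) - 1 / 3) / 4) (((j : ℝ) + 1 / 3) / 4)
  have uQ : ∀ j, ∀ x ∈ univ ×ˢ Q j, u' x = U j x := fun j x hx =>
    (ug j x ⟨trivial, hx.2.1, by linarith [hx.2.2]⟩).trans (g0 j x hx.2.2.le)
  have uO : ∀ j, ∀ x ∈ univ ×ˢ O j, u' x = g j x := fun j x hx =>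
    ug j x ⟨trivial, by linarith [hx.2.1], hx.2.2⟩
  have cov : ∀ j : ℤ, Ico ((j : ℝ) / 4) (((j : ℝ) + 1) / 4) ⊆ Q j ∪ O j := fun j t ht =>
    ht.1.eq_or_lt.elim (fun h => Or.inl ⟨by linarith, by linarith⟩) fun h => Or.inr ⟨h, ht.2⟩
  refine ⟨u', ⟨fun x => ?_, fun x => ?_⟩, fun k A j ε h1 h2 hε a b => ?_⟩
  · rcases cov ⌊4 * x.2⌋ (a := x.2) ⟨by linarith [Int.floor_le (4 * x.2)],
      by linarith [Int.lt_floor_add_one (4 * x.2)]⟩ with h | h
    · exact ((hU _).1 x).congr_of_eventuallyEq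
        (mem_of_superset (nh isOpen_Ioo ⟨trivial, h⟩) (uQ _))
    · exact (Wz78.SA.mul (sa_exp (sp _ x ⟨trivial, h⟩)) ((hU _).1 x)).congr_of_eventuallyEq
        (mem_of_superset (nh isOpen_Ioo ⟨trivial, h⟩) (uO _))
  · simp only [u', g, norm_mul, Complex.norm_exp_ofReal_mul_I, (hU _).2 x, mul_one]
  have ε0 : 0 ≤ ε := cl_nonneg a ⟨j / 4, by linarith, by linarith⟩
  have q1 : ε ≤ M k * ε := le_mul_of_one_le_left ε0 (m1 k)
  refine cl_mono (cl_union (T := Q j) (T' := O j) ?_ ?_) (cov j) le_rfl le_rfl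
  · refine (ag_act isOpen_Ioo (uQ j) c).cl isOpen_Ioo ?_
    simp only [U, r2 j h1]
    refine cl_mono a (fun t ht => ⟨by linarith [ht.1], by linarith [ht.2]⟩) le_rfl ?_
    rw [mul_assoc]
    exact q1.trans (le_mul_of_one_le_left (ε0.trans q1) (ce _ _))
  · refine ((ag_act isOpen_Ioo (uO j) c).trans (ag_mul H isOpen_Ioo (gauOn_of (hU j) _)
      (gau_exp isOpen_Ioo (sp j)) c).symm).cl isOpen_Ioo ?_
    rw [mul_assoc]
    refine hE k _ _ _ _ _ isOpen_Ioo (ε0.trans q1)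
      (mul_le_mul_of_nonneg_left hε (zero_le_one.trans (m1 k))) (ad j h1)
      (cl_mono (k1 j h1 a) Subset.rfl le_rfl q1)
      (((hs (k + 1) _ _).smul (op isOpen_Ioo) ((hA' j h1 h2).2 k ε ε0 (k1 j h1 a) (k2 j h2 b))).mono ?_)
    rw [abs_of_nonneg (s0 _), abs_of_nonneg (mul_nonneg (by linarith) ε0)]
    simp only [M]; nlinarith

/-- SWD-PATCH -/
theorem patchStmt : PatchStmt κ lam ν := fun e v G => by
  obtain ⟨η₀, e0, C, -, h⟩ := patch1 G
  refine ⟨η₀, e0, fun k A => ⟨C k (A + A), fun c u S ε hS hu => ?_⟩⟩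
  obtain ⟨u', g, h⟩ := h c u S hS fun j hj => ⟨(hu j hj).1, (hu j hj).2.1, (hu j hj).2.2.2.1⟩
  refine ⟨u', g, fun j h1 h2 => ?_⟩
  have n : ∀ j ∈ S, 0 ≤ ε j := fun j hj =>
    cl_nonneg (hu j hj).2.2.2.2 ⟨j / 4, by linarith, by linarith⟩
  exact h k _ j _ h1 h2 (add_le_add (hu j h1).2.2.1 (hu _ h2).2.2.1)
    (cl_mono (hu j h1).2.2.2.2 Subset.rfl le_rfl (le_add_of_nonneg_right (n _ h2)))
    (cl_mono (hu _ h2).2.2.2.2 Subset.rfl le_rfl (le_add_of_nonneg_left (n _ h1)))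

end Crest.Agent.X212.Mcg32.Dec
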