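import Crest.Agent.X212.Sep15.Pg
import Crest.Agent.X212.Rad94.Leaf

/-!
# Row 212, RAD-END (helper32): bounded solutions converge along the ends
-/

set_option autoImplicit false
set_option linter.unusedSectionVars false
noncomputable section
open scoped Manifold ContDiff Topology InnerProductSpace ENNReal
open MeasureTheory Set Function Filter

namespace Crest.Agent.X212.Mcg32.En
open An Sob92 Cyf70 Sw Sw.En3 Sep15.S
open M (Mf pm)
open Win39 (Jt jt gJ vJ jC jE gau_at)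

variable {κ lam ν : Type} [Fintype κ] [Fintype lam] [Fintype ν] [DecidableEq ν]
  {e : En3 κ lam ν} {g : e.Gen}

theorem ip_bd (hw : 0 ≤ e.w) {u v : e.YC} {C : ℝ} (hu : ∀ y, (∀ k, |u.a k y| ≤ C) ∧ ‖u.Φ y‖ ≤ C)
    (hv : ∀ y, (∀ k, |v.a k y| ≤ C) ∧ ‖v.Φ y‖ ≤ C) :
    |ip u v| ≤ (2 * (Fintype.card κ * (C * C)) + e.w * (C * C)) * e.D.F.μ.real univ := by
  have : IsFiniteMeasure e.D.F.μ := CompactSpace.isFiniteMeasure
  rw [ip, ← Real.norm_eq_abs]
  refine norm_integral_le_of_norm_le_const (.of_forall fun y => ?_)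
  refine (norm_add_le _ _).trans (add_le_add ?_ ?_)
  · rw [norm_mul, Real.norm_ofNat, ← nsmul_eq_mul, ← Finset.card_univ, ← Finset.sum_const]
    refine mul_le_mul_of_nonneg_left (norm_sum_le_of_le _ fun k _ => ?_) zero_le_two
    rw [norm_mul]
    exact mul_le_mul ((hu y).1 k) ((hv y).1 k) (norm_nonneg _) ((norm_nonneg _).trans (hu y).2)
  · rw [norm_mul, Real.norm_of_nonneg hw]
    exact mul_le_mul_of_nonneg_left ((norm_inner_le_norm _ _).trans (mul_le_mul (hu y).2 (hv y).2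
      (norm_nonneg _) ((norm_nonneg _).trans (hu y).2))) hw

theorem gJ_bd (H : e.OK) (B : ℝ) : ∃ C, B ≤ C ∧ ∀ j : e.Y.M → Jt κ ν, (∀ y, ‖j y‖ ≤ B) →
    ∀ y, (∀ k, |(gJ j).a k y| ≤ C) ∧ ‖(gJ j).Φ y‖ ≤ C := by
  obtain ⟨A, hA⟩ := H.bf 1
  obtain ⟨A', hA'⟩ := (isCompact_Icc (a := (0 : ℝ)) (b := 1)).exists_bound_of_continuousOn
    H.sb.continuous.continuousOn
  have h1 : Continuous fun p : e.Y.M × Jt κ ν × ℝ × ℝ => p.2.1 := continuous_snd.fst
  have hF : Continuous fun p : e.Y.M × Jt κ ν × ℝ × ℝ => ((fun k => 2 * (jC e p.1 p.2.1 +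
      p.2.2.1 • e.ζ p.1) (none, some k), -e.m.ρ none p.1 (jE e p.1 p.2.1) - p.2.2.2 • p.2.1.2.2.1) :
      (κ → ℝ) × Eu ν) :=
    (continuous_pi fun k => continuous_const.mul ((PiLp.continuous_apply 2 _ _).comp
      ((Win39.cont_jC H continuous_fst h1).add (continuous_snd.snd.fst.smul
        (H.sζ.continuous.comp continuous_fst))))).prodMk ((((Win39.cont_ρ H continuous_fst none).clm_apply
      (Win39.cont_jE H continuous_fst h1)).neg).sub (continuous_snd.snd.snd.smul h1.snd.snd.fst))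
  obtain ⟨C, hC⟩ := (isCompact_univ.prod ((isCompact_closedBall 0 B).prod ((isCompact_closedBall 0 A).prod
    (isCompact_closedBall 0 A')))).exists_bound_of_continuousOn hF.continuousOn
  refine ⟨max B C, le_max_left _ _, fun j hj y => ?_⟩
  have k := (hC (y, j y, deriv e.f (hol (vJ j)), e.b (nm (vJ j))) ⟨trivial, mem_closedBall_zero_iff.2 (hj y),
    mem_closedBall_zero_iff.2 (by simpa using hA _), mem_closedBall_zero_iff.2 ?_⟩).trans (le_max_right B C)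
  · exact ⟨fun i => (norm_le_pi_norm _ i).trans ((norm_fst_le _).trans k), (norm_snd_le _).trans k⟩
  rcases le_total (nm (vJ j)) 1 with h | h
  · exact hA' _ ⟨integral_nonneg fun _ => sq_nonneg _, h⟩
  · exact (H.b1 _ h).symm ▸ H.b1 1 le_rfl ▸ hA' 1 ⟨zero_le_one, le_rfl⟩

/-- the functional and its gradient are bounded on `C¹`-bounded sets -/
theorem L_bd (H : e.OK) (B : ℝ) : ∃ C, ∀ v : e.YC, e.cyl.Adm (fz v) → (∀ y, ‖jt v y‖ ≤ B) →
    |L v| ≤ C ∧ gn v ≤ C := by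
  obtain ⟨C, h0, hC⟩ := gJ_bd H B
  refine ⟨(2 * (Fintype.card κ * (C * C)) + e.w * (C * C)) * e.D.F.μ.real univ, fun v hv h => ?_⟩
  rw [Win39.L_jt H (sm_a hv) (sm_Φ hv), gn, Win39.gr_jt H (sm_a hv) (sm_Φ hv), Win39.lJ,
    ← Real.norm_eq_abs]
  refine ⟨(intervalIntegral.norm_integral_le_of_norm_le_const fun r hr => ip_bd H.cyl.w
    (hC _ fun y => ?_) fun y => ⟨fun k => ?_, ?_⟩).trans_eq (by rw [sub_zero, abs_one, mul_one]),
    (le_abs_self _).trans (ip_bd H.cyl.w (hC _ h) (hC _ h))⟩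
  · rw [uIoc_of_le zero_le_one] at hr
    rw [Pi.smul_apply, norm_smul, Real.norm_of_nonneg hr.1.le]
    exact (mul_le_of_le_one_left (norm_nonneg _) hr.2).trans (h y)
  · exact (norm_le_pi_norm _ k).trans ((norm_fst_le _).trans ((h y).trans h0))
  · exact (norm_fst_le _).trans ((norm_snd_le _).trans ((norm_snd_le _).trans ((h y).trans h0)))

theorem tail0 (m : Measure ℝ) (b : Bool) (a : ℝ) {C : ℝ≥0∞} (hC : C ≠ ⊤)
    (h : ∀ n : ℕ, m (iv b a n) ≤ C) : Tendsto (fun R => m (ir b R)) atTop (𝓝 0) := by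
  have h1 : m (ir b a) ≤ C := by
    rw [show ir b a = ⋃ n : ℕ, iv b a n from (iUnion_subset fun _ => iv_sub_ir le_rfl).antisymm'
      fun t ht => mem_iUnion.2 ((exists_nat_gt _).imp fun _ k => ⟨ht, k⟩),
      Monotone.measure_iUnion fun _ _ k => iv_mono le_rfl (Nat.cast_le.2 k)]
    exact iSup_le h
  have h2 := tendsto_measure_iInter_atTop (μ := m) (s := ir b)
    (fun R => (isOpen_ir b R).measurableSet.nullMeasurableSet) (fun _ _ => ir_mono)
    ⟨a, ne_top_of_le_ne_top hC h1⟩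
  rwa [show ⋂ R, ir b R = ∅ from eq_empty_of_forall_notMem fun t ht =>
    lt_irrefl (pm b * t) (mem_iInter.1 ht (pm b * t)), measure_empty] at h2

/-- bounded solutions have finite energy -/
theorem fin_en (hM : MonoStmt κ lam ν) (hg : g.OK) (M : ℝ) : ∃ η > 0,
    ∀ (W : Type) (T : W → Option e.YT) q c b a C, Sml T q 4 η → e.cyl.AdmOn c (univ ×ˢ ir b (a - 1)) →
      e.cyl.EqOn (pt T q) c (univ ×ˢ ir b a) → Sup c (ir b a) M →
      (∀ t ∈ ir b a, |L (sl c t)| ≤ C ∧ gn (sl c t) ≤ C) →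
      Tendsto (fun R => en c (ir b R)) atTop (𝓝 0) := by
  obtain ⟨η, h0, h⟩ := hM e g hg M (1 / 4) (by norm_num)
  refine ⟨η, h0, fun W T q c b a C hs hA hE hS hC => ?_⟩
  have m : ∀ {s}, a < s → pm b * s ∈ ir b a := fun h => show a < _ by rwa [pm_pm]
  have C0 : 0 ≤ C := (abs_nonneg _).trans (hC _ (m (lt_add_one a))).1
  have w : ∀ {s t}, a ≤ s → en c (iv b s t) ≤ ENNReal.ofReal C * ENNReal.ofReal (t - s) := fun k =>
    vol_iv b _ _ ▸ en_le (isOpen_iv _ _ _).measurableSet fun t ht => (hC t (iv_sub_ir k ht)).2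
  simp only [← em_apply c (isOpen_ir _ _).measurableSet]
  refine tail0 _ b (a + 2) (C := ENNReal.ofReal (12 * C)) ENNReal.ofReal_ne_top fun n => ?_
  rw [em_apply c (isOpen_iv _ _ _).measurableSet]
  rcases le_total (n : ℝ) (a + 2) with k | k
  · exact (w (by linarith)).trans (by simp [ENNReal.ofReal_of_nonpos (sub_nonpos.2 k)])
  have f : en c (iv b (a + 2) n) ≠ ⊤ := ne_top_of_le_ne_top (by finiteness) (w (by linarith))
  have k1 := mono_iv (l := 0) (h W T q c _ _ hs (loc_iv (r := n + 2) hA (fun x hx =>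
    hE x ⟨trivial, iv_sub_ir le_rfl hx.2⟩) le_rfl le_rfl) fun x hx => hS x
      ⟨trivial, iv_sub_ir le_rfl (Jv_iv b _ _ ▸ hx.2)⟩).2 k (by linarith) (by linarith)
  have k2 : en c (iv b (a + 2 - 1) (n + 1)) ≤ ENNReal.ofReal (C * 2 + ((en c (iv b (a + 2) n)).toReal +
      C * 2)) := by
    rw [ENNReal.ofReal_add (by positivity) (by positivity),
      ENNReal.ofReal_add (by positivity) (by positivity), ENNReal.ofReal_toReal f,
      ENNReal.ofReal_mul C0]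
    refine (en_union c (I₁ := iv b (a + 1) (a + 3)) (I₂ := iv b (a + 2) n ∪ iv b (n - 1) (n + 1))
      fun t ht => ?_).trans (add_le_add ((w (by linarith)).trans_eq (by congr 2; ring))
        ((en_union c Subset.rfl).trans (add_le_add_right
          ((w (by linarith)).trans_eq (by congr 2; ring)) _)))
    rcases lt_or_ge (pm b * t) (a + 3) with j | j
    · exact .inl ⟨by linarith [ht.1], j⟩
    rcases lt_or_ge (pm b * t) n with j' | j'
    exacts [.inr (.inl ⟨by linarith, j'⟩), .inr (.inr ⟨by linarith, ht.2⟩)]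
  have k3 := ENNReal.toReal_le_of_le_ofReal (by positivity) k2
  have k4 := abs_le.1 ((pm_abs b _).trans_le (hC _ (m (show a < a + 2 by linarith))).1)
  have k5 := abs_le.1 ((pm_abs b _).trans_le (hC _ (m (show a < n by linarith))).1)
  simp only [sub_zero] at k1
  exact en_of f (by linarith [k4.2, k5.1])

/-- finite energy: the windows converge to one critical point -/
theorem ev_nr (hW : WinStmt κ lam ν) (hg : g.OK) {W : Type} {T : W → Option e.YT} {q : W →₀ ℝ}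
    {c : e.ZC} {b : Bool} {a M : ℝ} (hs : Sml T q 6 1) (hA : e.cyl.AdmOn c (univ ×ˢ ir b (a - 1)))
    (hE : e.cyl.EqOn (pt T q) c (univ ×ˢ ir b a)) (hS : Sup c (ir b a) M)
    (h : Tendsto (fun R => en c (ir b R)) atTop (𝓝 0)) :
    ∃ o, ∀ η > 0, ∀ᶠ s in atTop, Nr c (g.pt o) (pm b * s) 2 η := by
  have ex : ∀ η > 0, ∀ᶠ s in atTop, ∃ o, Nr c (g.pt o) (pm b * s) 2 η := fun η h0 => by
    obtain ⟨ε, e0, h3⟩ := hW.nr e g hg (max M 1) η 2 h0
    filter_upwards [(tendsto_atTop_add_const_right _ (-2) tendsto_id).eventually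
      (h.eventually (ge_mem_nhds (ENNReal.ofReal_pos.2 e0))), eventually_ge_atTop (a + 2)] with s h1 h2
    have hl := loc_iv (r := s + 2) hA (fun x hx => hE x ⟨trivial, iv_sub_ir le_rfl hx.2⟩)
      (a' := s - 2) (r' := s + 2) (by linarith) le_rfl
    rw [lo_win, hi_win] at hl
    exact h3 W T q c _ (sml_mono hs le_rfl (le_max_right _ _)) hl (fun x hx => (hS x ⟨trivial,
      iv_sub_ir (by linarith) (iv_eq b s 2 ▸ hx.2)⟩).trans (le_max_left _ _))
      (iv_eq b s 2 ▸ (en_mono c (iv_sub_ir le_rfl)).trans h1)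
  obtain ⟨η₁, e1, h1⟩ := hW.sep e g hg
  obtain ⟨R, hR⟩ := eventually_atTop.1 ((ex η₁ e1).and (eventually_ge_atTop a))
  have w : ∀ {s}, R ≤ s → win (pm b * s) ⊆ ir b (a - 1) := fun {s} h =>
    (iv_eq b _ 1).trans_subset (iv_sub_ir (by linarith [(hR s h).2]))
  have sp : ∀ {s s' o o'}, R ≤ s → R ≤ s' → |s - s'| ≤ 1 → Nr c (g.pt o) (pm b * s) 2 η₁ →
      Nr c (g.pt o') (pm b * s') 2 η₁ → o = o' := fun k k' j a a' => h1 c _ _ _ _
    (by rwa [← mul_sub, pm_abs]) (admOn_mono hA (prod_mono_right (union_subset (w k) (w k'))))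
    (nr_mono a one_le_two le_rfl) (nr_mono a' one_le_two le_rfl)
  obtain ⟨o, ho⟩ := (hR R le_rfl).1
  refine ⟨o, fun η h0 => ?_⟩
  filter_upwards [ex _ (lt_min h0 e1), eventually_ge_atTop R] with s ⟨o', k⟩ hs
  have := chain (P := fun s o => Nr c (g.pt o) (pm b * s) 2 η₁) (A := R) (B := s)
    (fun s hs s' hs' k o o' => sp hs.1 hs'.1 k) (fun s hs => (hR s hs.1).1)
    (nr_mono k le_rfl (min_le_right _ _)) R ⟨le_rfl, hs⟩
  exact sp le_rfl le_rfl (by simp) this ho ▸ nr_mono k le_rfl (min_le_left _ _)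

/-- a gauge transformation of an end is cut off -/
theorem cut_end (h1 : ∀ u, Gau e.Y.I u → ∃ χ : e.Y.M → ℝ, Sm e.Y.I χ ∧
      ∀ y, u y = Complex.exp (χ y * Complex.I)) {b : Bool} {a r : ℝ} {u : e.Y.M × ℝ → ℂ}
    (hu : GauOn e.Z.I u (univ ×ˢ ir b a)) (hr : a < r) : ∃ U, Gau e.Z.I U ∧
      (∀ x, pm b * x.2 ≤ r → U x = 1) ∧ ∀ x, r + 1 ≤ pm b * x.2 → U x = u x := by
  let β : ℝ → ℝ := fun t => Real.smoothTransition (pm b * t - r)
  have sβ : ContDiff ℝ ∞ β := Real.smoothTransition.contDiff.comp (by fun_prop)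
  have b0 : ∀ t, pm b * t ≤ r → β t = 0 := fun t h =>
    Real.smoothTransition.zero_of_nonpos (sub_nonpos.2 h)
  have l1 : ∀ t, pm b * r + β t * (t - pm b * r) ∈ ir b a := fun t => by
    show a < pm b * _
    rw [mul_add, mul_left_comm (pm b) (β t), mul_sub, pm_pm]
    rcases le_total (pm b * t) r with h | h
    · rw [b0 t h]; linarith
    · linarith [mul_nonneg (Real.smoothTransition.nonneg (pm b * t - r)) (sub_nonneg.2 h)]
  have sl : ContDiff ℝ ∞ fun t => pm b * r + β t * (t - pm b * r) := by fun_prop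
  have m : pm b * r ∈ ir b a := show a < _ by rwa [pm_pm]
  obtain ⟨χ, hχ, h⟩ := h1 (fun y => u (y, pm b * r)) ⟨fun y => (gau_at (isOpen_ir b a) hu
    (x := (y, _)) ⟨trivial, m⟩).comp y (contMDiffAt_id.prodMk contMDiffAt_const),
    fun y => hu.2 _ ⟨trivial, m⟩⟩
  refine ⟨fun x => u (x.1, pm b * r + β x.2 * (x.2 - pm b * r)) *
    Complex.exp (((β x.2 - 1) * χ x.1 : ℝ) * Complex.I), ⟨fun x => Wz78.SA.mul
      ((gau_at (isOpen_ir b a) hu (x := (x.1, _)) ⟨trivial, l1 _⟩).comp x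
        (contMDiffAt_fst.prodMk (sl.contMDiff.contMDiffAt.comp x contMDiffAt_snd)))
      (sa_exp (Wz78.SA.mul (sm_snd (sβ.sub contDiff_const) x) (sm_fst hχ x))), fun x => by
      rw [norm_mul, hu.2 _ ⟨trivial, l1 _⟩, Complex.norm_exp_ofReal_mul_I, one_mul]⟩,
    fun x hx => ?_, fun x hx => ?_⟩
  · simp [b0 _ hx, h, ← Complex.exp_add]
  · have : β x.2 = 1 := Real.smoothTransition.one_of_one_le (by linarith)
    simp [this]

variable (κ lam ν) in
/-- nondegeneracy is gauge invariant (`Cyc79.nd_eqv`) -/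
def NdE : Prop := ∀ (e : En3 κ lam ν) (v v' : e.YC), e.OK → e.cyl.Adm (fz v) → Eqv v v' → Nd v → Nd v'

/-- **the end of a bounded solution** -/
theorem half (hW : WinStmt κ lam ν) (hM : MonoStmt κ lam ν) (hC : Dec1 κ lam ν) (hN : NdE κ lam ν)
    (hg : g.OK) (h1 : ∀ u, Gau e.Y.I u → ∃ χ : e.Y.M → ℝ, Sm e.Y.I χ ∧
      ∀ y, u y = Complex.exp (χ y * Complex.I)) (M : ℝ) : ∃ η > 0,
    ∀ (W : Type) (T : W → Option e.YT) q c b a B, Sml T q 6 η →
      e.cyl.AdmOn c (univ ×ˢ ir b (a - 1)) → e.cyl.EqOn (pt T q) c (univ ×ˢ ir b a) →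
      Sup c (ir b a) M → Cl c (fz ⟨0, 0⟩) (ir b a) 1 B → ∀ (x : e.YC) (S : Set ℝ), IsClosed S →
      0 ∉ S → (∀ᶠ s in atTop, nm (sl c (pm b * s)) ∈ S) → Crit x →
      (∀ v, Crit v → nm v ∈ S → Eqv x v) → ∀ R, ∃ u, Gau e.Z.I u ∧ (∀ z, pm b * z.2 ≤ R → u z = 1) ∧
        ∀ᶠ R' in atTop, ∀ w, tz (e.cyl.act u c) x (ir b R') w ≠ ⊤ := by
  have H := hg.ok
  obtain ⟨η, h0, hη⟩ := fin_en hM hg M
  refine ⟨min η 1, by positivity, fun W T q c b a B hs hA hE hS hB x S s1 s2 s3 hx hq R => ?_⟩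
  have z : e.cyl.Adm (fz ⟨0, 0⟩) := ⟨Win39.sm_fz fun _ => contMDiff_const, contMDiff_const,
    fun i _ => by cases i <;> simp [fz, Nd18.ca], fun _ => map_zero _⟩
  have hA' := admOn_mono hA (prod_mono_right (ir_mono (b := b) (sub_le_self a zero_le_one)))
  obtain ⟨B₀, hB₀⟩ := isCompact_univ.exists_bound_of_continuousOn
    (Win39.cont_jt (sm_a z) (sm_Φ z)).continuousOn
  obtain ⟨C, hC'⟩ := L_bd H (B + B₀)
  obtain ⟨o, ho⟩ := ev_nr hW hg (sml_mono hs le_rfl (min_le_right _ _)) hA hE hS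
    (hη W T q c b a C (sml_mono hs (by norm_num) (min_le_left _ _)) hA hE hS fun t ht =>
      hC' _ (adm_sl (isOpen_ir b a) hA' ht) fun y => (norm_le_norm_sub_add _ _).trans
        (add_le_add (Win39.jt_cl (isOpen_ir b a) hA' z hB ht y) (hB₀ y trivial)))
  have ad : ∀ᶠ s in atTop, e.cyl.AdmOn c (univ ×ˢ win (pm b * s)) := (eventually_ge_atTop a).mono
    fun s k => admOn_mono hA (prod_mono_right ((iv_eq b _ 1).trans_subset (iv_sub_ir (by linarith))))
  have inv := hg.inv ⟨o⟩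
  have m : nm (g.pt o) ∈ S := s1.mem_of_tendsto (Metric.tendsto_nhds.2 fun ε hε => by
    obtain ⟨δ, d0, hδ⟩ := hW.lv e _ H inv (hg.crit o) _ (half_pos hε)
    filter_upwards [ho δ d0, ad] with s k k'
    exact (hδ c _ k' (nr_mono k one_le_two le_rfl) _ ⟨by linarith, by linarith⟩).2.1.trans_lt
      (half_lt_self hε)) s3
  have ev := hq _ (hg.crit o) m
  have eL : L (g.pt o) = L x := inv _ _ hx.1 ev
  have gd : En3.Gd x := ⟨hx, hN e _ _ H (hg.crit o).1 (eqv_symm H ev) (hg.nd o), by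
    by_contra! k
    rw [Pb50.Eqv.nm H ev] at m
    exact s2 (by simpa [nm, k] using m), inv, eL ▸ hg.S o, eL ▸ hg.flat o⟩
  obtain ⟨η₂, e2, p2⟩ := ex_small (dec_half hC H hg.w gd one_pos)
  obtain ⟨η₃, e3, p3⟩ := nr_eqv H (hg.crit o).1 hx.1 (eqv_symm H ev) 2 e2
  obtain ⟨a', p4⟩ := eventually_atTop.1 (((ho η₃ e3).and ad).and (eventually_ge_atTop a))
  have a1 := (p4 a' le_rfl).2
  obtain ⟨G, g1, -, g2⟩ := p2 W T q c b a' (admOn_mono hA (prod_mono_right (ir_mono (by linarith))))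
    (fun y hy => hE y (prod_mono_right (ir_mono a1) hy)) fun s k =>
      pm_pm b s ▸ p3 c _ (p4 _ k).1.2 (p4 _ k).1.1
  obtain ⟨U, u1, u2, u3⟩ := cut_end h1 g1 (show a' < max (a' + 3) R from
    lt_max_of_lt_left (by linarith))
  refine ⟨U, u1, fun z k => u2 z (k.trans (le_max_right _ _)),
    (eventually_ge_atTop (max (a' + 3) R + 1)).mono fun R' k w => ?_⟩
  rw [(ag_act (isOpen_ir b R') (fun y hy => u3 y (k.trans (le_of_lt hy.2))) c).tz (isOpen_ir b R')]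
  exact ne_top_of_le_ne_top (g2 w) (tz_mono _ _ (ir_mono (by linarith [le_max_left (a' + 3) R])) w)

theorem yt_sz (he : IsCompact e.S) (T : Option e.YT) (k : ℕ) : ∃ s, 0 ≤ s ∧ ∀ T' ∈ T, T'.Sz k s := by
  rcases T with _ | T
  · exact ⟨0, le_rfl, by simp⟩
  obtain ⟨C, hC⟩ := Cb_of_hcs (F := e.D.F.toPre) T.sf (.of_compactSpace _)
  have hc : HasCompactSupport T.b := .of_support_subset_isCompact he T.S
  have : ∀ j, ∃ B, ∀ r, ‖iteratedDeriv j T.b r‖ ≤ B := fun j =>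
    (T.sb.continuous_iteratedDeriv j (by exact_mod_cast le_top)).bounded_above_of_compact_support
      (iteratedDeriv_eq_equiv_comp (f := T.b) ▸ (hc.iteratedFDeriv j).comp_left (map_zero _))
  choose B hB using this
  refine ⟨(∑ j ∈ Finset.range (k + 1), |B j|) * |C k|, by positivity, fun T' hT j hj r w hw y => ?_⟩
  obtain rfl := Option.some.inj hT
  rw [show (fun y => iteratedDeriv j T.b r • T.fo y) = iteratedDeriv j T.b r • T.fo from rfl,
    Prm93.Dw_smul _ _ T.sf, Pi.smul_apply, norm_smul]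
  exact mul_le_mul (((hB j r).trans (le_abs_self _)).trans (Finset.single_le_sum
    (f := fun j => |B j|) (fun _ _ => abs_nonneg _) (Finset.mem_range_succ_iff.2 hj)))
    ((hC.2 k w hw y).trans (le_abs_self _)) (norm_nonneg _) (by positivity)

theorem cl_zero {X : Mf 4} {nc : ℕ} {B : Bg X.I X.M κ lam ν nc} (K : Nk e B) {c : Cfg X.M κ ν}
    (ha : ∀ i, B.F.Cb (c.a i)) (hΦ : B.F.Cb c.Φ) : ∃ C, Cl (K.pb c) (fz ⟨0, 0⟩) K.J 1 C := by
  choose C hC using ha
  obtain ⟨C', hC'⟩ := hΦ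
  obtain ⟨D, hD⟩ := Finite.exists_le fun i => C i 1
  refine ⟨max D (C' 1), fun w hw x hx => ⟨fun i => ?_, ?_⟩⟩
  · rw [show (K.pb c).a i - (fz ⟨0, 0⟩).a i = fun y => c.a i (K.ψ y) from funext fun y => by
      cases i <;> exact sub_zero _, ← Pb50.Dw_ψ K (K.mem_src.2 hx.2)]
    exact ((hC i).2 1 w hw _).trans ((hD i).trans (le_max_left _ _))
  · rw [show (K.pb c).Φ - (fz ⟨0, 0⟩).Φ = fun y => c.Φ (K.ψ y) from funext fun y => sub_zero _,
      ← Pb50.Dw_ψ K (K.mem_src.2 hx.2)]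
    exact (hC'.2 1 w hw _).trans (le_max_right _ _)

variable (e) in
/-- convergence in a gauge that is trivial below the height `R` -/
def Cg (c : e.ZC) (x : e.YC) (b : Bool) : Prop := ∀ R, ∃ u, Gau e.Z.I u ∧
  (∀ z, pm b * z.2 ≤ R → u z = 1) ∧ ∀ᶠ R' in atTop, ∀ w, tz (e.cyl.act u c) x (ir b R') w ≠ ⊤

theorem glue_as {X : Mf 4} {nc : ℕ} {N : Type} [Fintype N] {e : N → En3 κ lam ν} {P : Pz X nc e}
    (hP : P.OK) {β : BCs e} (hβ : P.Cr β) {c : Cfg X.M κ ν} (hc : P.bg.Adm c)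
    (h : ∀ i b, ∀ K ∈ P.nk i, K.Inf b → Cg (e i) (K.pb c) (β i b) b) :
    ∃ U, Gau X.I U ∧ P.As β (P.bg.act U c) := by
  have a : ∀ i, ∀ K ∈ P.nk i, a0 K ≤ ∑ i, (P.nk i).elim 0 a0 := fun i K hK => le_trans
    (by rw [Option.mem_def.1 hK]; rfl) (Finset.single_le_sum (f := fun i => (P.nk i).elim 0 a0)
      (fun i _ => by cases P.nk i; exacts [le_rfl, a0_nonneg _]) (Finset.mem_univ i))
  obtain ⟨U, u1, -, u2⟩ := glue hP (R := ∑ i, (P.nk i).elim 0 a0) (lt_add_one _) (w := fun _ => 1)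
    ⟨contMDiff_const, fun _ => norm_one⟩ (Q := fun i b K u => ∀ᶠ R' in atTop, ∀ w,
      tz ((e i).cyl.act u (K.pb c)) (β i b) (ir b R') w ≠ ⊤) fun i b K k1 k2 =>
    let ⟨u, j1, j2, j3⟩ := h i b K k1 k2 _
    ⟨a i K k1, u, gauOn_of j1 _, fun y hy => j2 y hy.2.2.le, j3⟩
  have A := Pb50.adm_of fun x => (Pb50.LA.of_adm hc x).act hP.bg (u1.1 x)
  refine ⟨U, u1, A, fun i b K k1 k2 => ?_⟩
  obtain ⟨u, j1, j2⟩ := u2 i b K k1 k2
  obtain ⟨R, j3, j4⟩ := (j2.and (eventually_ge_atTop (∑ i, (P.nk i).elim 0 a0))).exists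
  have j5 := (a i K k1).trans j4
  refine asy_of _ k2 j5 (hβ i b ⟨K, k1, k2⟩).1 (Pb50.admOn_pb _ A) fun w => ?_
  rw [(Ag.trans (fun y hy => Pb50.pb_act _ (K.mem_src.2 (ir_J _ k2 j5 hy.2)) U c)
    (ag_act (isOpen_ir b R) (fun y hy => j1 y ⟨trivial, ir_mono j4 hy.2⟩) _)).tz (isOpen_ir b R)]
  exact j3 w

theorem eq_end {X : Mf 4} {nc : ℕ} {d : Dt κ lam ν} {N : Type} [Fintype N] {ty : N → d.𝓔}
    {P : Pc d X nc ty} (hP : P.OK) {q : d.W →₀ ℝ} {c : Cfg X.M κ ν} (hc : P.bg.Sol (P.pt q) c) {i : N}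
    {K : Nk (d.e (ty i)) P.bg} (hK : K ∈ P.nk i) {b : Bool} (hb : K.Inf b)
    (fo : ∀ v, ∀ᶠ a in atTop, ∀ y ∈ univ ×ˢ ir b a, P.fo v (K.ψ y) = 0) : ∃ a, ir b (a - 1) ⊆ K.J ∧
      (d.e (ty i)).cyl.EqOn (pt (fun v => d.yt v (ty i)) q) (K.pb c) (univ ×ˢ ir b a) := by
  obtain ⟨a, a1, a2⟩ := (((eventually_all_finset q.support).2 fun v _ => fo v).and
    (eventually_ge_atTop (a0 K + 2))).exists
  refine ⟨a, ir_J _ hb (by linarith), fun y hy => ?_⟩
  have hd := ir_deep _ hb a2 hy.2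
  have hs := K.mem_src.2 (Pb50.deep_J _ two_pos hd)
  obtain ⟨h1, h2⟩ := Pb50.pt_ψ hP.toOK q c hK hd fun v hv => a1 v hv y hy
  exact ⟨(Pb50.eD_ψ _ hs c).symm.trans ((hc.eq _ trivial).1.trans h1),
    (Pb50.eC_ψ _ hs c).symm.trans ((hc.eq _ trivial).2.trans h2)⟩

/-- **RAD-END** -/
theorem endStmt (hW : WinStmt κ lam ν) (hM : MonoStmt κ lam ν) (hC : Dec1 κ lam ν)
    (hN : NdE κ lam ν) : Rad94.EndStmt κ lam ν := by
  intro X nc k e Z z ϖ φ Dm w β W L hz l η M lo h0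
  choose δ d0 hδ using fun s => half hW hM hC hN (L.gok s) (hz.en s).h1.lg M
  choose r r0 hr using fun s v => yt_sz (L.gok s).ok.S (L.yt v s) 6
  refine ⟨fun v => ∑ s, r s v / δ s, fun q hq x hx hu t ht c hc ha hΦ hM hl => ?_⟩
  have hP := L.ok t ht
  have hF : (L.P t).bg.F = Z.bg.F := by rw [L.bg t ht]
  have sm : ∀ s, Sml (fun v => L.yt v s) q 6 (δ s) := fun s => ⟨r s, by
    rw [← div_le_one (d0 s), Finsupp.sum, Finset.sum_div]
    refine le_trans (Finset.sum_le_sum fun v _ => ?_) hq.le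
    rw [mul_div_assoc]
    exact mul_le_mul_of_nonneg_left (Finset.single_le_sum (f := fun s => r s v / δ s)
      (fun s _ => div_nonneg (r0 s v) (d0 s).le) (Finset.mem_univ s)) (abs_nonneg _),
    fun v _ => ⟨r0 s v, hr s v⟩⟩
  choose K hK kn using L.ng t ht
  have kψ : ∀ s, (K s).ψ = (z.K s).ψ := fun s => congrArg (·.2.2.1) (kn s)
  have kt : ∀ s, (K s).tm = (z.K s).tm := fun s => congrArg (·.2.2.2) (kn s)
  have inf : ∀ s b, ∀ K' ∈ (L.P t).nk s, K'.Inf b → K' = K s ∧ s = b := fun s b K' k h => by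
    obtain rfl := Option.mem_unique (hK s) k
    have p : (K s).p = _ := (congrArg (·.1) (kn s)).trans (z.hp s)
    have q : (K s).q = _ := (congrArg (·.2.1) (kn s)).trans (z.hq s)
    refine ⟨rfl, ?_⟩
    cases s <;> cases b
    exacts [rfl, (Option.some_ne_none _ (q.symm.trans h)).elim,
      (Option.some_ne_none _ (p.symm.trans h)).elim, rfl]
  have n2 : ∀ s τ, z.gm.n2 s c.Φ (τ + (pm s * -z.o s - 1)) = nm (sl ((K s).pb c) (pm s * τ)) :=
    fun s τ => by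
      have : z.gm.tt s (τ + (pm s * -z.o s - 1)) = pm s * τ := by
        show z.o s + pm s * _ = _
        linear_combination pm_pm s (-z.o s)
      simp only [Rad94.Gm.n2, Rad94.Gm.pt, nm, sl, Cfg.pb, kψ, this]
      rfl
  obtain ⟨U, u1, u2⟩ := glue_as hP.toOK (β := x) (fun s b ⟨K', k1, k2⟩ => (inf s b K' k1 k2).2 ▸ hx s)
    hc.toAdm fun b s K' k1 k2 => by
    obtain ⟨rfl, rfl⟩ := inf b s K' k1 k2
    obtain ⟨B, hB⟩ := cl_zero (K b) (c := c) (hF ▸ ha.2) (hF ▸ hΦ)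
    obtain ⟨a, a1, a2⟩ := eq_end hP hc k1 k2 fun v => by
      obtain ⟨T, hT⟩ := (L.fo v).2.1
      filter_upwards [eventually_ge_atTop (a0 (K b)), eventually_ge_atTop (T + 1 + pm b * z.o b)]
        with a a1 a2 y hy
      refine hT t ht _ fun j => (j b).not_gt ?_
      show T < pm b * ((z.K b).tm _ - z.o b) - 1
      rw [← kt, (K b).tm_ψ y ((K b).mem_src.2 (ir_J _ k2 a1 hy.2))]
      linarith [mem_ofPred.1 hy.2]
    exact hδ b W _ q _ b a B (sm b) (admOn_mono (Pb50.admOn_pb _ hc.toAdm) (prod_mono_right a1)) a2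
      (fun _ _ => hM _) (cl_mono hB ((ir_mono (sub_le_self a zero_le_one)).trans a1) le_rfl le_rfl)
      (x b b) {r | |β b r - l b| ≤ η ∧ lo ≤ r} ((isClosed_le
        (((L.gok b).ok.sb.continuous.sub continuous_const).abs) continuous_const).inter isClosed_Ici)
      (fun j => h0.not_ge j.2) (((tendsto_atTop_add_const_right _ (pm b * -z.o b - 1)
        tendsto_id).eventually (hl b)).mono fun s j => n2 b s ▸ j) (hx b) fun v hv j => hu b v hv j.1
  refine ⟨U, u1, ⟨u2, ?_⟩, sol_act hP hc u1⟩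
  by_contra! j
  obtain ⟨τ, hτ⟩ := (hl true).exists
  refine h0.not_ge (hτ.2.trans_eq ?_)
  have : ∀ p, ‖c.Φ p‖ = 0 := fun p => (Pb50.norm_act hP.bg (u1.2 p)).symm.trans (by rw [j, norm_zero])
  simp [Rad94.Gm.n2, this]

end Crest.Agent.X212.Mcg32.En
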