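import Crest.Agent.X212.Sw87.MoP
import Crest.Agent.X212.Geo28.As5

/-!
# Row 212, GEO engine (helper32): points on the pieces of a pentagon
-/

set_option autoImplicit false
set_option linter.unusedSectionVars false
noncomputable section
open scoped Manifold ContDiff Topology InnerProductSpace
open MeasureTheory Set Function Filter

namespace Crest.Agent.X212.Mcg32.Pp
open An Cyf70 Sw Flo2 Geo28 Met55 Pen22 Sw87 Sw87.Mo Sw87.Mo.Ends
open Bor5.T (O3 Q3 Pb Cur)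
open Dr59 (Cs Cl pm mf)

variable {X : M4} {τ : MT κ0 X} {mk : Mk κ0 L0 ν0} {𝓔 : Ends mk}

/-- the band has an end with the property `p` for the class `d` -/
def Dt (b : NB κ0 X) (d : X.L) (p : TY → Prop) : Prop :=
  ∃ (ec : EC ν0 b.e.eg) (c : ec.L) (s : b.e.A.L), StdT ⟨⟨_, ec⟩, c⟩ ∧ ERp b.e (ec.m c) s ∧
    b.n.Cl d s ∧ Gau b.e.A.Y.I ec.u ∧ p ⟨⟨_, ec⟩, c⟩

theorem exD (H : Lf) {β : MB τ 0} (hβ : ∀ i, (τ.nb i).Rl (β.e 0) 2 (3 / 4)) {d : X.L}
    {p : τ.N → TY → Prop} (h : ∀ i, Dt (τ.nb i) d (p i)) {f : X.Fm} (hf : Cs X.I 2 univ f)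
    (z : τ.Z f) : ∃ c : MC μ0 β, c.Cl d ∧ (∀ t, c.fo t = f) ∧ c.mc = 0 ∧ ∀ i, p i (c.ty i) := by
  choose ec cl s h1 h2 h3 h4 h5 using h
  obtain ⟨M, hM, -⟩ := H.em β ec cl s d hβ h1 h2 h3 h4 none
  obtain ⟨c, k0, k1, k2, -⟩ := H.cst β (M 0) f (hM 0).2.2.on hf fun i a =>
    z i (a.resolve_right fun ⟨a, _⟩ => a.elim0)
  have hM := k0 ▸ hM 0
  exact ⟨c, hM.2.2, k1, k2, fun i => hM.2.1 i ▸ h5 i⟩

theorem dt_q {s a n} {b : NB κ0 X} (h : (𝓔.go a).nb s n = some b) :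
    b.e.Sp ∧ ∀ d, Dt b d fun T => 𝓔.QL b T d :=
  let ⟨ec, q⟩ := qe_of h
  ⟨q.sp.1, fun d => let ⟨c, s, h1, h2, h3, h4⟩ := q.cl d; ⟨ec, c, s, h1, h2, h3, q.sp.2.2.1, h4⟩⟩

theorem prt {N : Type} {nb : N → NB κ0 X} {ty : N → TY} {d : X.L} {p : Option N}
    (h : ∀ i ∈ p, 𝓔.QL (nb i) (ty i) d) {s G} {S : Set Q3} : ∀ {a : Option Q3} {n},
    p.map nb = (𝓔.go a).nb s n → (∀ A ∈ a, A ∈ S) → (∀ i ∈ p, ty i ∈ 𝓔.TT G S) ∧
      ∃ l, p.map ty = (𝓔.en a).ty l ∧ ∀ c, n.Cl d c → 𝓔.Lab a c l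
  | none, _, e, _ => by
    cases Option.map_eq_none_iff.1 e
    exact ⟨nofun, (), rfl, fun _ _ => trivial⟩
  | some A, n, e, m => by
    obtain ⟨i, rfl, k⟩ := Option.map_eq_some_iff.1 e
    obtain ⟨c, h1, h2⟩ := (k ▸ h i rfl).at
    exact ⟨by rintro _ ⟨⟩; exact .inl ⟨A, m A rfl, _, h1⟩, _, congrArg some h1,
      fun c' h' => congrArg _ ((jk_cl n d).unique h2 h')⟩

theorem fin_half {I J : Type} {η : J → X.Fm} (h : (range η).Finite) {f : I → X.Fm} {d : I → J}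
    (e : ∀ i, f i = (1 / 2 : ℝ) • η (d i)) : (⋃ i, {f i}).Finite :=
  (h.image fun g => (1 / 2 : ℝ) • g).subset (iUnion_subset fun i _ k =>
    ⟨_, ⟨d i, rfl⟩, ((mem_singleton_iff.1 k).trans (e i)).symm⟩)

theorem ps_half {d : X.L} {η f : X.Fm} (e : f = (1 / 2 : ℝ) • η) (h : X.Ps d η) :
    ∀ g ∈ convexHull ℝ {f}, X.Ps d ((2 : ℝ) • g) := fun g k => by
  rw [convexHull_singleton] at k
  rwa [k, e, two_half]

/-- **P-PP** -/
theorem pp : PpStmt mk := fun g 𝓔 G S a b T I η fS ha hb n fo fin ps => by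
  obtain ⟨τ, β, -, o, e, hβ, -⟩ := exS (𝓔 := 𝓔) g.lf (x := none) T
  have p3 := Option.map_eq_none_iff.1 o.p3
  have pt : ∀ j, τ.pin = some j ∨ τ.pout = some j := fun j =>
    (τ.port (e j)).imp_right fun k => k.resolve_right (p3 ▸ nofun)
  choose c h2 h3 h4 h5 using fun i : I => exD g.lf hβ (d := i) (p := fun j T => 𝓔.QL (τ.nb j) T i)
    (fun j => (pt j).elim (fun k => (dt_q (o.pin.symm.trans (congrArg _ k))).2 _)
      fun k => (dt_q (o.pout.symm.trans (congrArg _ k))).2 _)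
    (((fo i).mono (subset_univ _)).smul (1 / 2)) (o.toOnP.z ((fo i).smul _))
  choose m1 s hs ls using fun i => prt (G := G) (fun j _ => h5 i j) o.pin ha
  choose m2 t ht lt using fun i => prt (G := G) (fun j _ => h5 i j) o.pout hb
  obtain ⟨⟨_, C, ro⟩, rfl⟩ := g.fm (F := ⟨c, Subtype.val, h2, h4, fun i j => (pt j).elim (m1 i j) (m2 i j)⟩)
    (fun i => {(c i).fo 0}) (g.ts 𝓔 G S fS) zero_le_two (o.nc.trans n) (fun _ => rfl)
    (fun i j _ => (h5 i j).ok.2) (.inl fun i j _ => (h5 i j).ok.2) (fun _ a => a.elim0)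
    (fun _ _ k => nomatch p3.symm.trans k) (fin_half fin fun i => h3 i 0) (fun i => hl0 _) fun k i =>
      ⟨ps_half (h3 i 0) (ps (go_none ((congrArg _ k).symm.trans o.pin)) _ i.2),
        fun j _ k => nomatch k.symm.trans (h5 i j).ok.2⟩
  exact ⟨⟨τ, o, e, β, ⟨⟨_, C, ro⟩, s, t, fun _ => (), hs, ht, fun _ => congrArg _ p3⟩, fun _ => rfl, h3,
    fun i => ⟨ls i, lt i⟩, g.prp T _ o.toOnP (fun a => a.elim0) Subtype.val_injective⟩⟩

theorem zf_smul {b : NB κ0 X} {f : X.Fm} {r : ℝ} (h : b.Zf f r) (c : ℝ) : b.Zf (c • f) (c * r) :=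
  fun x hx a a' => by
    have := h x hx a a'
    rw [Dr59.pm_smul, Int54.cf, Pi.smul_apply, map_smul, AlternatingMap.smul_apply, smul_eq_mul]
    rw [Int54.cf] at this
    rw [this, mul_ite, mul_zero, mul_assoc]

/-- the lift at the third port -/
theorem lift (H : Lf) {a b : Option O3} {R : O3} {T : Pm a b (some R)} {τ : MT κ0 T.X} {ga gb gx}
    (o : OnP T τ ga gb gx) (h2 : gx.et.H2)
    (ex : Ext2 (A := R) T.k3 {p | T.ki.tm p < 0 ∨ 0 < T.ko.tm p}) (β : MB τ 0)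
    (sm : ∀ i, Sm (τ.nb i).e.A.Y.I (τ.nb i).e.ζ) {j} (hj : τ.p3 = some j) (ens : Ens μ0 τ) (C) :
    ∃ e : (β.bs ens C).Tf, e.r j = 1 := by
  obtain ⟨e, h1, h0, hx⟩ := ex
  have ej : τ.nb j = _ := Option.some.inj ((congrArg _ hj).symm.trans o.p3)
  obtain ⟨f, r, k1, k2, k3, k4, -⟩ := H.nrm (τ.nb j) e (ej ▸ h2) h1
  have r0 : r ≠ 0 := fun k => hx (by have := k4 k; rw [ej] at this; exact this)
  obtain ⟨e', k, -⟩ := H.tf.ex β ens C (r⁻¹ • f) (fun i => if i = j then 1 else 0) (k1.smul _) sm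
    fun i m => by
      rcases eq_or_ne i j with rfl | ne
      · rw [if_pos rfl, ← inv_mul_cancel₀ r0]
        exact zf_smul k2 _
      rw [if_neg ne]
      refine (NB.zf_zero _).congr fun x hx => ?_
      have u := NB.U_sub _ zero_le_one hx
      rw [Pi.smul_apply, k3 x fun m => disjoint_left.1 (τ.dj ne) u (NB.U_sub _ half_le m), h0, smul_zero]
      · rfl
      rcases τ.port (m.resolve_right fun ⟨a, _⟩ => a.elim0) with k | k | k
      · obtain ⟨h1, h2, -⟩ := EO.mem (o.pin.symm.trans (congrArg _ k))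
        exact .inl (h2 ▸ (NB.mem_tgt h1).1 u)
      · obtain ⟨h1, h2, -⟩ := EO.mem (o.pout.symm.trans (congrArg _ k))
        exact .inr (h2 ▸ (NB.mem_tgt h1).1 u)
      · exact (ne (Option.some.inj (k.symm.trans hj))).elim
  exact ⟨e', (congrFun k j).trans (if_pos rfl)⟩

/-- **P-LP** -/
theorem lp : LpStmt mk := fun g 𝓔 G a B C P => by
  have H := g.lf
  obtain ⟨τ, ι, o, -, sj⟩ := exists_mt P.L (𝓔.go a) (𝓔.go a) (𝓔.r G).g (go_std a) (go_std a) (𝓔.r G).std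
    (I := Empty) nofun nofun nofun nofun nofun nofun
  have e : ∀ i, (τ.nb i).s ≠ none := fun i k => (sj i k).choose.elim
  obtain ⟨j, hj, ej⟩ := Option.map_eq_some_iff.1 o.p3
  have pt : ∀ i ≠ j, τ.pin = some i ∨ τ.pout = some i := fun i ne =>
    (τ.port (e i)).imp_right fun k => k.resolve_right fun k => ne (Option.some.inj (k.symm.trans hj))
  have q : ∀ i ≠ j, (τ.nb i).e.Sp ∧ ∀ d, Dt (τ.nb i) d fun T => 𝓔.QL (τ.nb i) T d := fun i ne =>
    (pt i ne).elim (fun k => dt_q (o.pin.symm.trans (congrArg _ k)))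
      fun k => dt_q (o.pout.symm.trans (congrArg _ k))
  have n1 : ∀ i ∈ τ.pin, i ≠ j := fun i k x => by
    subst x
    exact nomatch ((τ.inn i).2 k).symm.trans ((τ.out i).2 (.inr hj))
  have n2 : ∀ i ∈ τ.pout, i ≠ j := fun i k x => τ.ne3 j hj (x ▸ k)
  obtain ⟨β, hβ⟩ := H.site τ fun i => by
    rcases eq_or_ne i j with rfl | ne
    exacts [ej ▸ (𝓔.r G).sp, (q i ne).1]
  choose c h2 h3 h4 h5 using fun s (l : LS P s) => exD H hβ (d := l)
    (p := fun i T => (i = j → T = 𝓔.rty G s) ∧ (i ≠ j → 𝓔.QL (τ.nb i) T l)) (fun i => by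
      rcases eq_or_ne i j with rfl | ne
      · rw [ej]
        exact ⟨_, _, s, (𝓔.r G).sty s, (𝓔.r G).rp s, l.2.1, ((𝓔.r G).ok s).u, fun _ => rfl,
          fun k => (k rfl).elim⟩
      · obtain ⟨ec, c, s, k1, k2, k3, k4, k5⟩ := (q i ne).2 l
        exact ⟨ec, c, s, k1, k2, k3, k4, fun k => (ne k).elim, fun _ => k5⟩)
    (((P.fo.2.2.2 l).mono (subset_univ _)).smul (1 / 2)) (o.toOnP.z ((P.fo.2.2.2 l).smul _))
  have ha : ∀ A ∈ a, A ∈ {A | A = B ∨ A = C ∨ a = some A} := fun _ k => .inr (.inr k)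
  choose m1 s hs ls using fun s l => prt (G := G) (fun i k => (h5 s l i).2 (n1 i k)) o.pin ha
  choose m2 t ht lt using fun s l => prt (G := G) (fun i k => (h5 s l i).2 (n2 i k)) o.pout ha
  choose R hR using fun s => g.fm (F := ⟨c s, Subtype.val, h2 s, h4 s, fun l i =>
      (eq_or_ne i j).elim (fun k => .inr ⟨s, (h5 s l i).1 k⟩) fun k => (pt i k).elim (m1 s l i) (m2 s l i)⟩)
    (fun l => {(c s l).fo 0}) (g.ts 𝓔 G _ (tp_fin a B C)) zero_le_two (o.nc.trans P.gN.nL) (fun _ => rfl)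
    (fun l i k => ((h5 s l i).2 (n2 i k)).ok.2) (.inl fun l i k => ((h5 s l i).2 (n1 i k)).ok.2)
    (fun _ a => a.elim0)
    (fun l i k _ => lift H o.toOnP (𝓔.r G).h2 P.ext β (fun i => ((c s l).std i).ok.sζ) k)
    (fin_half P.fin.2.2.2 fun l => h3 s l 0) (fun l => hl0 _) fun k l => by
      have a0 := go_none ((congrArg _ k).symm.trans o.pin)
      refine ⟨ps_half (h3 s l 0) (P.pL a0 _ (l.2.2 a0)), fun i _ k => ?_⟩
      rcases eq_or_ne i j with rfl | ne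
      · rw [ej]
        exact ⟨G.c0, P.clL _ (l.2.2 a0), G.tor⟩
      · exact nomatch k.symm.trans ((h5 s l i).2 ne).ok.2
  have hc : ∀ s, (R s).c = c s := fun s => congrArg FM.c (hR s)
  have hd : ∀ s, (R s).d = Subtype.val := fun s => congrArg FM.d (hR s)
  exact ⟨⟨τ, o, β, fun s' => ⟨R s', s s', t s', fun _ => (𝓔.r G).cl s', hc s' ▸ hs s', hc s' ▸ ht s',
    hc s' ▸ fun l => (congrArg _ hj).trans (congrArg some ((h5 s' l j).1 rfl))⟩,
    fun s l => congrFun (hd s) l, fun s l u => (congrArg (fun c => (c l).fo u) (hc s)).trans (h3 s l u),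
    fun s l => by
      simp only [hd]; exact ⟨ls s l, lt s l⟩, fun _ _ => rfl⟩⟩

end Crest.Agent.X212.Mcg32.Pp
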