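import Crest.Agent.X212.Spl54.Lv
import Crest.Agent.X212.Spl54.Fr
import Crest.Agent.X212.Nk89.Frd

/-!
# Row 212, SPL-EX (helper32): the index of a part is the sum of the indices of its pieces
-/

set_option autoImplicit false
set_option linter.unusedSectionVars false
noncomputable section
open scoped Manifold ContDiff Topology
open MeasureTheory Set Function Filter

namespace Crest.Agent.X212.Mcg32.Spx
open An M Nd18 Mod61 Nk89 Cht98 Rf65 Rdc90 Add46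

variable {Wi : Type} {X : Mf 4} {A κ lam : Type} [Fintype A] [Fintype κ] [Fintype lam]
  [DecidableEq lam] {M : Mark X A κ} {W : World M} {N : ML M lam} {Λ : Lns W N}
  {A' h : Type} [Fintype A'] [DecidableEq A'] [Fintype h] {r n : ℕ}
  {J : Job Wi Λ A' h r n} {c : M.Cl} {P P' Q : Set (Reg A)} {δ : ℝ} {y : J.Obc c}

theorem go_mono (g : Go δ y P) (s : Q ⊆ P) : Go δ y Q :=
  have e : EdP c Q ⊆ EdP c P := fun _ ⟨π, a, b⟩ => ⟨π, s a, b⟩
  ⟨g.br, g.O, g.adm, fun i k => g.bs i (e k), fun i k => g.lim i (e k),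
    g.int.mono_set (biUnion_subset_biUnion_left s)⟩

variable (hJ : J.OK) (h0 : 0 < δ) (h1 : δ ≤ dl0)
include hJ h0 h1

/-- existence of the index -/
theorem exI (hN : PJ J c) (hF : ∀ a ∈ cylW c, ∀ β f, Bs (J.xs a).D β →
      Fz κ (lam ⊕ lam) 8 (jX J a) f β δ) (hP : ∀ π ∈ P, M.sys.Piece c.1 π) (hs : P' ⊆ P)
    (g : Go δ y P) : ∃ d, Ix δ y P P' d := by
  let G := jGR hJ hP hs g.bp h0 h1
  have ac : ∀ a, G.X.Act a → ∃ i : EdP c P, i.1 = a := fun a ha =>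
    (G.f.surjective ⟨a, ha⟩).imp fun _ k => congrArg Subtype.val k
  obtain ⟨o, R, x, w, k1, k2, -, k4, k5, -⟩ := Pnt66.pnt G.X (t := (0 : T0)) (c := y.x.con)
    (β := fun i : Ed c => y.β i.1 i.2) (η := fun _ => 0) (l := fun _ => 0) (ζ := fun _ => 1) g.O g.adm
    (fun _ _ => rfl) fun a ha => by
      obtain ⟨i, rfl⟩ := ac a ha
      refine ⟨(g.bs _ i.2).adm, Pnt66.fo_zero, ?_⟩
      have := g.lim i.1 i.2 (act g.bp i.1)
      rw [← Rd78.bh_zero (y.β i.1.1 i.1.2)] at this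
      rw [smul_zero]
      obtain ⟨⟨_, _ | _⟩, _⟩ := i <;> exact this
  have z := k5 fun a ha => by
    obtain ⟨i, rfl⟩ := ac a ha
    exact (g.bs _ i.2).zr
  have C := jCh hJ hP hs h0 h1 g (fun a k => (hN.nil a k).1) (fun i k f => hF _ i.1.2 _ f (g.bs i k))
    (x := x) k1.le k1.lit z ⟨w, 1, k4⟩
  obtain ⟨d, hd⟩ := (Ends.fred G.X o R 0 0 0 8 _ (by norm_num) C.lit C.aff x fun a ha => by
    obtain ⟨i, rfl⟩ := ac a ha
    rw [k2]
    exact fun h h' => ⟨_, C.loc i h h'⟩).1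
  exact ⟨d, g.bp, o, R, x, rfl, k1.le, k1.lit, z, ⟨w, 1, k4⟩, hd⟩

/-- additivity -/
theorem add (hA : Spl54.AddStmt) {Q₁ Q₁' Q₂ Q₂' : Set (Reg A)} (hP : ∀ π ∈ P, M.sys.Piece c.1 π)
    (e : P = Q₁ ∪ Q₂) (e' : P' = Q₁' ∪ Q₂') (s₁ : Q₁' ⊆ Q₁) (s₂ : Q₂' ⊆ Q₂) (dj : Disjoint Q₁ Q₂)
    (g : Go δ y P) {d d₁ d₂ : ℤ} (k : Ix δ y P P' d) (k₁ : Ix δ y Q₁ Q₁' d₁) (k₂ : Ix δ y Q₂ Q₂' d₂) :
    d = d₁ + d₂ := by
  subst e e'
  obtain ⟨⟨s, br, hO⟩, o, R, x, rfl, -, -, -, p, k⟩ := k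
  obtain ⟨⟨s₁, br₁, hO₁⟩, o₁, R₁, x₁, rfl, -, -, -, p₁, k₁⟩ := k₁
  obtain ⟨⟨s₂, br₂, hO₂⟩, o₂, R₂, x₂, rfl, -, -, -, p₂, k₂⟩ := k₂
  have a₁ := fun π k => hP π (.inl k)
  have a₂ := fun π k => hP π (.inr k)
  refine hA _ _ _ _ (g.bp.Fm (Q₁ ∪ Q₂) (Q₁' ∪ Q₂') (fun _ : T0 => y.s) δ) (W.un c Q₁) (W.un c Q₁')
    (W.un c Q₂) (W.un c Q₂') o o₁ o₂ 0 0 0 8 y.x.con x x₁ x₂ d d₁ d₂ (by norm_num)
    (jGR hJ hP (union_subset_union s₁ s₂) g.bp h0 h1).X.ok (jGR hJ a₁ s₁ g.bp h0 h1).X.ok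
    (jGR hJ a₂ s₂ g.bp h0 h1).X.ok (biUnion_union _ _ _) (biUnion_union _ _ _)
    (disjoint_left.2 fun z u v => ?_) (Subsingleton.elim _ _) (Subsingleton.elim _ _) g.adm p p₁ p₂ k k₁ k₂
  obtain ⟨π, u1, u2⟩ := mem_un.1 u
  obtain ⟨π', v1, v2⟩ := mem_un.1 v
  cases Cyl58.pc_unique W.toCaps (a₁ π u1) (a₂ π' v1) u2 v2
  exact disjoint_left.1 dj u1 v1

/-- uniqueness of the index -/
theorem uq (hA : Spl54.AddStmt) (hE : ∀ P P', (∀ π ∈ P, M.sys.Piece c.1 π) → P' ⊆ P → Go δ y P →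
    ∃ d, Ix δ y P P' d) (P : Set (Reg A)) : ∀ P', (∀ π ∈ P, M.sys.Piece c.1 π) → P' ⊆ P → Go δ y P →
      ∀ d, Ix δ y P P' d → d = ix δ y P P' := by
  induction P, toFinite P using Set.Finite.induction_on with
  | empty =>
    intro P' hP hs g d k
    cases subset_empty_iff.1 hs
    have := add hJ h0 h1 hA hP (union_empty _).symm (union_empty _).symm hs hs (empty_disjoint _) g k k k
    simp only [ix, finsum_mem_empty]
    omega
  | @insert π Q hπ fQ ih =>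
    intro P' hP hs g d k
    have s₁ : {π} ⊆ insert π Q := singleton_subset_iff.2 (mem_insert _ _)
    have s₂ := subset_insert π Q
    have s₃ : P' \ {π} ⊆ Q := sdiff_subset_iff.2 hs
    obtain ⟨d₂, k₂⟩ := hE Q _ (fun ρ m => hP ρ (s₂ m)) s₃ (go_mono g s₂)
    have e₂ := ih _ (fun ρ m => hP ρ (s₂ m)) s₃ (go_mono g s₂) _ k₂
    have sp := fun P' hs => Classical.epsilon_spec (hE {π} P' (fun ρ m => hP ρ (s₁ m)) hs (go_mono g s₁))
    rw [ix] at e₂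
    rw [ix, finsum_mem_insert _ hπ fQ]
    by_cases m : π ∈ P'
    · have e : P' = {π} ∪ P' \ {π} := (union_sdiff_cancel (singleton_subset_iff.2 m)).symm
      have := add hJ h0 h1 hA hP rfl e subset_rfl s₃ (disjoint_singleton_left.2 hπ) g k (sp _ subset_rfl) k₂
      rw [e, singleton_union, finsum_mem_insert _ (fun k => k.2 rfl) (toFinite _), idr]
      omega
    · have e : P' \ {π} = P' := sdiff_singleton_eq_self m
      have := add hJ h0 h1 hA hP rfl (e.symm.trans (empty_union _).symm) (empty_subset _) s₃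
        (disjoint_singleton_left.2 hπ) g k (sp _ (empty_subset _)) k₂
      rw [e] at e₂
      rw [ia]
      omega

omit hJ h0 h1 in
variable (J c) in
/-- **LEAF SPL-EX** -/
theorem ex (hA : Spl54.AddStmt) : Spl54.ExStmt J c := fun hJ hN =>
  let ⟨δ₀, h0, h1⟩ := Spl54.exists_fz J c hJ hN
  ⟨δ₀, h0, fun δ hδ _ P P' hP hs g =>
    have E := fun P P' hP hs g => exI (P := P) (P' := P') hJ hδ.1 (h1 δ hδ).1 hN (h1 δ hδ).2.2 hP hs g
    let ⟨d, k⟩ := E P P' hP hs g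
    uq hJ hδ.1 (h1 δ hδ).1 hA E P P' hP hs g d k ▸ k⟩

end Crest.Agent.X212.Mcg32.Spx
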