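import Crest.Agent.X212.Ect9.Trf
import Crest.Agent.X212.Map44.Crit

/-!
# Row 212, EC-TREE (helper32): induction over trees of faces
-/

set_option autoImplicit false
set_option linter.unusedSectionVars false
noncomputable section
open scoped Manifold ContDiff Topology InnerProductSpace
open MeasureTheory Set Function Filter

namespace Crest.Agent.X212.Mcg32.Tre
open An Cyf70 Sw End23 Sw.En3 Pb50 Ect9
open Nd18 (Jv)
open M (Mf pm)
open Cut71 (mem_img tm_tgt At)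
open Flo2 (Gc Tr Mk Tk)
open Sw88 (mem_deep nm_nonneg)

variable {κ lam ν : Type} [Fintype κ] [Fintype lam] [Fintype ν] [DecidableEq ν]
  {X X₁ X₂ : Mf 4} {nc nc₁ nc₂ : ℕ} {L η : ℝ}

section nk
variable {b : Bg X.I X.M κ lam ν nc} {b₁ : Bg X₁.I X₁.M κ lam ν nc₁} {e e₁ : En3 κ lam ν}
  {l : OpenPartialHomeomorph X₁.M X.M} {δ a : ℝ}

theorem ct_J {K : Nk e b} (h : Ct K L a) {t : ℝ} (h1 : a < t) (h2 : t < a + L + 2) : t ∈ K.J :=
  ⟨fun _ k => by cases h.1.symm.trans k; exact h1, fun r k => h2.trans_le (h.2 r k)⟩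

theorem hl_zero (K : Nk e b) (c : Cfg X.M κ ν) {x : X.M}
    (h : (∃ a, K.p = some a ∧ K.q = some (a + 2)) ∨ x ∉ K.ψ.target) : K.hl c x = 0 := by
  rw [Nk.hl, Nd18.Nk.ext, h.elim (fun k => Cut71.χ_zero' K (Cut71.off_deep K le_rfl k _))
    fun k => K.χ_zero (off K k), zero_smul, smul_zero]

/-- the neck `K₁` maps to the neck `K` with the shift `δ` -/
structure Rl (K : Nk e b) (K₁ : Nk e₁ b₁) (l : OpenPartialHomeomorph X₁.M X.M) (δ : ℝ) : Prop where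
  tm : ∀ x, K₁.tm x ∈ K₁.J → K₁.tm x + δ ∈ K.J → x ∈ l.source ∧ K.tm (l x) = K₁.tm x + δ ∧
    (K₁.cut 1 (K₁.tm x) = K.cut 1 (K₁.tm x + δ) → ∀ c, K₁.hl (c.pb l) x = K.hl c (l x))
  pl : ∀ z, K.tm z ∈ K.J → ∃ x ∈ l.source, l x = z ∧ K₁.tm x ∈ K₁.J ∧ K₁.tm x + δ = K.tm z
  th : ∀ (c : Cfg X.M κ ν) (S S₁ : Set ℝ), (∀ t ∈ S₁, t + δ ∈ S) → S ⊆ K.J →
    (∃ θ : e.YC, Red θ ∧ ∀ x ∈ univ ×ˢ S, ∀ k, c.a k (K.ψ x) = (fz θ).a k x) →
      ∃ θ : e₁.YC, Red θ ∧ ∀ x ∈ univ ×ˢ S₁, ∀ k, (c.pb l).a k (K₁.ψ x) = (fz θ).a k x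

theorem rl_of {K : Nk e b} {K₁ : Nk e b₁} (h : ∀ y, ∀ u ∈ K.J, u - δ ∈ K₁.J ∧
    K₁.ψ (y, u - δ) ∈ l.source ∧ l (K₁.ψ (y, u - δ)) = K.ψ (y, u)) : Rl K K₁ l δ := by
  have h' : ∀ y t, t + δ ∈ K.J → K₁.ψ (y, t) ∈ l.source ∧ l (K₁.ψ (y, t)) = K.ψ (y, t + δ) :=
    fun y t m => by simpa only [add_sub_cancel_right] using (h y _ m).2
  refine ⟨fun x m m' => ?_, fun z m => ?_, fun c S S₁ h1 h2 ⟨θ, k1, k2⟩ => ⟨θ, k1, fun x m k => ?_⟩⟩
  · obtain ⟨⟨y, t⟩, j, rfl⟩ := (mem_img K₁ Subset.rfl).2 m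
    have s₁ := src K₁ j.2 y
    rw [K₁.tm_ψ _ s₁] at m' ⊢
    have s := src K m' y
    rw [(h' y t m').2]
    refine ⟨(h' y t m').1, K.tm_ψ _ s, fun k c => ?_⟩
    simp only [Nk.hl, K.tm_ψ _ s, K₁.tm_ψ _ s₁, K.ext_ψ _ s, K₁.ext_ψ _ s₁, k, sl, Cfg.pb,
      fun y => (h' y t m').2]
  · obtain ⟨⟨y, t⟩, j, rfl⟩ := (mem_img K Subset.rfl).2 m
    obtain ⟨k1, k2, k3⟩ := h y t j.2
    exact ⟨_, k2, k3, by rwa [K₁.tm_ψ _ (src K₁ k1 y)], by
      rw [K₁.tm_ψ _ (src K₁ k1 y), K.tm_ψ _ (src K j.2 y), sub_add_cancel]⟩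
  · have := k2 (x.1, x.2 + δ) ⟨trivial, h1 _ m.2⟩ k
    rw [← (h' x.1 x.2 (h2 (h1 _ m.2))).2, fz_a] at this
    exact this.trans (fz_a θ k x).symm

end nk

section pz
variable {N : Type} [Fintype N] {e : N → En3 κ lam ν} {P : Pz X nc e}

theorem open_Rt : IsOpen (Rt P L) := by
  rw [Rt, ofPred_forall]
  refine isOpen_iInter_of_finite fun i => ?_
  by_cases h : ∃ K ∈ P.nk i, ∃ a, Ct K L a
  · obtain ⟨K, hK, a, h⟩ := h
    convert isOpen_lt K.cont (continuous_const (y := a + L)) using 1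
    exact Set.ext fun x => ⟨fun k => k K hK a h, fun k K' k1 a' k2 => by
      cases hK.symm.trans k1; cases h.1.symm.trans k2.1; exact k⟩
  · convert isOpen_univ
    exact eq_univ_of_forall fun x K k1 a k2 => (h ⟨K, k1, a, k2⟩).elim

theorem not_off {i K a} (hL : 4 ≤ L) (hK : K ∈ P.nk i) (h : Ct K L a) : ¬P.Off i := fun o => by
  obtain ⟨a', h1, h2⟩ := o K hK
  cases h.1.symm.trans h1
  linarith [h.2 _ h2]

theorem uc_mono {C M Λ Λ' : ℝ} (h : Uc P C M Λ) (k : Λ ≤ Λ') : Uc P C M Λ' :=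
  fun σ c φ h1 h2 i h3 K hK =>
    let ⟨t, m, a1, a2, a3⟩ := h σ c φ h1 h2 i h3 K hK
    have n := mul_le_mul_of_nonneg_right k (nm_nonneg (sl (K.pb ⟨c.a, φ⟩) t))
    ⟨t, m, a1.trans n, a2.trans n, a3.trans
      (mul_le_mul_of_nonneg_right k (integral_nonneg fun _ => sq_nonneg _))⟩

/-- only the ends are cut -/
theorem nr_end (hP : P.OK) (hL : 4 ≤ L) (hi : ∀ i, ¬P.Inf i false)
    (hc : ∀ i, ∀ K ∈ P.nk i, ∀ a, Ct K L a → K.q = none)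
    (h : ∀ β c, P.Cr β → (∀ i s, P.Inf i s → (β i s).Φ = 0) → P.As β c → c.Φ = 0 →
      ENNReal.ofReal η ≤ ∫⁻ x, ‖P.bg.eC c x - P.p0.C c x‖ₑ ^ 2 ∂P.bg.F.μ) : Nr P L η := by
  classical
  intro c h0 ha hθ
  have sub : ∀ i, ∀ K ∈ P.nk i, ∀ x ∈ K.ψ.target, (∀ a, Ct K L a → K.tm x < a + L) → x ∈ Rt P L :=
    fun i K hK x m k j K' hK' a k' => by
      by_cases e : j = i
      · subst e
        cases hK.symm.trans hK'
        exact k a k'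
      · refine lt_of_not_ge fun q => disjoint_left.1 (hP.dj e K' hK' K hK) ((tm_tgt K').2
          ⟨fun _ j => by cases k'.1.symm.trans j; linarith, by simp [hc j K' hK' a k']⟩) m
  have : ∀ i, ∃ θ : (e i).YC, ∀ K ∈ P.nk i, ∀ a, Ct K L a → Red θ ∧
      ∀ x ∈ univ ×ˢ Ioo (a + L - 1) (a + L), ∀ k, c.a k (K.ψ x) = (fz θ).a k x := fun i => by
    by_cases k : ∃ K ∈ P.nk i, ∃ a, Ct K L a
    · obtain ⟨K, hK, a, k⟩ := k
      have J : Ioo a (a + L) ⊆ K.J := fun t m => ct_J k m.1 (by linarith [m.2])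
      exact (hθ i K hK a k fun x m => by
        rw [mem_img K J] at m
        exact sub i K hK x ((tm_tgt K).2 (J m)) fun a' k' => by
          cases k.1.symm.trans k'.1; exact m.2).imp fun θ j K' k1 a' k2 => by
        cases hK.symm.trans k1; cases k.1.symm.trans k2.1; exact j
    · exact ⟨⟨0, 0⟩, fun K k1 a k2 => (k ⟨K, k1, a, k2⟩).elim⟩
  choose θ hθ using this
  set c' : Cfg X.M κ ν := ⟨fun k x => if x ∈ Rt P L then c.a k x else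
    ∑ i, (P.nk i).elim 0 fun K => K.χ x * (fz (θ i)).a k (K.ψ.symm x), 0⟩ with hc'
  have dp : ∀ i, ∀ K ∈ P.nk i, ∀ a, Ct K L a → ∀ t, a + L - 1 < t → t ∈ K.deep 2 := fun i K hK a k t m =>
    (mem_deep K).2 ⟨fun _ j => by cases k.1.symm.trans j; linarith, by simp [hc i K hK a k]⟩
  have far : ∀ i, ∀ K ∈ P.nk i, ∀ a, Ct K L a → ∀ z : (e i).Y.M × ℝ, a + L - 1 < z.2 →
      At id (K.pb c') (fz (θ i)) z := fun i K hK a k z m => by
    have s := K.mem_src.2 (deep_J K two_pos (dp i K hK a k _ m))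
    refine ⟨fun j => ?_, (congrFun (hθ i K hK a k).1.2 z.1).symm⟩
    show (if _ then _ else _) = _
    split_ifs with q
    · exact (hθ i K hK a k).2 z ⟨trivial, m, K.tm_ψ z s ▸ q i K hK a k⟩ j
    · rw [sum_nk hP hK (K.ψ.map_source s) _ fun _ K' q => by rw [K'.χ_zero q, zero_mul],
        χ_ψ K (dp i K hK a k _ m), one_mul, K.ψ.left_inv s]
      rfl
  have nr : ∀ x ∈ Rt P L, (∀ i, c'.a i =ᶠ[𝓝 x] c.a i) ∧ c'.Φ =ᶠ[𝓝 x] c.Φ := fun x m =>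
    ⟨fun i => (open_Rt.eventually_mem m).mono fun y q => if_pos q, by rw [h0]⟩
  have out : ∀ x ∉ Rt P L, LA P.bg c' x ∧ P.bg.eC c' x = P.p0.C c' x := fun x m => by
    simp only [Rt, mem_ofPred_eq, not_forall, not_lt, exists_prop] at m
    obtain ⟨i, K, hK, a, k, m⟩ := m
    have d := dp i K hK a k (K.tm x) (by linarith)
    have t := (tm_tgt K).2 (deep_J K two_pos d)
    have ev : ∀ᶠ y in 𝓝 x, At K.ψ.symm c' (fz (θ i)) y := by
      filter_upwards [K.ψ.open_target.mem_nhds t, K.cont.continuousAt.eventually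
        (lt_mem_nhds (show a + L - 1 < K.tm x by linarith))] with y y1 y2
      have := far i K hK a k (K.ψ.symm y) (by rwa [K.snd_symm y1])
      simpa only [At, Cfg.pb, K.ψ.right_inv y1, id] using this
    have l := Cut71.lit_symm (Cut71.nk_lit K)
    have r := (hθ i K hK a k).1
    refine ⟨Cut71.la_φ l t ev (.of_adm r.1.1 _), (Cut71.eC_φ l t ev).trans
      ((Map44.crit_C (hP.en i) r.1 _).trans (Eq.symm ?_))⟩
    refine (sum_nk hP hK t _ fun _ K' q => by rw [Nk.hl, K'.ext_zero _ q, smul_zero]).trans ?_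
    rw [Nk.hl, show sl (K.pb c') (K.tm x) = θ i from YC.ext (funext₂ fun j y =>
      (far i K hK a k (y, _) (by linarith)).1 (some j)) (funext fun y =>
        (far i K hK a k (y, _) (by linarith)).2), Nd18.Nk.ext, K.χ_one (deep_sub K d), one_smul]
  have ct : ∀ i s, ∀ K ∈ P.nk i, K.Inf s → s = true ∧ ∃ a, Ct K L a := fun i s K hK k => by
    have n : ¬K.Inf false := fun j => hi i ⟨K, hK, j⟩
    cases s
    · exact (n k).elim
    · exact ⟨rfl, (fin_f n).imp fun a j => ⟨j, by simp [show K.q = none from k]⟩⟩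
  have rd : ∀ i s, P.Inf i s → Red (θ i) := fun i s ⟨K, hK, k⟩ =>
    let ⟨a, j⟩ := (ct i s K hK k).2; (hθ i K hK a j).1
  refine (h (fun i _ => θ i) c' (fun i s k => (rd i s k).1) (fun i s k => (rd i s k).2)
    ⟨adm_of fun x => ?_, fun i s K hK k => ?_⟩ rfl).trans_eq ?_
  · by_cases m : x ∈ Rt P L
    · have l := LA.of_on ha open_Rt m
      exact ⟨fun i => (l.sa i).congr_of_eventuallyEq ((nr x m).1 i), contMDiffAt_const,
        fun i => by simp only [fun j => ((nr x m).1 j).self_of_nhds, l.pa], map_zero _⟩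
    · exact (out x m).1
  · obtain ⟨rfl, a, j⟩ := ct i s K hK k
    have q : ∀ z ∈ (univ : Set (e i).Y.M) ×ˢ K.far true (a + L - 1), At id (K.pb c') (fz (θ i)) z :=
      fun z m => far i K hK a j z (by simpa [pm] using m.2.2)
    exact ⟨a + L - 1, fun k => hh_congr (Hi.zero.hh _) (isOpen_far K _) fun z m =>
      (sub_eq_zero.2 ((q z m).1 k)).symm,
      hh_congr (Hi.zero.hh _) (isOpen_far K _) fun z m => (sub_eq_zero.2 (q z m).2).symm⟩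
  rw [← lintegral_indicator open_Rt.measurableSet]
  refine lintegral_congr fun x => ?_
  by_cases m : x ∈ Rt P L
  · rw [indicator_of_mem m, Sw88.eC_congr (nr x m).1 (nr x m).2]
    congr 3
    refine Finset.sum_congr rfl fun i _ => elim_congr fun K hK => ?_
    by_cases t : x ∈ K.ψ.target
    · have s := fun y => src K ((tm_tgt K).1 t) y
      have : ∀ y, K.ψ (y, K.tm x) ∈ Rt P L := fun y => sub i K hK _ (K.ψ.map_source (s y)) fun a k => by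
        rw [K.tm_ψ _ (s y)]; exact m i K hK a k
      simp only [Nk.hl, hol, sl, Cfg.pb, hc', if_pos (this _)]
    · rw [hl_zero K _ (.inr t), hl_zero K _ (.inr t)]
  · rw [indicator_of_notMem m, (out x m).2, sub_self, enorm_zero, zero_pow two_ne_zero]

end pz

section cut
variable {N N₁ N₂ : Type} [Fintype N] [Fintype N₁] [Fintype N₂] {ty : N → Flo2.Ty κ lam ν}
  {ty₁ : N₁ → Flo2.Ty κ lam ν} {ty₂ : N₂ → Flo2.Ty κ lam ν} {P : Pz X nc fun i => (ty i).en}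
  {P₁ : Pz X₁ nc₁ fun i => (ty₁ i).en} {P₂ : Pz X₂ nc₂ fun i => (ty₂ i).en} {i : N} {j₁ : N₁}
  {j₂ : N₂} {l : OpenPartialHomeomorph X₁.M X.M} {r : OpenPartialHomeomorph X₂.M X.M}
  {r₁ : N₁ → N → Prop} {r₂ : N₂ → N → Prop}

theorem hlf_rl {δ : ℝ} {c₀} (h : Hlf (en := Flo2.Ty.en) P i P₁ j₁ true l δ r₁ c₀) {K}
    (hK : K ∈ P.nk i) {K₁} (hK₁ : K₁ ∈ P₁.nk j₁) : K.p = K₁.p.map (· + δ) ∧ Rl K K₁ l δ := by
  obtain ⟨e, K', hK', K₁', hK₁', k⟩ := h.nk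
  cases hK.symm.trans hK'
  cases hK₁.symm.trans hK₁'
  have : ∀ {A B : Flo2.Ty κ lam ν} (e : A = B) (K : Nk A.en P.bg) (K₁ : Nk B.en P₁.bg),
      (K₁.Inf true ∧ (if true then K.p = K₁.p.map (· + δ) else K.q = K₁.q.map (· + δ)) ∧
      l.source = {x | x ∉ K₁.ψ '' (univ ×ˢ {t ∈ K₁.J | t + δ ∉ K.J})} ∧
      ∀ y t, t ∈ K₁.J → t + δ ∈ K.J → l (K₁.ψ (y, t)) = (e ▸ K : Nk B.en P.bg).ψ (y, t + δ)) →
      Rl K K₁ l δ := by
    rintro A _ rfl K K₁ k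
    exact rl_of fun y u m => Lwl9.NH.pull k y m
  exact ⟨k.2.1, this e K K₁ k⟩

theorem nc_rl {i' j'} (h : NC (en := Flo2.Ty.en) P₁ P l j' i' 0) (o : ¬P₁.Off j' ∨ ¬P.Off i') :
    ¬P₁.Off j' ∧ ∃ K₁ ∈ P₁.nk j', ∃ K ∈ P.nk i', K.p = K₁.p ∧ K.q = K₁.q ∧ Rl K K₁ l 0 ∧
      ∀ U, IsOpen U → IsPreconnected U → K₁.ψ.target ⊆ U → U ⊆ l.source → ∀ x ∈ sd K₁ false 1,
        x ∈ U → l x ∈ sd K false 1 := by
  obtain ⟨e, K₁, hK₁, K, hK, k⟩ := h.resolve_left fun k => o.elim (· k.1) (· k.2)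
  have : ∀ {A B : Flo2.Ty κ lam ν} (e : A = B) (K : Nk A.en P.bg) (K₁ : Nk B.en P₁.bg),
      K₁.Cor (e ▸ K : Nk B.en P.bg) l 0 → K.p = K₁.p ∧ K.q = K₁.q ∧ Rl K K₁ l 0 ∧
      ∀ U, IsOpen U → IsPreconnected U → K₁.ψ.target ⊆ U → U ⊆ l.source → ∀ x ∈ sd K₁ false 1,
        x ∈ U → l x ∈ sd K false 1 := by
    rintro A _ rfl K K₁ k
    obtain ⟨h1, h2, -, h3⟩ := cor_sd k
    refine ⟨h1, h2, rl_of fun y u m => ?_, fun U a b c d x m m' =>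
      (h3 U a b c d false 1 ⟨one_pos, le_rfl⟩ x m').1 m⟩
    have m' : u ∈ K₁.J := by rwa [Nd18.Nk.J, ← h1, ← h2]
    simpa only [sub_zero, add_zero, m', true_and, eq_comm] using k.2.2 (y, u) (src K₁ m' y)
  exact ⟨(nc_mc h o).1, K₁, hK₁, K, hK, this e K K₁ k⟩

/-- the root lies in the past of a finite cut neck -/
theorem nr_cut (hP : P.OK) (h₁ : P₁.OK) (h₂ : P₂.OK) {δ c₀}
    (h : Sp2 (en := Flo2.Ty.en) P i P₁ j₁ P₂ j₂ l r δ r₁ r₂ c₀) {K} (hK : K ∈ P.nk i) {a b : ℝ}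
    (ha : Ct K L a) (hb : K.q = some b) (hL : 4 ≤ L) (hU : Up P₂) (hN : Nr P₁ L η) : Nr P L η := by
  intro c h0 hc hθ
  have f : ∀ s, ¬K.Inf s := fun s => by cases s <;> simp [Nk.Inf, ha.1, hb]
  have one : (1 : ℝ) ∈ Ioc (0 : ℝ) 1 := ⟨one_pos, le_rfl⟩
  have lb := ha.2 b hb
  obtain ⟨K₁, hK₁, f₁, -, o₁⟩ := hlf_mc h₁ h.l' hK f
  obtain ⟨K₂, hK₂, f₂, -, o₂⟩ := hlf_mc h₂ h.r' hK f
  obtain ⟨p₁, R₁⟩ := hlf_rl h.l' hK hK₁
  obtain ⟨a₁, e₁, rfl⟩ := Option.mem_map.1 (p₁ ▸ ha.1 : a ∈ K₁.p.map (· + δ.1))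
  have c₁ : Ct K₁ L a₁ := ⟨e₁, by simp [show K₁.q = none from f₁]⟩
  have := hP.con
  have := h₁.con
  have := h₂.con
  have s : ∀ x, K₁.tm x < a₁ + L → x ∈ l.source ∧ K.tm (l x) < a₁ + δ.1 + L := fun x m => by
    rcases lt_or_ge a₁ (K₁.tm x) with k | k
    · obtain ⟨k1, k2, -⟩ := R₁.tm x (ct_J c₁ k (by linarith)) (ct_J ha (by linarith) (by linarith))
      exact ⟨k1, by linarith⟩
    · obtain ⟨k1, k2⟩ := (o₁ 1 one x).1 (sd_f.2 ⟨a₁, e₁, by linarith⟩)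
      obtain ⟨_, k3, k4⟩ := sd_f.1 k2
      cases ha.1.symm.trans k3
      exact ⟨k1, by linarith⟩
  have s' := fun x (m : x ∈ Rt P₁ L) => s x (m j₁ K₁ hK₁ a₁ c₁)
  have bk : ∀ i', ¬P.Off i' → ∀ K' ∈ P.nk i', ∀ x ∈ Rt P₁ L, (∀ a', Ct K' L a' → K'.tm (l x) < a' + L) ∧
      (l x ∈ K'.ψ.target → ∃ j', ∃ K₁' ∈ P₁.nk j', ¬P₁.Off j' ∧ x ∈ K₁'.ψ.target) := by
    intro i' o K' hK' x m
    obtain ⟨x1, x2⟩ := s' x m
    rcases h.all i' with rfl | k | ⟨j', k⟩ | ⟨j', k⟩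
    · cases hK.symm.trans hK'
      refine ⟨fun a' k => by cases ha.1.symm.trans k.1; exact x2, fun k => ?_⟩
      obtain ⟨y, y1, y2, y3, -⟩ := R₁.pl _ ((tm_tgt _).1 k)
      exact ⟨j₁, K₁, hK₁, not_off hL hK₁ c₁, l.injOn y1 x1 y2 ▸ (tm_tgt K₁).2 y3⟩
    · exact (o k).elim
    · obtain ⟨n, K₁', k1, K'', k2, k3, k4, R, k5⟩ := nc_rl (h.l'.nc _ _ k).2.2 (.inr o)
      cases k2.symm.trans hK'
      refine ⟨fun a' q => ?_, fun q => ?_⟩
      · have q' : Ct K₁' L a' := ⟨k3 ▸ q.1, k4 ▸ q.2⟩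
        have := m j' K₁' k1 a' q'
        rcases lt_or_ge a' (K₁'.tm x) with u | u
        · linarith [(R.tm x (ct_J q' u (by linarith)) (ct_J q (by linarith) (by linarith))).2.1]
        obtain ⟨_, k6, k7⟩ := sd_f.1 (k5 (univ ∩ {x | K₁.tm x < a₁ + L})
          (isOpen_univ.inter (isOpen_lt K₁.cont continuous_const))
          (con K₁ isOpen_univ isPreconnected_univ (subset_univ _)
            (ct_J c₁ (by linarith) (by linarith))).1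
          (fun y v => ⟨trivial, lt_of_not_ge fun w : a₁ + L ≤ K₁.tm y => disjoint_left.1 (h₁.dj (h.l'.nc _ _ k).1 K₁' k1 K₁ hK₁)
            v ((tm_tgt K₁).2 ⟨fun _ j => by cases e₁.symm.trans j; linarith,
              by simp [show K₁.q = none from f₁]⟩)⟩)
          (fun y v => (s y v.2).1) x (sd_f.2 ⟨a', q'.1, by linarith⟩) ⟨trivial, m j₁ K₁ hK₁ a₁ c₁⟩)
        cases q.1.symm.trans k6
        linarith
      · obtain ⟨y, y1, y2, y3, -⟩ := R.pl _ ((tm_tgt K').1 q)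
        exact ⟨j', K₁', k1, n, l.injOn y1 x1 y2 ▸ (tm_tgt K₁').2 y3⟩
    have n := h.r'.nc _ _ k
    have w : ∀ y ∈ K'.ψ.target, b ≤ K.tm y := fun y v => by
      obtain ⟨_, u1, u2⟩ := hf_t.1 (((hlf_tgt h₂ h.r' hK).2 (nc_tgt n.2.2 o hK' v)).resolve_left
        (disjoint_left.1 (hP.dj n.2.1 K' hK' K hK) v))
      cases hb.symm.trans u1
      exact u2
    refine ⟨fun a' q => ?_, fun q => by linarith [w _ q]⟩
    obtain ⟨σ, u⟩ := side_of (K := K') (con K isOpen_univ isPreconnected_univ (subset_univ _)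
      (a := b - 1 / 4) ⟨fun _ j => by cases ha.1.symm.trans j; linarith,
        fun _ j => by cases hb.symm.trans j; linarith⟩).1
      (disjoint_left.2 fun y v v' => by linarith [w y v, show K.tm y < b - 1 / 4 from v'.2])
    have x3 := @u (l x) ⟨trivial, show K.tm (l x) < b - 1 / 4 by linarith⟩
    cases σ
    · obtain ⟨_, u1, u2⟩ := hf_f.1 x3
      cases q.1.symm.trans u1
      linarith
    obtain ⟨b', u1, -⟩ := hf_t.1 x3
    obtain ⟨-, K₂', k1, K'', k2, k3, k4, -, k5⟩ := nc_rl n.2.2 (.inr o)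
    cases k2.symm.trans hK'
    obtain ⟨z, z1, z2⟩ := exists_tm (K := K) (t := b - 1 / 2) ⟨fun _ j => by
      cases ha.1.symm.trans j; linarith, fun _ j => by cases hb.symm.trans j; linarith⟩
    have z3 := (hlf_tgt h₂ h.r' hK).1 z1
    have z4 := r.right_inv z3
    have z5 := (o₂ 1 one (r.symm z)).2 ⟨r.map_target z3, z4.symm ▸ sd_t.2 ⟨b, hb, by linarith⟩⟩
    have g : ∀ y ∉ K₂.ψ.target, y ∈ hf K₂ true := fun y v => by
      obtain ⟨σ, u⟩ := side_of (K := K₂) isPreconnected_singleton (disjoint_singleton_right.2 v)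
      cases σ
      exacts [(sd_fin (hf_sd one_pos (u rfl)) f₂).elim, u rfl]
    have z6 : r.symm z ∈ K₂.ψ.target := by_contra fun v => by
      obtain ⟨_, u1, u2⟩ := sd_t.1 ((o₂ (1 / 4) (by norm_num) _).1 (hf_sd (by norm_num) (g _ v))).2
      cases hb.symm.trans u1
      rw [z4] at u2
      linarith
    have w₂ := univ_inter _ ▸ con_sd K₂ (s := true) isOpen_univ isPreconnected_univ (subset_univ _) one
    have z7 := k5 _ (open_sd K₂) w₂ (fun y v => hf_sd one_pos (g y (disjoint_left.1 (h₂.dj n.1 K₂' k1 K₂ hK₂) v)))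
      (fun y v => ((o₂ 1 one y).1 v).1) _ (sd_f.2 ⟨a', k3 ▸ q.1, by
        linarith [hU j' K₂' k1 a' (k3 ▸ q.1) b' (k4 ▸ u1) (by linarith [q.2 b' u1]) j₂ ⟨K₂, hK₂, f₂⟩
          K₂ hK₂ _ z6]⟩) z5
    rw [z4] at z7
    cases sd_eq (by norm_num) z7 (hf_sd one_pos (u ⟨trivial, show K.tm z < b - 1 / 4 by linarith⟩))
  have mp : MapsTo l (Rt P₁ L) (Rt P L) := fun x m i' K' k a' q =>
    (bk i' (not_off hL k q) K' k x m).1 a' q
  have pr : ∀ j', ¬P₁.Off j' → ∀ K₁' ∈ P₁.nk j', ∃ i', ∃ K' ∈ P.nk i', ∃ δ', Rl K' K₁' l δ' ∧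
      (∀ a', Ct K₁' L a' → Ct K' L (a' + δ')) ∧ ∀ x ∈ Rt P₁ L, K₁'.tm x ∈ K₁'.J →
        K₁'.tm x + δ' ∈ K'.J ∧ K₁'.cut 1 (K₁'.tm x) = K'.cut 1 (K₁'.tm x + δ') := by
    intro j' o K₁' k
    rcases h.l'.all j' with rfl | u | ⟨i', u⟩
    · obtain rfl := Option.mem_unique k hK₁
      refine ⟨i, K, hK, δ.1, R₁, fun a' q => by cases e₁.symm.trans q.1; exact ha, fun x m t => ?_⟩
      have := m _ _ hK₁ a₁ c₁
      refine ⟨ct_J ha (by linarith [t.1 a₁ e₁]) (by linarith), ?_⟩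
      simp only [Nd18.Nk.cut, Nd18.ct, ha.1, hb, Option.mem_def.1 e₁, show K₁'.q = none from f₁,
        Option.elim_some, Option.elim_none, add_sub_add_right_eq_sub]
      rw [Real.smoothTransition.one_of_one_le (show 1 ≤ b - (K₁'.tm x + δ.1) - 1 by linarith)]
    · exact (o u).elim
    · obtain ⟨-, K₁'', k1, K', k2, k3, k4, R, -⟩ := nc_rl (h.l'.nc _ _ u).2.2 (.inl o)
      cases k1.symm.trans k
      exact ⟨i', K', k2, 0, R, fun a' q => by rw [add_zero]; exact ⟨k3 ▸ q.1, k4 ▸ q.2⟩,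
        fun x _ t => by simp only [add_zero, Nd18.Nk.J, Nd18.Nk.cut, k3, k4, t, and_self]⟩
  have at' : ∀ x, ∀ᶠ y in 𝓝 x, At l (c.pb l) c y := fun x => .of_forall (At.pb _ c)
  refine (hN (c.pb l) (by simp only [Cfg.pb, h0]; rfl) (admOn_of fun x m => Cut71.la_φ h.l'.lit (s' x m).1
    (at' x) (.of_on hc open_Rt (mp m))) fun j' K₁' k a' q sub => ?_).trans (le_of_eq_of_le
      (setLIntegral_congr_fun open_Rt.measurableSet fun x m => ?_) (Cut71.lint_iso h.l'.lit.iso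
        open_Rt.measurableSet open_Rt.measurableSet (fun x m => (s' x m).1) mp _))
  · obtain ⟨i', K', k', δ', R, q', -⟩ := pr j' (not_off hL k q) K₁' k
    replace q' := q' a' q
    have J : Ioo (a' + δ') (a' + δ' + L) ⊆ K'.J := fun t m => ct_J q' m.1 (by linarith [m.2])
    refine R.th c (Ioo (a' + δ' + L - 1) (a' + δ' + L)) _
      (fun t m => ⟨by linarith [m.1], by linarith [m.2]⟩)
      (fun t m => @J t ⟨by linarith [m.1], m.2⟩) (hθ i' K' k' _ q' fun z m => ?_)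
    rw [mem_img K' J] at m
    obtain ⟨y, -, rfl, -, y2⟩ := R.pl z (J m)
    exact mp (sub ((mem_img K₁' fun t m => ct_J q m.1 (by linarith [m.2])).2
      ⟨by linarith [m.1], by linarith [m.2]⟩))
  simp only [Cut71.eC_φ h.l'.lit (s' x m).1 (at' x)]
  congr 3
  by_cases k : ∃ j', ∃ K₁' ∈ P₁.nk j', ¬P₁.Off j' ∧ x ∈ K₁'.ψ.target
  · obtain ⟨j', K₁', k, o, t⟩ := k
    obtain ⟨i', K', k', δ', R, -, q⟩ := pr j' o K₁' k
    obtain ⟨q1, q2⟩ := q x m ((tm_tgt K₁').1 t)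
    obtain ⟨-, q3, q4⟩ := R.tm x ((tm_tgt K₁').1 t) q1
    exact ((sum_nk h₁ k t _ fun _ K q => by rw [Nk.hl, K.ext_zero _ q, smul_zero]).trans
      (q4 q2 c)).trans (sum_nk hP k' ((tm_tgt K').2 (q3 ▸ q1)) _ fun _ K q => by
        rw [Nk.hl, K.ext_zero _ q, smul_zero]).symm
  · exact (Finset.sum_eq_zero fun j' _ => elim_zero fun K₁' q => hl_zero _ _
      (or_iff_not_imp_right.2 fun t => by_contra fun o => k ⟨j', K₁', q, fun u => o (u _ q),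
        not_not.1 t⟩)).trans (Finset.sum_eq_zero fun i' _ => elim_zero fun K' q => hl_zero _ _
      (or_iff_not_imp_right.2 fun t => by_contra fun o =>
        k ((bk i' (fun u => o (u _ q)) K' q x m).2 (not_not.1 t)))).symm

end cut

section tree
variable {g g' : Gc κ lam ν} (hg : g.OK)

theorem dom_of {ι : Fin g'.k → Fin g.k} {r : g'.N → g.N → Prop} (h : ∀ c', (g'.wl c' = none ∧
    g.wl (ι c') = none) ∨ ∃ j ∈ g'.wl c', ∃ i' ∈ g.wl (ι c'), r j i') {t} (ht : t ∈ g.dom) :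
    t ∘ ι ∈ g'.dom := fun c => ⟨(ht _).1, fun k => (h c).elim (fun j => (ht _).2 j.2)
  fun ⟨_, a, _⟩ => by cases k.symm.trans a⟩

include hg

theorem okP (t : Tk g.k) : (g.P t).OK := (hg.fam.ok t (hg.Q ▸ mem_univ t)).toOK

theorem infP (t : Tk g.k) (i s) : (g.P t).Inf i s ↔ g.s.Inf i s :=
  inf_iff hg.fam (hg.Q ▸ mem_univ t) i s

theorem wall {t i K a b} (hK : K ∈ (g.P t).nk i) (ha : a ∈ K.p) (hb : b ∈ K.q) (h : a + 3 < b) :
    ∃ c, g.wl c = some i ∧ 3 ≤ t c := by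
  have n : g.s.nk i = none := by_contra fun n => by
    obtain ⟨K₀, k⟩ := Option.ne_none_iff_exists'.1 n
    obtain ⟨s, u⟩ := hg.fam.ends i K₀ k
    obtain ⟨K', k1, k2⟩ := (infP hg t i s).2 ⟨K₀, k, u⟩
    cases hK.symm.trans k1
    cases s <;> simp [Nk.Inf, Option.mem_def.1 ha, Option.mem_def.1 hb] at k2
  obtain ⟨c, k⟩ : ∃ c, g.wl c = some i := by_contra fun k => by
    obtain ⟨_, k1, k2⟩ := hg.off i n (not_exists.1 k) t K hK
    cases ha.symm.trans k1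
    cases hb.symm.trans k2
    linarith
  refine ⟨c, k, le_of_not_ge fun u => ?_⟩
  have := ((hg.wl c i k).2.2 t).2.1 u
  simp only [Pz.len, Option.mem_def.1 hK, Option.mem_def.1 ha, Option.mem_def.1 hb, Option.elim_some,
    Option.getD_some] at this
  linarith

theorem up_of (hw : ∀ c, ∀ i ∈ g.wl c, ∃ g₁ g₂ cap ι₁ ι₂ l r, g₁.OK ∧ g.Wl g₁ g₂ c i cap ι₁ ι₂ l r)
    (t : Tk g.k) : Up (g.P t) := by
  intro i K hK a ha b hb h j hj K' hK' x m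
  obtain ⟨c, k, u⟩ := wall hg hK ha hb h
  obtain ⟨g₁, g₂, cap, ι₁, ι₂, l, r, h₁, -, j₁, -, j₂, -, r₁, r₂, e, -, -, -, -, -, -, p, -, -, -,
    ⟨δ, sp⟩, -⟩ := hw c i k
  rw [(hg.inn j).1 ((infP hg t j _).1 hj)] at p
  generalize g₁.pin = o at p
  rcases p with @⟨j', _, p⟩
  have n := (sp t u).l'.nc _ _ p
  obtain ⟨_, k1, k2⟩ := hf_f.1 (((hlf_tgt (okP h₁ _) (sp t u).l' hK).2 (nc_tgt n.2.2 (fun o => by
    obtain ⟨K'', q1, q2⟩ := hj
    obtain ⟨_, q3, -⟩ := o K'' q1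
    cases (show K''.p = none from q2).symm.trans q3) hK' m)).resolve_left
      (disjoint_left.1 ((okP hg t).dj n.2.1 K' hK' K hK) m))
  cases ha.symm.trans k1
  exact k2

theorem uc_of (hU : ∀ (d : Dt κ lam ν) (N : Type) [Fintype N] (ty : N → d.𝓔) (X : Mf 4) (nc k : ℕ),
    UcStmt d ty X nc (Fin k → ℝ)) (hw : ∀ c, ∀ i ∈ g.wl c, ∃ g₁ g₂ cap ι₁ ι₂ l r, g₁.OK ∧ g₂.OK ∧
      g.Wl g₁ g₂ c i cap ι₁ ι₂ l r ∧ UcA κ lam ν g₁ ∧ UcA κ lam ν g₂) : UcA κ lam ν g := fun C M => by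
  obtain ⟨Λ₀, h0⟩ := hU (Flo2.d0 fun i => (g.ty i).en) g.N id g.X g.nc g.k g.s g.𝓕 hg.fam
    (Icc 0 fun _ => 3) (hg.Q ▸ subset_univ _) isCompact_Icc C M
  have : ∀ c, ∃ Λ, ∀ t ∈ g.dom, g.wl c ≠ none → 3 ≤ t c → Uc (g.P t) C M Λ := fun c => by
    rcases k : g.wl c with _ | i
    · exact ⟨0, fun _ _ n => (n rfl).elim⟩
    obtain ⟨g₁, g₂, cap, ι₁, ι₂, l, r, h₁, h₂, ⟨-, j₁, -, j₂, -, r₁, r₂, e, -, -, -, -, d₁, d₂, -, -, -,
      -, ⟨δ, sp⟩, -⟩, u₁, u₂⟩ := hw c i k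
    obtain ⟨Λ₁, u₁⟩ := u₁ C M
    obtain ⟨Λ₂, u₂⟩ := u₂ C M
    refine ⟨max Λ₁ Λ₂, fun t ht _ u => ?_⟩
    have w := hg.wl c i k
    have o : ¬(g.P t).Off i := fun o => by
      have := (w.2.2 t).2.2 u
      rcases q : (g.P t).nk i with _ | K
      · simp only [Pz.len, q, Option.elim_none] at this; linarith
      · obtain ⟨a, q1, q2⟩ := o K q
        simp only [Pz.len, q, q1, q2, Option.elim_some, Option.getD_some] at this; linarith
    refine trf _ _ _ _ _ _ _ _ _ g.ty g₁.ty g₂.ty _ i _ j₁ _ j₂ _ _ _ r₁ r₂ e (okP hg t) (okP h₁ _)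
      (okP h₂ _) o (fun K hK => ?_) (sp t u) C M _ (uc_mono (u₁ _ (dom_of d₁ ht)) (le_max_left _ _))
      (uc_mono (u₂ _ (dom_of d₂ ht)) (le_max_right _ _))
    have := fun s (q : K.Inf s) => (infP hg t i s).1 ⟨K, hK, q⟩
    exact ⟨fun q => by simpa [Pz.Inf, w.1] using this false q,
      fun q => by simpa [Pz.Inf, w.1] using this true q⟩
  choose Λ hΛ using this
  obtain ⟨Λ', k1, k2⟩ := ((eventually_ge_atTop Λ₀).and
    (eventually_all.2 fun c => eventually_ge_atTop (Λ c))).exists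
  refine ⟨Λ', fun t ht => ?_⟩
  by_cases k : ∃ c, g.wl c ≠ none ∧ 3 ≤ t c
  · obtain ⟨c, a, b⟩ := k
    exact uc_mono (hΛ c t ht a b) (k2 c)
  · refine uc_mono (h0 t ⟨fun c => (ht c).1, fun c => le_of_not_ge fun u => k ⟨c, fun n => ?_, u⟩⟩) k1
    linarith [(ht c).2 n, show (3 : ℝ) ≤ t c from u]

theorem nr_of (hp : g.pin = none) (hn : g.NoRed) (hw : ∀ c, ∀ i ∈ g.wl c, ∃ g₁ g₂ cap ι₁ ι₂ l r,
    g₁.OK ∧ g₂.OK ∧ g.Wl g₁ g₂ c i cap ι₁ ι₂ l r ∧ (∀ t, Up (g₂.P t)) ∧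
      (g₁.pin = none → ∃ δ > 0, ∀ L ≥ 4, ∀ t ∈ g₁.dom, Nr (g₁.P t) L δ)) :
    ∃ δ > 0, ∀ L ≥ 4, ∀ t ∈ g.dom, Nr (g.P t) L δ := by
  obtain ⟨δ₀, h0, hn⟩ := hn
  have : ∀ c, ∃ δ > 0, ∀ L ≥ 4, ∀ t ∈ g.dom, 3 ≤ t c → ∀ i ∈ g.wl c, ∀ K ∈ (g.P t).nk i, ∀ a b,
      Ct K L a → K.q = some b → Nr (g.P t) L δ := fun c => by
    rcases k : g.wl c with _ | i
    · exact ⟨1, one_pos, fun _ _ _ _ _ _ n => by cases n⟩
    obtain ⟨g₁, g₂, cap, ι₁, ι₂, l, r, h₁, h₂, ⟨-, j₁, -, j₂, -, r₁, r₂, e, -, -, -, -, d₁, -, p, -, -,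
      -, ⟨δ, sp⟩, -⟩, u, n⟩ := hw c i k
    obtain ⟨η, e0, n⟩ := n (by rw [hp] at p; generalize g₁.pin = o at p; cases p; rfl)
    refine ⟨η, e0, fun L hL t ht w _ q K hK a b ha hb => ?_⟩
    cases q
    exact nr_cut (okP hg t) (okP h₁ _) (okP h₂ _) (sp t w) hK ha hb hL (u _) (n L hL _ (dom_of d₁ ht))
  choose δ d0 hδ using this
  obtain ⟨η, k1, k2⟩ := ((show ∀ᶠ η in 𝓝[>] 0, η ∈ Ioc 0 δ₀ from Ioc_mem_nhdsGT h0).and
    (eventually_all.2 fun c => show ∀ᶠ η in 𝓝[>] 0, η ∈ Ioc 0 (δ c) from Ioc_mem_nhdsGT (d0 c))).exists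
  refine ⟨η, k1.1, fun L hL t ht => ?_⟩
  by_cases k : ∃ i, ∃ K ∈ (g.P t).nk i, ∃ a b, Ct K L a ∧ K.q = some b
  · obtain ⟨i, K, hK, a, b, ha, hb⟩ := k
    obtain ⟨c, w, u⟩ := wall hg hK ha.1 hb (by linarith [ha.2 b hb])
    exact fun c' a1 a2 a3 => (ENNReal.ofReal_le_ofReal (k2 c).2).trans
      (hδ c L hL t ht u i w K hK a b ha hb c' a1 a2 a3)
  · exact nr_end (okP hg t) hL (fun i q => by simpa [hp] using (hg.inn i).1 ((infP hg t i _).1 q))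
      (fun i K hK a q => by_contra fun n => let ⟨b, j⟩ := Option.ne_none_iff_exists'.1 n
        k ⟨i, K, hK, a, b, q, j⟩) fun β c a1 a2 a3 a4 =>
      (ENNReal.ofReal_le_ofReal k1.2).trans (hn t ht β c a1 a2 a3 a4)

omit hg

theorem g2_ind (n : Flo2.Nd g) (c) {Q : Gc κ lam ν → Prop} (h1 : Q (n.g2 c))
    (h2 : (∀ c', (n.g2' c).wl c' = none) → Q (n.g2' c)) : Q (n.g2' c) := by
  cases k : n.cap c
  exacts [(n.lit c k).choose ▸ h1, h2 (n.cw c k)]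

theorem up (T : Tr g) (t : Tk g.k) : Up (g.P t) :=
  up_of T.nd.ok (fun c i k => ⟨_, _, _, _, _, _, _, (T.f1 c).nd.ok, (T.nd.wl c i k).1⟩) t

end tree

/-- **EC-TREE** -/
theorem tree (hU : ∀ (d : Dt κ lam ν) (N : Type) [Fintype N] (ty : N → d.𝓔) (X : Mf 4) (nc k : ℕ),
    UcStmt d ty X nc (Fin k → ℝ)) (mk : Mk κ lam ν) : TreeStmt κ lam ν mk := by
  refine ⟨fun g T w => ?_, fun g T _ t _ => up T t, fun g T w => ?_⟩ <;> clear w
  · induction T with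
    | mk n f0 f1 f2 _ h1 h2 => exact uc_of n.ok hU fun c i k => ⟨_, _, _, _, _, _, _, (f1 c).nd.ok,
        (n.wl c i k).2.1, (n.wl c i k).1, h1 c, g2_ind n c (h2 c) fun z =>
          uc_of (n.wl c i k).2.1 hU fun c' _ q => by cases (z c').symm.trans q⟩
  · induction T with
    | mk n f0 f1 f2 _ h1 _ => exact fun i p => nr_of n.ok p (i.1 p) fun c j k =>
        ⟨_, _, _, _, _, _, _, (f1 c).nd.ok, (n.wl c j k).2.1, (n.wl c j k).1,
          g2_ind n c (Q := fun g => ∀ t, Up (g.P t)) (up (f2 c)) fun z =>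
            up_of (n.wl c j k).2.1 (fun c' _ q => by cases (z c').symm.trans q), h1 c (i.2.2.1 c)⟩

end Crest.Agent.X212.Mcg32.Tre
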